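import Vale.Agent.P164.X.Defs8

/-!
# Regular gauges; chordal SLE in general simply connected domains
-/

namespace Vale.Agent.P164

open MeasureTheory ProbabilityTheory Set
open scoped NNReal ENNReal

/-- The function `G(r) = r^(1+κ/8) (log log (1/r))^(1/2-κ/16)` (used for small `r > 0`). -/
noncomputable def exactG (κ r : ℝ) : ℝ :=
  r ^ (1 + κ / 8) * Real.log (Real.log (1 / r)) ^ (1 / 2 - κ / 16)

/-- The lower limit of `k(r)/G(r)` as `r` tends to `0` from the right. -/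
noncomputable def lowRatio (κ : ℝ) (k : ℝ → ℝ) : ℝ≥0∞ :=
  Filter.liminf (fun r => ENNReal.ofReal (k r / exactG κ r)) (nhdsWithin 0 (Ioi 0))

/-- Regular gauges: `k(s) ≤ C (s/r)^(1+κ/8) k(r) + o(G(s))` for small `r ≤ s`. Every gauge with
`k = o(G)`, every gauge comparable to `G`, and every gauge for which `k(r)/r^(1+κ/8)` is decreasing
(up to a constant factor) near `0` is regular. -/
def IsRegularGauge (κ : ℝ) (k : ℝ → ℝ) : Prop :=
  ∃ C : ℝ, ∀ ε : ℝ, 0 < ε → ∃ r₀ : ℝ, 0 < r₀ ∧ ∀ r s : ℝ, 0 < r → r ≤ s → s < r₀ →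
    k s ≤ C * ((s / r) ^ (1 + κ / 8) * k r) + ε * exactG κ s

/-- The open upper half-plane. -/
def uhp : Set ℂ := {z | 0 < z.im}

/-- `φ` is a conformal map of the open upper half-plane onto its image `φ '' uhp` (the images are
the simply connected proper subdomains of `ℂ`). -/
def IsConfMap (φ : ℂ → ℂ) : Prop := DifferentiableOn ℂ φ uhp ∧ InjOn φ uhp

/-- The part inside the domain `φ '' uhp` of the curve `φ ∘ γ` at the times in `S`: for a conformal
map `φ` and a chordal SLE trace `γ` this is a piece of the chordal SLE in the domain `φ '' uhp`. -/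
def domTrace (φ : ℂ → ℂ) (γ : ℝ → ℂ) (S : Set ℝ) : Set ℂ := φ '' (γ '' S ∩ uhp)

/-- The shadow of `A` in `D`: the points `w` of `D` such that `|w - a| ≤ dist (w, ∂D) / 2` for some
`a` in `A`. -/
def shadow (D A : Set ℂ) : Set ℂ := {w ∈ D | ∃ a ∈ A, 2 * dist w a ≤ Metric.infDist w Dᶜ}

/-- The mean of `f` is at most `c`: `f` has a measurable majorant with mean at most `c`. -/
def MeanLe {Ω : Type*} [MeasurableSpace Ω] (P : Measure Ω) (f : Ω → ℝ≥0∞) (c : ℝ≥0∞) : Prop :=
  ∃ X : Ω → ℝ≥0∞, Measurable X ∧ (∀ᵐ ω ∂P, f ω ≤ X ω) ∧ ∫⁻ ω, X ω ∂P ≤ c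

universe u

/-- The law for good gauges. There are constants `M` and `m` such that for every SLE trace `γ`:
(i) almost surely `t ↦ H^k(γ[0,t])` is finite, continuous and strictly increasing on `[0,∞)`, from
`0` to `∞`, and for all conformal maps `φ` at once the whole curve `φ ∘ γ` has finite measure in
every compact subset of the domain, while for all `0 ≤ s < t` its part on `[s,t]` which is not
visited before time `s` has positive measure;
(ii) in every disc of radius `R` centred on the real line the mean measure of the whole trace is at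
most `M R^(1+κ/8)`;
(iii) for every domain `D` and every set `A` the mean measure of the curve in `A` is at most `M`
times the integral of `dist (w, ∂D)^(κ/8-1)` over the shadow of `A`;
(iv) for every `R > 0`, with probability at least `m` the measure of the trace in the disc of
radius `R` about the origin is at least `m R^(1+κ/8)`. -/
def LawGood (κ : ℝ) (k : ℝ → ℝ) : Prop :=
  ∃ M m : ℝ, 0 < M ∧ 0 < m ∧
    ∀ (Ω : Type u) [MeasurableSpace Ω] (P : Measure Ω) (γ : Ω → ℝ → ℂ), IsSLE κ P γ →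
      (∀ᵐ ω ∂P,
        ((∀ t : ℝ, gaugeMeasure k (γ ω '' Icc 0 t) < ⊤) ∧
          gaugeMeasure k (γ ω '' Icc 0 0) = 0 ∧
          ContinuousOn (fun t => gaugeMeasure k (γ ω '' Icc 0 t)) (Ici 0) ∧
          StrictMonoOn (fun t => gaugeMeasure k (γ ω '' Icc 0 t)) (Ici 0) ∧
          Filter.Tendsto (fun t => gaugeMeasure k (γ ω '' Icc 0 t)) Filter.atTop (nhds ⊤)) ∧
        ∀ φ : ℂ → ℂ, IsConfMap φ →
          (∀ K : Set ℂ, IsCompact K → K ⊆ φ '' uhp →
            gaugeMeasure k (domTrace φ (γ ω) (Ici 0) ∩ K) < ⊤) ∧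
          ∀ s t : ℝ, 0 ≤ s → s < t →
            0 < gaugeMeasure k (domTrace φ (γ ω) (Icc s t) \ domTrace φ (γ ω) (Icc 0 s))) ∧
      (∀ x R : ℝ, 0 < R →
        MeanLe P (fun ω => gaugeMeasure k (γ ω '' Ici 0 ∩ Metric.closedBall (x : ℂ) R))
          (ENNReal.ofReal (M * R ^ (1 + κ / 8)))) ∧
      (∀ φ : ℂ → ℂ, IsConfMap φ → ∀ A : Set ℂ,
        MeanLe P (fun ω => gaugeMeasure k (domTrace φ (γ ω) (Ici 0) ∩ A))
          (ENNReal.ofReal M * ∫⁻ w in shadow (φ '' uhp) A,
            ENNReal.ofReal (Metric.infDist w (φ '' uhp)ᶜ) ^ (κ / 8 - 1))) ∧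
      ∀ R : ℝ, 0 < R → ∃ E : Set Ω, MeasurableSet E ∧ ENNReal.ofReal m ≤ P E ∧
        ∀ᵐ ω ∂P, ω ∈ E → ENNReal.ofReal (m * R ^ (1 + κ / 8)) ≤
          gaugeMeasure k (γ ω '' Ici 0 ∩ Metric.closedBall 0 R)

/-- Almost surely the whole trace has measure zero, in the half-plane and in every domain. -/
def LawNull (κ : ℝ) (k : ℝ → ℝ) : Prop :=
  ∀ (Ω : Type u) [MeasurableSpace Ω] (P : Measure Ω) (γ : Ω → ℝ → ℂ), IsSLE κ P γ →
    ∀ᵐ ω ∂P, gaugeMeasure k (γ ω '' Ici 0) = 0 ∧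
      ∀ φ : ℂ → ℂ, IsConfMap φ → gaugeMeasure k (domTrace φ (γ ω) (Ici 0)) = 0

/-- Almost surely, in every domain (for all conformal maps at once) and for all `0 ≤ s < t`, the
part of the curve on `[s,t]` which is not visited before time `s` has infinite measure. -/
def LawInf (κ : ℝ) (k : ℝ → ℝ) : Prop :=
  ∀ (Ω : Type u) [MeasurableSpace Ω] (P : Measure Ω) (γ : Ω → ℝ → ℂ), IsSLE κ P γ →
    ∀ᵐ ω ∂P, ∀ φ : ℂ → ℂ, IsConfMap φ → ∀ s t : ℝ, 0 ≤ s → s < t →
      gaugeMeasure k (domTrace φ (γ ω) (Icc s t) \ domTrace φ (γ ω) (Icc 0 s)) = ⊤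

end Vale.Agent.P164
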