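import Vale.Agent.P164.H362.Gm
import Vale.Agent.P164.H411.Defs

/-!
# Segments and local mass
-/

namespace Vale.Agent.P164

open MeasureTheory ProbabilityTheory Set H362
open scoped NNReal ENNReal

universe u

/-- Almost surely the `k`-measures of all segments `γ[s,t]`, `0 ≤ s < t`, satisfy `p`. -/
def SegLaw (κ : ℝ) (k : ℝ → ℝ) (p : ℝ≥0∞ → Prop) : Prop :=
  ∀ (Ω : Type u) [MeasurableSpace Ω] (P : Measure Ω) (γ : Ω → ℝ → ℂ), IsSLE κ P γ →
    ∀ᵐ ω ∂P, ∀ s t : ℝ, 0 ≤ s → s < t → p (hMeas k (γ ω '' Icc s t))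

/-- The law of the iterated logarithm for the local mass of `E`: for almost every point `z` of `E`
with respect to the `h`-measure, the upper limit as `r ↓ 0` of the `h`-measure of `E ∩ B(z,r)`
divided by `r^(1+κ/8) (log log (1/r))^(1/2-κ/16)` is at least `1` and at most `2^(1+κ/8)`. -/
def LogLogLaw (κ : ℝ) (h : ℝ → ℝ) (E : Set ℂ) : Prop :=
  ∀ᵐ z ∂(hMeas h).restrict E,
    1 ≤ Filter.limsup (fun r : ℝ => hMeas h (E ∩ Metric.closedBall z r) /
      ENNReal.ofReal (exactG κ r)) (nhdsWithin 0 (Ioi 0)) ∧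
    Filter.limsup (fun r : ℝ => hMeas h (E ∩ Metric.closedBall z r) /
      ENNReal.ofReal (exactG κ r)) (nhdsWithin 0 (Ioi 0)) ≤ ENNReal.ofReal (2 ^ (1 + κ / 8))

end Vale.Agent.P164
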