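import Vale.Agent.P164.H411.Dens
import Vale.Agent.P164.H411.IDefs

/-!
# The intrinsic measure of the trace
-/

namespace Vale.Agent.P164.H411

open Set Metric Filter Topology MeasureTheory ProbabilityTheory Vale.Agent.P164.H362
open scoped NNReal ENNReal

universe u

variable {κ d : ℝ} {k h : ℝ → ℝ}

/-- The density theorem in an open set. -/
theorem density_open (hh : IsGauge h) (hv : RegVar h d) {D E : Set ℂ} (hD : IsOpen D)
    (hED : E ⊆ D) (hE : MeasurableSet E)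
    (hfin : ∀ K : Set ℂ, IsCompact K → K ⊆ D → hMeas h (E ∩ K) < ⊤) :
    ∀ᵐ z ∂(hMeas h).restrict E,
      1 ≤ limsup (fun r : ℝ => hMeas h (E ∩ closedBall z r) / ENNReal.ofReal (h r)) (𝓝[>] 0) ∧
      limsup (fun r : ℝ => hMeas h (E ∩ closedBall z r) / ENNReal.ofReal (h r)) (𝓝[>] 0) ≤
        ENNReal.ofReal (2 ^ d) := by
  -- a countable cover of `D` by balls whose closures are in `D`
  have h1 : ∀ z : D, ∃ ρ : ℝ, 0 < ρ ∧ closedBall (z : ℂ) ρ ⊆ D := fun z =>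
    nhds_basis_closedBall.mem_iff.1 (hD.mem_nhds z.2)
  choose ρ hρ hρD using h1
  obtain ⟨T, hT, hcov⟩ := TopologicalSpace.isOpen_iUnion_countable
    (fun z : D => ball (z : ℂ) (ρ z)) (fun z => isOpen_ball)
  have hmem : ∀ z ∈ D, ∃ w ∈ T, z ∈ ball (w : ℂ) (ρ w) := by
    intro z hz
    have h2 : z ∈ ⋃ w : D, ball (w : ℂ) (ρ w) := mem_iUnion.2 ⟨⟨z, hz⟩, mem_ball_self (hρ _)⟩
    rw [← hcov] at h2
    obtain ⟨w, hw, hzw⟩ := mem_iUnion₂.1 h2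
    exact ⟨w, hw, hzw⟩
  have hloc : ∀ w ∈ T, ∀ᵐ z ∂(hMeas h), z ∈ E ∩ closedBall (w : ℂ) (ρ w) →
      1 ≤ limsup (fun r : ℝ => hMeas h (E ∩ closedBall (w : ℂ) (ρ w) ∩ closedBall z r) /
        ENNReal.ofReal (h r)) (𝓝[>] 0) ∧
      limsup (fun r : ℝ => hMeas h (E ∩ closedBall (w : ℂ) (ρ w) ∩ closedBall z r) /
        ENNReal.ofReal (h r)) (𝓝[>] 0) ≤ ENNReal.ofReal (2 ^ d) := by
    intro w _
    have h3 := density hh hv (hE.inter (measurableSet_closedBall (x := (w : ℂ)) (ε := ρ w)))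
      fun R => (measure_mono inter_subset_left).trans_lt
        (hfin _ (isCompact_closedBall (w : ℂ) (ρ w)) (hρD w))
    rwa [ae_restrict_iff' (hE.inter measurableSet_closedBall)] at h3
  rw [ae_restrict_iff' hE]
  filter_upwards [(ae_ball_iff hT).2 hloc] with z hz hzE
  obtain ⟨w, hw, hzw⟩ := hmem z (hED hzE)
  have h4 := hz w hw ⟨hzE, ball_subset_closedBall hzw⟩
  have h5 : (fun r : ℝ => hMeas h (E ∩ closedBall (w : ℂ) (ρ w) ∩ closedBall z r) /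
      ENNReal.ofReal (h r)) =ᶠ[𝓝[>] 0]
      fun r : ℝ => hMeas h (E ∩ closedBall z r) / ENNReal.ofReal (h r) := by
    have h6 : 0 < ρ w - dist z w := by
      have := mem_ball.1 hzw
      linarith
    filter_upwards [Ioo_mem_nhdsGT h6] with r hr
    have h7 : closedBall z r ⊆ closedBall (w : ℂ) (ρ w) :=
      closedBall_subset_closedBall' (by linarith [hr.2])
    rw [inter_assoc, inter_eq_right.2 h7]
  rwa [limsup_congr h5] at h4

/-- The gauge is `G` near `0`, so it is regularly varying. -/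
theorem regVar_exact (hr : ∃ r₀ : ℝ, 0 < r₀ ∧ ∀ r : ℝ, 0 < r → r < r₀ → h r = exactG κ r) :
    RegVar h (1 + κ / 8) := by
  obtain ⟨r₀, hr₀, H⟩ := hr
  refine regVar (κ := κ) (c := 1) one_ne_zero ?_
  have h1 : (fun _ : ℝ => (1 : ℝ)) =ᶠ[𝓝[>] 0] fun r => h r / Gk κ r := by
    filter_upwards [Gk_pos κ, Ioo_mem_nhdsGT hr₀] with r h2 h3
    rw [H r h3.1 h3.2]
    exact (div_self h2.ne').symm
  exact tendsto_const_nhds.congr' h1

/-- The image of the half-line under a continuous curve is a Borel set. -/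
theorem meas_trace {γ : ℝ → ℂ} (hc : ContinuousOn γ (Ici 0)) : MeasurableSet (γ '' Ici 0) := by
  have h1 : γ '' Ici 0 = ⋃ n : ℕ, γ '' Icc 0 (n : ℝ) := by
    rw [← image_iUnion]
    congr 1
    ext x
    simp only [mem_Ici, mem_iUnion, mem_Icc, exists_and_left]
    exact ⟨fun hx => ⟨hx, exists_nat_ge x⟩, fun hx => hx.1⟩
  rw [h1]
  exact MeasurableSet.iUnion fun n =>
    (isCompact_Icc.image_of_continuousOn (hc.mono fun x hx => hx.1)).measurableSet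

theorem ofG {E : Set ℂ} (hr : ∃ r₀ : ℝ, 0 < r₀ ∧ ∀ r : ℝ, 0 < r → r < r₀ → h r = exactG κ r)
    (H : ∀ᵐ z ∂(hMeas h).restrict E,
      1 ≤ limsup (fun r : ℝ => hMeas h (E ∩ closedBall z r) / ENNReal.ofReal (h r)) (𝓝[>] 0) ∧
      limsup (fun r : ℝ => hMeas h (E ∩ closedBall z r) / ENNReal.ofReal (h r)) (𝓝[>] 0) ≤
        ENNReal.ofReal (2 ^ (1 + κ / 8))) : LogLogLaw κ h E := by
  obtain ⟨r₀, hr₀, hG⟩ := hr
  filter_upwards [H] with z hz
  have h5 : (fun r : ℝ => hMeas h (E ∩ closedBall z r) / ENNReal.ofReal (h r)) =ᶠ[𝓝[>] 0]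
      fun r : ℝ => hMeas h (E ∩ closedBall z r) / ENNReal.ofReal (exactG κ r) := by
    filter_upwards [Ioo_mem_nhdsGT hr₀] with r hr
    rw [hG r hr.1 hr.2]
  rwa [limsup_congr h5] at hz

/-- Finiteness of the segments. -/
theorem seg_fin (h0 : 0 < κ) (h8 : κ < 8) (hk : IsGauge k) {C r₀ : ℝ} (hC : 0 < C) (hr₀ : 0 < r₀)
    (hle : ∀ r : ℝ, 0 < r → r < r₀ → k r ≤ C * exactG κ r) : ∃ M : ℝ, 0 < M ∧ LawFin.{u} κ k M := by
  obtain ⟨K, hK, HK⟩ := law_fin.{u} h0 h8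
  refine ⟨K * C, by positivity, HK k hk C hC fun δ hδ => ?_⟩
  have h1 : 0 < min δ (min r₀ 1) := lt_min hδ (lt_min hr₀ one_pos)
  refine ⟨min δ (min r₀ 1) / 2, half_pos h1, ?_, fun r hr => ?_⟩
  · linarith [min_le_left δ (min r₀ 1)]
  · refine hle r (lt_of_lt_of_le (by positivity) hr.1) (hr.2.trans_lt ?_)
    have h2 : min δ (min r₀ 1) ≤ r₀ := (min_le_right _ _).trans (min_le_left _ _)
    linarith

/-- Positivity of the segments. -/
theorem seg_pos (h0 : 0 < κ) (h8 : κ < 8) (hk : IsGauge k) {c r₀ : ℝ} (hc : 0 < c) (hr₀ : 0 < r₀)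
    (hle : ∀ r : ℝ, 0 < r → r < r₀ → c * exactG κ r ≤ k r) : ∃ m : ℝ, 0 < m ∧ LawPos.{u} κ k m := by
  obtain ⟨m, hm, Hm⟩ := law_pos.{u} h0 h8
  refine ⟨m * min c 1, mul_pos hm (lt_min hc one_pos),
    Hm k hk (min c 1) (min r₀ (Real.exp (-Real.exp 1))) (lt_min hc one_pos) (min_le_right _ _)
      (lt_min hr₀ (Real.exp_pos _)) fun r hr hr' => ?_⟩
  have h1 := exactG_pos κ hr (hr'.trans_le (min_le_right _ _))
  exact (mul_le_mul_of_nonneg_right (min_le_left _ _) h1.le).trans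
    (hle r hr (hr'.trans_le (min_le_left _ _)))

theorem seg_good (hk : IsGauge k) {M m : ℝ} (hf : LawFin.{u} κ k M) (hp : LawPos.{u} κ k m) :
    SegLaw.{u} κ k fun x => 0 < x ∧ x < ⊤ := by
  intro Ω _ P γ hγ
  filter_upwards [(hf Ω P γ hγ).1, (hp Ω P γ hγ).1] with ω h1 h2 s t hs hst
  rw [hMeas_apply hk.zero]
  refine ⟨((h2 s t hs hst).1).trans_le (gaugeMeasure_mono k sdiff_subset), ?_⟩
  exact (gaugeMeasure_mono k (image_mono (Icc_subset_Icc_left hs))).trans_lt (h1.1 t)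

theorem seg_null (hk : IsGauge k) (hn : LawNull.{u} κ k) : SegLaw.{u} κ k fun x => x = 0 := by
  intro Ω _ P γ hγ
  filter_upwards [hn Ω P γ hγ] with ω h1 s t hs hst
  rw [hMeas_apply hk.zero]
  refine le_antisymm ((gaugeMeasure_mono k (image_mono fun x hx => ?_)).trans h1.1.le) zero_le
  exact hs.trans hx.1

theorem isConfMap_id : IsConfMap id := ⟨differentiableOn_id, injOn_id _⟩

theorem seg_inf (hk : IsGauge k) (hi : LawInf.{u} κ k) : SegLaw.{u} κ k fun x => x = ⊤ := by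
  intro Ω _ P γ hγ
  filter_upwards [hi Ω P γ hγ] with ω h1 s t hs hst
  rw [hMeas_apply hk.zero]
  refine top_le_iff.1 ((h1 id isConfMap_id s t hs hst).ge.trans (gaugeMeasure_mono k ?_))
  rintro _ ⟨⟨z, hz, rfl⟩, -⟩
  exact hz.1

/-- The image of a trace in a domain is a Borel set. -/
theorem meas_domTrace {φ : ℂ → ℂ} (hφ : IsConfMap φ) {γ : ℝ → ℂ} (hc : ContinuousOn γ (Ici 0)) :
    MeasurableSet (domTrace φ γ (Ici 0)) := by
  have h1 : MeasurableSet (γ '' Ici 0 ∩ uhp) := (meas_trace hc).inter isOpen_uhp.measurableSet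
  exact h1.image_of_continuousOn_injOn (hφ.1.continuousOn.mono inter_subset_right)
    (hφ.2.mono inter_subset_right)

/-- The intrinsic measure of the trace. -/
theorem intrinsic (h0 : 0 < κ) (h8 : κ < 8) (hh : IsGauge h)
    (hr : ∃ r₀ : ℝ, 0 < r₀ ∧ ∀ r : ℝ, 0 < r → r < r₀ → h r = exactG κ r)
    (Ω : Type u) [MeasurableSpace Ω] (P : Measure Ω) (γ : Ω → ℝ → ℂ) (hγ : IsSLE κ P γ) :
    ∀ᵐ ω ∂P,
      (ContinuousOn (fun t => hMeas h (γ ω '' Icc 0 t)) (Ici 0) ∧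
        StrictMonoOn (fun t => hMeas h (γ ω '' Icc 0 t)) (Ici 0) ∧
        Tendsto (fun t => hMeas h (γ ω '' Icc 0 t)) atTop (𝓝 ⊤)) ∧
      LogLogLaw κ h (γ ω '' Ici 0) ∧
      ∀ φ : ℂ → ℂ, IsConfMap φ →
        (∀ K : Set ℂ, IsCompact K → K ⊆ φ '' uhp →
          hMeas h (domTrace φ (γ ω) (Ici 0) ∩ K) < ⊤) ∧
        LogLogLaw κ h (domTrace φ (γ ω) (Ici 0)) := by
  have hv := regVar_exact hr
  obtain ⟨r₀, hr₀, hG⟩ := hr
  obtain ⟨M, hM, hf⟩ := seg_fin.{u} h0 h8 hh (C := 1) one_pos hr₀ fun r h1 h2 => by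
    rw [one_mul, hG r h1 h2]
  obtain ⟨m, hm, hp⟩ := seg_pos.{u} h0 h8 hh (c := 1) one_pos hr₀ fun r h1 h2 => by
    rw [one_mul, hG r h1 h2]
  obtain ⟨W, hW, htr⟩ := sle_drv h0 hγ
  have hball : ∀ᵐ ω ∂P, ∀ R : ℝ, gaugeMeasure h (γ ω '' Ici 0 ∩ closedBall 0 R) < ⊤ := by
    refine fin_ball fun n => ?_
    have h2 := (hf Ω P γ hγ).2.1 0 ((n : ℝ) + 1) (by positivity)
    rw [Complex.ofReal_zero] at h2
    exact MeanLe.ae_lt h2 ENNReal.ofReal_ne_top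
  filter_upwards [htr, (hf Ω P γ hγ).1, law_par h0 hh hf hp Ω P γ hγ, hball] with ω h1 h2 h3 h4
  refine ⟨?_, ofG ⟨r₀, hr₀, hG⟩ (density hh hv (meas_trace h1.cont) fun R => ?_), fun φ hφ => ?_⟩
  · simp only [hMeas_apply hh.zero]
    exact h3.2.2
  · rw [hMeas_apply hh.zero]
    exact h4 R
  · have h5 : ∀ K : Set ℂ, IsCompact K → K ⊆ φ '' uhp →
        hMeas h (domTrace φ (γ ω) (Ici 0) ∩ K) < ⊤ := fun K hK hKD => by
      rw [hMeas_apply hh.zero]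
      exact h2.2 φ hφ K hK hKD
    refine ⟨h5, ofG ⟨r₀, hr₀, hG⟩ (density_open hh hv (isOpen_dom hφ) ?_
      (meas_domTrace hφ h1.cont) h5)⟩
    exact image_mono inter_subset_right

/-- The full answer, for the segments, with time `0` included. -/
theorem segs (h0 : 0 < κ) (h8 : κ < 8) (hk : IsGauge k) :
    ((∃ c C r₀ : ℝ, 0 < c ∧ 0 < r₀ ∧ ∀ r : ℝ, 0 < r → r < r₀ →
        c * exactG κ r ≤ k r ∧ k r ≤ C * exactG κ r) →
      SegLaw.{u} κ k fun x => 0 < x ∧ x < ⊤) ∧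
    ((∀ ε : ℝ, 0 < ε → ∃ δ : ℝ, 0 < δ ∧ ∀ r : ℝ, 0 < r → r ≤ δ → k r ≤ ε * exactG κ r) →
      SegLaw.{u} κ k fun x => x = 0) ∧
    ((∀ ε : ℝ, 0 < ε → ∃ δ : ℝ, 0 < δ ∧ ∀ r : ℝ, 0 < r → r ≤ δ → exactG κ r ≤ ε * k r) →
      SegLaw.{u} κ k fun x => x = ⊤) ∧
    ((∃ r₀ : ℝ, 0 < r₀ ∧ ∀ r : ℝ, 0 < r → r < r₀ →
        k r = r ^ (1 + κ / 8) * Real.log (Real.log (1 / r))) →
      SegLaw.{u} κ k fun x => x = ⊤) := by
  refine ⟨?_, fun ho => ?_, fun ho => seg_inf hk (law_inf h0 h8 ho), ?_⟩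
  · rintro ⟨c, C, r₀, hc, hr₀, H⟩
    obtain ⟨M, hM, hf⟩ := seg_fin.{u} h0 h8 hk (C := max C 1)
      (r₀ := min r₀ (Real.exp (-Real.exp 1))) (lt_max_of_lt_right one_pos)
      (lt_min hr₀ (Real.exp_pos _)) fun r h1 h2 =>
        ((H r h1 (h2.trans_le (min_le_left _ _))).2).trans (mul_le_mul_of_nonneg_right
          (le_max_left _ _) (exactG_pos κ h1 (h2.trans_le (min_le_right _ _))).le)
    obtain ⟨m, hm, hp⟩ := seg_pos.{u} h0 h8 hk hc hr₀ fun r h1 h2 => (H r h1 h2).1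
    exact seg_good hk hf hp
  · refine seg_null hk (law_null h0 h8 hk fun ε hε δ hδ => ?_)
    obtain ⟨δ', hδ', H⟩ := ho ε hε
    have h1 : 0 < min δ (min δ' 1) := lt_min hδ (lt_min hδ' one_pos)
    refine ⟨min δ (min δ' 1) / 2, half_pos h1, ?_, fun r hr => ?_⟩
    · linarith [min_le_left δ (min δ' 1)]
    · refine H r (lt_of_lt_of_le (by positivity) hr.1) (hr.2.trans ?_)
      have h2 : min δ (min δ' 1) ≤ δ' := (min_le_right _ _).trans (min_le_left _ _)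
      linarith
  · rintro ⟨r₀, hr₀, hkr⟩
    exact seg_inf hk (law_inf h0 h8 fun ε hε => cor8_schramm h0 hr₀ hkr ε hε)

/-- The exact gauge. -/
theorem gauge_exists (h0 : 0 < κ) (h8 : κ < 8) :
    ∃ h : ℝ → ℝ, IsGauge h ∧ ∃ r₀ : ℝ, 0 < r₀ ∧ ∀ r : ℝ, 0 < r → r < r₀ → h r = exactG κ r := by
  obtain ⟨g, hg, r₁, hr₁, -, hgr⟩ := exG_exists h0 h8
  exact ⟨g, hg, r₁, hr₁, fun r hr hr' => by rw [exactG_eq, hgr r hr hr']⟩

/-- Conformal covariance of the exact gauge measure. -/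
theorem covariance (h0 : 0 < κ) (hh : IsGauge h)
    (hr : ∃ r₀ : ℝ, 0 < r₀ ∧ ∀ r : ℝ, 0 < r → r < r₀ → h r = exactG κ r) {U E : Set ℂ}
    {φ : ℂ → ℂ} (hU : IsOpen U) (hφ : DifferentiableOn ℂ φ U) (hi : InjOn φ U)
    (hE : MeasurableSet E) (hEU : E ⊆ U) :
    hMeas h (φ '' E) = ∫⁻ z in E, ENNReal.ofReal (‖deriv φ z‖ ^ (1 + κ / 8)) ∂hMeas h := by
  rw [hMeas_apply hh.zero]
  exact conformal hh (by positivity) (regVar_exact hr) hU hφ hE hEU (hi.mono hEU)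
    fun z hz => injOn_deriv_ne_zero hU hφ hi (hEU hz)

end Vale.Agent.P164.H411
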