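import Vale.Agent.P164.Bdl.B18
import Vale.Agent.P164.H411.Defs

/-!
# Conformal maps of the half-plane: inverse, Koebe and Schwarz estimates, distortion
-/

namespace Vale.Agent.P164.H411

section

open Complex MeasureTheory Metric Set Filter Topology Bornology
open scoped Real ComplexConjugate Nat

variable {f : ℂ → ℂ}

/-- An injective holomorphic function has nonvanishing derivative. -/
theorem injOn_deriv_ne_zero {U : Set ℂ} (hU : IsOpen U) (hf1 : DifferentiableOn ℂ f U)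
    (hf2 : InjOn f U) {z₀ : ℂ} (hz : z₀ ∈ U) : deriv f z₀ ≠ 0 := by
  intro hd
  have hnhds : U ∈ 𝓝 z₀ := hU.mem_nhds hz
  have hfa : AnalyticAt ℂ f z₀ := hf1.analyticAt hnhds
  have hφ : AnalyticAt ℂ (fun z => f z - f z₀) z₀ := hfa.sub analyticAt_const
  have hnz : ¬ ∀ᶠ z in 𝓝 z₀, f z - f z₀ = 0 := by
    intro h
    have h2 : ∀ᶠ z in 𝓝[≠] z₀, f z - f z₀ = 0 ∧ z ∈ U :=
      (h.and hnhds).filter_mono nhdsWithin_le_nhds
    obtain ⟨z, ⟨h3, h4⟩, h5⟩ := (h2.and self_mem_nhdsWithin).exists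
    exact h5 (hf2 h4 hz (sub_eq_zero.mp h3))
  obtain ⟨n, g, hg, hg0, hgn⟩ := (hφ.exists_eventuallyEq_pow_smul_nonzero_iff).mpr hnz
  have hn0 : n ≠ 0 := by
    rintro rfl
    have := hgn.self_of_nhds
    simp at this
    exact hg0 this.symm
  have hn1 : n ≠ 1 := by
    rintro rfl
    have h1 : HasDerivAt (fun z => (z - z₀) ^ 1 • g z) (g z₀) z₀ := by
      have := ((hasDerivAt_id z₀).sub_const z₀).fun_mul hg.differentiableAt.hasDerivAt
      simpa using this
    have h2 : HasDerivAt (fun z => f z - f z₀) (g z₀) z₀ := h1.congr_of_eventuallyEq hgn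
    have h3 : HasDerivAt (fun z => f z - f z₀) (deriv f z₀) z₀ :=
      (hfa.differentiableAt.hasDerivAt).sub_const _
    exact hg0 ((h2.unique h3).trans hd)
  obtain ⟨c, hc⟩ := IsAlgClosed.exists_pow_nat_eq (g z₀) (Nat.pos_of_ne_zero hn0)
  have hc0 : c ≠ 0 := by
    rintro rfl
    rw [zero_pow hn0] at hc
    exact hg0 hc.symm
  set k : ℂ → ℂ := fun z => cexp (Complex.log (g z / g z₀) / n) with hk
  have hnC : (n : ℂ) ≠ 0 := by exact_mod_cast hn0
  have hkn : ∀ᶠ z in 𝓝 z₀, k z ^ n = g z / g z₀ := by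
    have : ∀ᶠ z in 𝓝 z₀, g z ≠ 0 := hg.continuousAt.eventually_ne hg0
    filter_upwards [this] with z hz
    rw [hk]
    simp only
    rw [← Complex.exp_nat_mul, mul_div_cancel₀ _ hnC, Complex.exp_log (div_ne_zero hz hg0)]
  have hk0 : k z₀ = 1 := by simp [hk, div_self hg0]
  have hkd : AnalyticAt ℂ k z₀ := by
    have h1 : AnalyticAt ℂ (fun z => g z / g z₀) z₀ := hg.div analyticAt_const hg0
    have h2 : AnalyticAt ℂ (fun z => Complex.log (g z / g z₀)) z₀ := by
      apply h1.clog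
      rw [div_self hg0]
      exact Complex.one_mem_slitPlane
    exact (h2.div analyticAt_const hnC).cexp
  set h : ℂ → ℂ := fun z => (z - z₀) * (c * k z) with hh
  have hha : AnalyticAt ℂ h z₀ := by
    exact (analyticAt_id.sub analyticAt_const).mul (analyticAt_const.mul hkd)
  have hhd : HasDerivAt h c z₀ := by
    have := ((hasDerivAt_id z₀).sub_const z₀).mul
      ((hasDerivAt_const z₀ c).mul hkd.differentiableAt.hasDerivAt)
    refine this.congr_deriv ?_
    simp [hk0]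
  have hhs : HasStrictDerivAt h c z₀ := by
    have := hha.hasStrictDerivAt
    rwa [hhd.deriv] at this
  have hmap : map h (𝓝 z₀) = 𝓝 (h z₀) := hhs.map_nhds_eq hc0
  have hh0 : h z₀ = 0 := by simp [hh]
  have hpow : ∀ᶠ z in 𝓝 z₀, f z - f z₀ = h z ^ n := by
    filter_upwards [hgn, hkn] with z h1 h2
    rw [h1, hh]
    simp only
    rw [mul_pow, mul_pow, h2, hc, smul_eq_mul]
    field_simp
  have hV : {z | f z - f z₀ = h z ^ n ∧ z ∈ U} ∈ 𝓝 z₀ := hpow.and hnhds
  have himg : h '' {z | f z - f z₀ = h z ^ n ∧ z ∈ U} ∈ 𝓝 (0 : ℂ) := by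
    have h1 := image_mem_map (m := h) hV
    rwa [hmap, hh0] at h1
  obtain ⟨ε, hε, hball⟩ := Metric.mem_nhds_iff.mp himg
  have hprim := Complex.isPrimitiveRoot_exp n hn0
  set ω := cexp (2 * π * I / n) with hω
  have hω1 : ω ≠ 1 := hprim.ne_one (by omega)
  have hωn : ω ^ n = 1 := hprim.pow_eq_one
  have hωnorm : ‖ω‖ = 1 := Complex.norm_eq_one_of_pow_eq_one hωn hn0
  set w : ℂ := ((ε / 2 : ℝ) : ℂ) with hw
  have hwn : ‖w‖ = ε / 2 := by
    rw [hw, Complex.norm_real, Real.norm_eq_abs, abs_of_pos (by positivity)]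
  have hw1 : w ∈ ball (0 : ℂ) ε := by rw [mem_ball_zero_iff, hwn]; linarith
  have hw2 : ω * w ∈ ball (0 : ℂ) ε := by
    rw [mem_ball_zero_iff, norm_mul, hωnorm, one_mul, hwn]; linarith
  obtain ⟨z1, ⟨h11, h12⟩, h13⟩ := hball hw1
  obtain ⟨z2, ⟨h21, h22⟩, h23⟩ := hball hw2
  have heq : f z1 = f z2 := by
    have : f z1 - f z₀ = f z2 - f z₀ := by
      rw [h11, h21, h13, h23, mul_pow, hωn, one_mul]
    exact sub_left_injective this
  have hz12 := hf2 h12 h22 heq
  rw [hz12, h23] at h13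
  have hw0 : w ≠ 0 := by
    intro h0
    rw [h0, norm_zero] at hwn
    linarith
  exact hω1 (mul_right_cancel₀ hw0 (by rw [h13, one_mul]))



end

open Set Metric Filter Topology MeasureTheory
open scoped NNReal ENNReal

theorem isOpen_uhp : IsOpen uhp := isOpen_lt continuous_const Complex.continuous_im

variable {φ : ℂ → ℂ}

theorem diffAt (hφ : IsConfMap φ) {z : ℂ} (hz : z ∈ uhp) : DifferentiableAt ℂ φ z :=
  hφ.1.differentiableAt (isOpen_uhp.mem_nhds hz)

theorem strict (hφ : IsConfMap φ) {z : ℂ} (hz : z ∈ uhp) : HasStrictDerivAt φ (deriv φ z) z :=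
  (hφ.1.analyticAt (isOpen_uhp.mem_nhds hz)).hasStrictDerivAt

theorem deriv_ne (hφ : IsConfMap φ) {z : ℂ} (hz : z ∈ uhp) : deriv φ z ≠ 0 :=
  injOn_deriv_ne_zero isOpen_uhp hφ.1 hφ.2 hz

theorem isOpen_dom (hφ : IsConfMap φ) : IsOpen (φ '' uhp) := by
  rw [isOpen_iff_mem_nhds]
  rintro _ ⟨z, hz, rfl⟩
  rw [← (strict hφ hz).map_nhds_eq (deriv_ne hφ hz)]
  exact image_mem_map (isOpen_uhp.mem_nhds hz)

/-- The inverse of a conformal map. -/
noncomputable def cinv (φ : ℂ → ℂ) : ℂ → ℂ := Function.invFunOn φ uhp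

theorem cinv_mem {w : ℂ} (hw : w ∈ φ '' uhp) : cinv φ w ∈ uhp := Function.invFunOn_mem hw

theorem cinv_eq {w : ℂ} (hw : w ∈ φ '' uhp) : φ (cinv φ w) = w := Function.invFunOn_eq hw

theorem cinv_left (hφ : IsConfMap φ) {z : ℂ} (hz : z ∈ uhp) : cinv φ (φ z) = z :=
  hφ.2.leftInvOn_invFunOn hz

theorem strict_cinv (hφ : IsConfMap φ) {z : ℂ} (hz : z ∈ uhp) :
    HasStrictDerivAt (cinv φ) (deriv φ z)⁻¹ (φ z) := by
  refine (strict hφ hz).to_local_left_inverse (deriv_ne hφ hz) ?_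
  filter_upwards [isOpen_uhp.mem_nhds hz] with x hx
  exact cinv_left hφ hx

theorem diffOn_cinv (hφ : IsConfMap φ) : DifferentiableOn ℂ (cinv φ) (φ '' uhp) := by
  rintro _ ⟨z, hz, rfl⟩
  exact (strict_cinv hφ hz).hasDerivAt.differentiableAt.differentiableWithinAt

/-- The Cayley transform with pole at the conjugate point. -/
theorem cay_lt {z ζ : ℂ} (hz : 0 < z.im) (hζ : 0 < ζ.im) :
    ‖(ζ - z) / (ζ - starRingEnd ℂ z)‖ < 1 := by
  have hne : ζ - starRingEnd ℂ z ≠ 0 := by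
    intro h
    have := congrArg Complex.im h
    simp only [Complex.sub_im, Complex.conj_im, sub_neg_eq_add, Complex.zero_im] at this
    linarith
  rw [norm_div, div_lt_one (norm_pos_iff.2 hne)]
  refine lt_of_pow_lt_pow_left₀ 2 (norm_nonneg _) ?_
  rw [← Complex.normSq_eq_norm_sq, ← Complex.normSq_eq_norm_sq, Complex.normSq_apply,
    Complex.normSq_apply]
  simp only [Complex.sub_re, Complex.sub_im, Complex.conj_re, Complex.conj_im, sub_neg_eq_add]
  nlinarith [mul_pos hz hζ]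

theorem cay_diff {z ζ : ℂ} (hz : 0 < z.im) (hζ : 0 < ζ.im) :
    HasDerivAt (fun ζ => (ζ - z) / (ζ - starRingEnd ℂ z))
      ((z - starRingEnd ℂ z) / (ζ - starRingEnd ℂ z) ^ 2) ζ := by
  have hne : ζ - starRingEnd ℂ z ≠ 0 := by
    intro h
    have := congrArg Complex.im h
    simp only [Complex.sub_im, Complex.conj_im, sub_neg_eq_add, Complex.zero_im] at this
    linarith
  have h1 := ((hasDerivAt_id ζ).sub_const z).div ((hasDerivAt_id ζ).sub_const (starRingEnd ℂ z)) hne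
  refine h1.congr_deriv ?_
  simp only [id]
  congr 1
  ring

/-- The image is not the whole plane (Liouville). -/
theorem compl_nonempty (hφ : IsConfMap φ) : (φ '' uhp)ᶜ.Nonempty := by
  rw [nonempty_compl]
  intro huniv
  have hI : (Complex.I : ℂ) ∈ uhp := by simp [uhp]
  have hI2 : (2 * Complex.I : ℂ) ∈ uhp := by simp [uhp]
  have hI0 : 0 < (Complex.I).im := hI
  have hm : ∀ w, cinv φ w ∈ uhp := fun w => cinv_mem (by rw [huniv]; trivial)
  set g : ℂ → ℂ := fun w => (cinv φ w - Complex.I) / (cinv φ w - starRingEnd ℂ Complex.I) with hg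
  have hd : Differentiable ℂ g := by
    intro w
    have h1 : DifferentiableAt ℂ (cinv φ) w :=
      (diffOn_cinv hφ).differentiableAt (by rw [huniv]; exact univ_mem)
    exact ((cay_diff hI0 (hm w)).differentiableAt).comp w h1
  have hb : Bornology.IsBounded (range g) := by
    refine isBounded_iff_forall_norm_le.2 ⟨1, ?_⟩
    rintro _ ⟨w, rfl⟩
    exact (cay_lt hI0 (hm w)).le
  have h1 := hd.apply_eq_apply_of_bounded hb (φ Complex.I) (φ (2 * Complex.I))
  simp only [hg] at h1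
  rw [cinv_left hφ hI, cinv_left hφ hI2, sub_self, zero_div] at h1
  have h2 : (2 * Complex.I - Complex.I : ℂ) / (2 * Complex.I - starRingEnd ℂ Complex.I) ≠ 0 := by
    have h3 : (2 * Complex.I - Complex.I : ℂ) = Complex.I := by ring
    have h4 : (2 * Complex.I - starRingEnd ℂ Complex.I : ℂ) = 3 * Complex.I := by
      rw [Complex.conj_I]; ring
    rw [h3, h4]
    exact div_ne_zero Complex.I_ne_zero (mul_ne_zero (by norm_num) Complex.I_ne_zero)
  exact h2 h1.symm

/-- The distance of `φ z` to the boundary. -/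
noncomputable def bd (φ : ℂ → ℂ) (z : ℂ) : ℝ := infDist (φ z) (φ '' uhp)ᶜ

/-- Koebe. -/
theorem bd_ge (hφ : IsConfMap φ) {z : ℂ} (hz : 0 < z.im) : z.im * ‖deriv φ z‖ / 10 ≤ bd φ z := by
  have hsub : ball z z.im ⊆ uhp := by
    intro ζ hζ
    have h1 : |(ζ - z).im| ≤ ‖ζ - z‖ := Complex.abs_im_le_norm _
    rw [mem_ball, dist_eq_norm] at hζ
    rw [Complex.sub_im] at h1
    have := neg_abs_le (ζ.im - z.im)
    change 0 < ζ.im
    linarith
  rw [bd, le_infDist (compl_nonempty hφ)]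
  intro y hy
  by_contra hlt
  push Not at hlt
  have h1 := koebe_image hz (hφ.1.mono hsub) (hφ.2.mono hsub)
  have h2 : y ∈ ball (φ z) (z.im * ‖deriv φ z‖ / 10) := by
    rw [mem_ball, dist_comm]
    exact hlt
  exact hy (image_mono hsub (h1 h2))

theorem bd_pos (hφ : IsConfMap φ) {z : ℂ} (hz : 0 < z.im) : 0 < bd φ z := by
  refine lt_of_lt_of_le ?_ (bd_ge hφ hz)
  have := norm_pos_iff.2 (deriv_ne hφ hz)
  positivity

/-- Schwarz. -/
theorem bd_le (hφ : IsConfMap φ) {z : ℂ} (hz : 0 < z.im) : bd φ z ≤ 2 * z.im * ‖deriv φ z‖ := by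
  have hδ := bd_pos hφ hz
  have hsub : ball (φ z) (bd φ z) ⊆ φ '' uhp := by
    intro w hw
    by_contra hcon
    have h1 : infDist (φ z) (φ '' uhp)ᶜ ≤ dist (φ z) w := infDist_le_dist_of_mem hcon
    rw [mem_ball, dist_comm] at hw
    exact absurd h1 (not_le.2 hw)
  have hdz := deriv_ne hφ hz
  set g : ℂ → ℂ := fun w => (cinv φ w - z) / (cinv φ w - starRingEnd ℂ z) with hg
  have hgz : g (φ z) = 0 := by
    simp only [hg]
    rw [cinv_left hφ hz, sub_self, zero_div]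
  have hgd : ∀ w ∈ φ '' uhp, HasDerivAt g ((z - starRingEnd ℂ z) /
      (cinv φ w - starRingEnd ℂ z) ^ 2 * (deriv φ (cinv φ w))⁻¹) w := by
    rintro _ ⟨x, hx, rfl⟩
    have h1 := cay_diff (ζ := cinv φ (φ x)) hz (by rw [cinv_left hφ hx]; exact hx)
    have h2 := h1.comp (φ x) (strict_cinv hφ hx).hasDerivAt
    rw [cinv_left hφ hx] at h2 ⊢
    exact h2
  have h1 := Complex.norm_deriv_le_div_of_mapsTo_ball (f := g) (c := φ z) (R₁ := bd φ z) (R₂ := 1)
    (fun w hw => (hgd w (hsub hw)).differentiableAt.differentiableWithinAt)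
    (fun w hw => by
      rw [hgz, mem_closedBall_zero_iff]
      exact (cay_lt hz (cinv_mem (hsub hw))).le) hδ
  rw [(hgd _ ⟨z, hz, rfl⟩).deriv, cinv_left hφ hz] at h1
  have h3 : z - starRingEnd ℂ z = (2 * z.im : ℝ) * Complex.I := by
    apply Complex.ext
    · simp
    · simp
      ring
  have h4 : ‖z - starRingEnd ℂ z‖ = 2 * z.im := by
    rw [h3, norm_mul, Complex.norm_I, mul_one, Complex.norm_real, Real.norm_of_nonneg (by positivity)]
  have h5 : ‖(z - starRingEnd ℂ z) / (z - starRingEnd ℂ z) ^ 2 * (deriv φ z)⁻¹‖ =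
      (2 * z.im * ‖deriv φ z‖)⁻¹ := by
    rw [norm_mul, norm_div, norm_pow, norm_inv, h4]
    have := norm_pos_iff.2 hdz
    field_simp
  rw [h5, one_div] at h1
  have hpos : 0 < 2 * z.im * ‖deriv φ z‖ := by
    have := norm_pos_iff.2 hdz
    positivity
  exact (inv_le_inv₀ hpos hδ).1 h1

/-- Distortion on small balls. -/
theorem dstr (hφ : IsConfMap φ) {z₀ : ℂ} (h₀ : 0 < z₀.im) :
    (∀ z ∈ closedBall z₀ (z₀.im / 100), 0 < z.im ∧ z.im ≤ 2 * z₀.im ∧
      bd φ z ≤ 2 * bd φ z₀ ∧ bd φ z₀ / 2 ≤ bd φ z ∧ bd φ z₀ / (5 * z₀.im) ≤ ‖deriv φ z‖) ∧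
    ∀ z ∈ closedBall z₀ (z₀.im / 100), ∀ z' ∈ closedBall z₀ (z₀.im / 100),
      dist (φ z) (φ z') ≤ 12 * bd φ z₀ / z₀.im * dist z z' := by
  set K := closedBall z₀ (z₀.im / 100) with hK
  have him : ∀ z ∈ K, 99 / 100 * z₀.im ≤ z.im ∧ z.im ≤ 101 / 100 * z₀.im := by
    intro z hz
    rw [hK, mem_closedBall, dist_eq_norm] at hz
    have h1 : |(z - z₀).im| ≤ ‖z - z₀‖ := Complex.abs_im_le_norm _
    rw [Complex.sub_im] at h1
    have h2 := abs_le.1 (h1.trans hz)
    constructor <;> linarith [h2.1, h2.2]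
  have hsub : K ⊆ uhp := fun z hz => by
    change 0 < z.im
    linarith [(him z hz).1]
  have hcont : ContinuousOn (bd φ) K :=
    (continuous_infDist_pt _).comp_continuousOn (hφ.1.continuousOn.mono hsub)
  obtain ⟨zm, hzm, hmax⟩ := (isCompact_closedBall z₀ (z₀.im / 100)).exists_isMaxOn
    ⟨z₀, mem_closedBall_self (by positivity)⟩ hcont
  have hM0 : 0 < bd φ zm := bd_pos hφ (hsub hzm)
  have hz₀K : z₀ ∈ K := mem_closedBall_self (by positivity)
  have hder : ∀ z ∈ K, ‖deriv φ z‖ ≤ 10 * bd φ zm / (99 / 100 * z₀.im) := by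
    intro z hz
    have h1 := bd_ge hφ (hsub hz)
    have h2 : bd φ z ≤ bd φ zm := hmax hz
    rw [le_div_iff₀ (by positivity)]
    have h3 := mul_le_mul_of_nonneg_right (him z hz).1 (norm_nonneg (deriv φ z))
    linarith
  have hlip : ∀ z ∈ K, ∀ z' ∈ K, dist (φ z) (φ z') ≤
      10 * bd φ zm / (99 / 100 * z₀.im) * dist z z' := by
    intro z hz z' hz'
    rw [dist_eq_norm, dist_eq_norm]
    exact (convex_closedBall z₀ (z₀.im / 100)).norm_image_sub_le_of_norm_deriv_le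
      (fun x hx => diffAt hφ (hsub hx)) hder hz' hz
  have hbl : ∀ z z' : ℂ, bd φ z ≤ bd φ z' + dist (φ z) (φ z') := fun z z' =>
    infDist_le_infDist_add_dist
  have hdist : ∀ z ∈ K, dist (φ z) (φ z₀) ≤ bd φ zm / (99 / 10) := by
    intro z hz
    refine (hlip z hz z₀ hz₀K).trans ?_
    have h1 : dist z z₀ ≤ z₀.im / 100 := mem_closedBall.1 hz
    calc 10 * bd φ zm / (99 / 100 * z₀.im) * dist z z₀
        ≤ 10 * bd φ zm / (99 / 100 * z₀.im) * (z₀.im / 100) := by gcongr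
      _ = bd φ zm / (99 / 10) := by
          field_simp
  have hm : bd φ zm ≤ 9 / 8 * bd φ z₀ := by
    have h1 := hbl zm z₀
    have h2 := hdist zm hzm
    have h3 : bd φ zm / (99 / 10) = 10 / 99 * bd φ zm := by ring
    linarith
  have hb0 := bd_pos hφ h₀
  refine ⟨fun z hz => ?_, fun z hz z' hz' => ?_⟩
  · have h1 : bd φ z ≤ bd φ zm := hmax hz
    have h2 := hbl z₀ z
    have h3 := hdist z hz
    rw [dist_comm] at h3
    have h4 : bd φ zm / (99 / 10) = 10 / 99 * bd φ zm := by ring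
    have h5 : bd φ z₀ / 2 ≤ bd φ z := by linarith
    have h6 := bd_le hφ (hsub hz)
    refine ⟨hsub hz, by linarith [(him z hz).2], by linarith, h5, ?_⟩
    rw [div_le_iff₀ (by positivity)]
    have h7 := mul_le_mul_of_nonneg_right (him z hz).2 (norm_nonneg (deriv φ z))
    nlinarith [norm_nonneg (deriv φ z)]
  · refine (hlip z hz z' hz').trans ?_
    gcongr ?_ * _
    rw [div_le_div_iff₀ (by positivity) h₀]
    nlinarith

end Vale.Agent.P164.H411
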