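import Vale.Agent.P164.H411.Laws

/-!
# The classification of regular gauges
-/

namespace Vale.Agent.P164.H411

open Set Metric Filter Topology MeasureTheory ProbabilityTheory
open scoped NNReal ENNReal

universe u

variable {κ : ℝ} {k : ℝ → ℝ}

/-- The exact gauge is eventually positive. -/
theorem exactG_ev (κ : ℝ) : ∀ᶠ r in 𝓝[>] (0 : ℝ), 0 < exactG κ r := by
  filter_upwards [Ioo_mem_nhdsGT (Real.exp_pos (-Real.exp 1))] with r hr
  exact exactG_pos κ hr.1 hr.2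

theorem freq_of_lowRatio {η : ℝ} (hη : 0 < η)
    (h : lowRatio κ k < ENNReal.ofReal η) : ∃ᶠ r in 𝓝[>] (0 : ℝ), k r ≤ η * exactG κ r := by
  have h1 : ∃ᶠ r in 𝓝[>] (0 : ℝ), ENNReal.ofReal (k r / exactG κ r) < ENNReal.ofReal η :=
    frequently_lt_of_liminf_lt (by isBoundedDefault) h
  refine (h1.and_eventually (exactG_ev κ)).mono fun r hr => ?_
  have h2 := (ENNReal.ofReal_lt_ofReal_iff hη).1 hr.1
  exact ((div_lt_iff₀ hr.2).1 h2).le

theorem ev_of_lowRatio {c : ℝ} (hc : 0 < c) (h : ENNReal.ofReal c < lowRatio κ k) :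
    ∃ r₀ : ℝ, 0 < r₀ ∧ ∀ r : ℝ, 0 < r → r < r₀ → c * exactG κ r ≤ k r := by
  have h1 : ∀ᶠ r in 𝓝[>] (0 : ℝ), ENNReal.ofReal c < ENNReal.ofReal (k r / exactG κ r) :=
    eventually_lt_of_lt_liminf h
  have h2 := h1.and (exactG_ev κ)
  rw [eventually_nhdsWithin_iff] at h2
  obtain ⟨δ, hδ, H⟩ := Metric.eventually_nhds_iff.1 h2
  refine ⟨δ, hδ, fun r hr hr' => ?_⟩
  obtain ⟨h3, h4⟩ := H (y := r) (by rw [Real.dist_eq, sub_zero, abs_of_pos hr]; exact hr') hr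
  have h5 : c < k r / exactG κ r := by
    by_contra hcon
    push Not at hcon
    exact absurd h3 (not_lt.2 (ENNReal.ofReal_le_ofReal hcon))
  exact ((lt_div_iff₀ h4).1 h5).le

/-- The classification of regular gauges. -/
theorem classify (h0 : 0 < κ) (h8 : κ < 8) (hk : IsGauge k) :
    (IsRegularGauge κ k →
      (lowRatio κ k = 0 → LawNull.{u} κ k) ∧
      (0 < lowRatio κ k → lowRatio κ k < ⊤ → LawGood.{u} κ k)) ∧
    (lowRatio κ k = ⊤ → LawInf.{u} κ k) := by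
  refine ⟨fun hreg => ⟨fun h => ?_, fun h1 h2 => ?_⟩, fun h => ?_⟩
  · obtain ⟨A, hA, hreg'⟩ := often_reg h0 h8 hk hreg
    refine law_null h0 h8 hk fun ε hε => ?_
    have h1 := hreg' (ε / A) (div_pos hε hA) (freq_of_lowRatio (div_pos hε hA)
      (by rw [h]; exact ENNReal.ofReal_pos.2 (div_pos hε hA)))
    rwa [mul_div_cancel₀ _ hA.ne'] at h1
  · obtain ⟨A, hA, hreg'⟩ := often_reg h0 h8 hk hreg
    obtain ⟨K, hK, HK⟩ := law_fin.{u} h0 h8
    obtain ⟨m, hm, Hm⟩ := law_pos.{u} h0 h8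
    obtain ⟨η, hη, hη1⟩ : ∃ η : ℝ, 0 < η ∧ lowRatio κ k < ENNReal.ofReal η := by
      refine ⟨(lowRatio κ k).toReal + 1, by positivity, ?_⟩
      rw [ENNReal.lt_ofReal_iff_toReal_lt h2.ne]
      linarith
    obtain ⟨c, hc, hc1, hc2⟩ : ∃ c : ℝ, 0 < c ∧ c ≤ 1 ∧ ENNReal.ofReal c < lowRatio κ k := by
      have h3 : 0 < (lowRatio κ k).toReal := ENNReal.toReal_pos h1.ne' h2.ne
      refine ⟨min ((lowRatio κ k).toReal / 2) 1, lt_min (half_pos h3) one_pos, min_le_right _ _, ?_⟩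
      rw [ENNReal.ofReal_lt_iff_lt_toReal (by positivity) h2.ne]
      exact (min_le_left _ _).trans_lt (half_lt_self h3)
    obtain ⟨r₀, hr₀, hlow⟩ := ev_of_lowRatio hc hc2
    have hO := hreg' η hη (freq_of_lowRatio hη hη1)
    have hF := HK k hk (A * η) (by positivity) hO
    have hP := Hm k hk c r₀ hc hc1 hr₀ hlow
    exact law_good h0 hk (by positivity) (by positivity) hF hP
  · refine law_inf h0 h8 fun ε hε => ?_
    obtain ⟨r₀, hr₀, hlow⟩ := ev_of_lowRatio (κ := κ) (k := k) (c := ε⁻¹) (inv_pos.2 hε)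
      (by rw [h]; exact ENNReal.ofReal_lt_top)
    refine ⟨r₀ / 2, half_pos hr₀, fun r hr hr' => ?_⟩
    have h1 := hlow r hr (by linarith)
    rwa [inv_mul_le_iff₀ hε] at h1

end Vale.Agent.P164.H411
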