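import Mathlib.MeasureTheory.Covering.BesicovitchVectorSpace
import Mathlib.MeasureTheory.Measure.Regular
import Vale.Agent.P164.H362.Conf
import Vale.Agent.P164.H411.Main

/-!
# Upper densities of a set with respect to the measure of a gauge
-/

namespace Vale.Agent.P164.H411

open Set Metric Filter Topology MeasureTheory Vale.Agent.P164.H362
open scoped NNReal ENNReal

variable {h : ℝ → ℝ} {d : ℝ}

theorem eq_zero_of_le_mul {X c : ℝ≥0∞} (hX : X ≠ ⊤) (hc : c < 1) (h : X ≤ c * X) : X = 0 := by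
  by_contra h0
  have h1 : c * X < 1 * X := ENNReal.mul_lt_mul_left h0 hX hc
  rw [one_mul] at h1
  exact absurd h (not_le.2 h1)

/-- Points of low density. -/
theorem low_null (hh : IsGauge h) {E A : Set ℂ} (hAE : A ⊆ E) (hfin : hMeas h A ≠ ⊤) {c : ℝ≥0∞}
    (hc0 : c ≠ 0) (hc : c < 1) {ρ : ℝ} (hρ : 0 < ρ)
    (H : ∀ z ∈ A, ∀ r : ℝ, 0 < r → r < ρ →
      hMeas h (E ∩ closedBall z r) ≤ c * ENNReal.ofReal (h r)) : hMeas h A = 0 := by
  have hct : c ≠ ⊤ := (hc.trans ENNReal.one_lt_top).ne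
  refine eq_zero_of_le_mul hfin hc ?_
  have key : hMeas h A / c ≤ pre h (ρ / 2) A := by
    refine le_iInf fun U => le_iInf fun hU => le_iInf fun hU' => ?_
    refine ENNReal.div_le_of_le_mul' ?_
    rw [← ENNReal.tsum_mul_left]
    have h1 : A ⊆ ⋃ n, A ∩ U n := by
      rw [← inter_iUnion]
      exact fun z hz => ⟨hz, hU hz⟩
    refine (measure_mono h1).trans ((measure_iUnion_le _).trans (ENNReal.tsum_le_tsum fun n => ?_))
    rcases (A ∩ U n).eq_empty_or_nonempty with he | ⟨z, hz, hzU⟩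
    · rw [he, measure_empty]
      exact zero_le
    · have hsub : A ∩ U n ⊆ E ∩ closedBall z (diam (U n)) := fun w hw =>
        ⟨hAE hw.1, mem_closedBall.2 (dist_le_diam_of_mem (hU' n).1 hw.2 hzU)⟩
      rcases eq_or_lt_of_le (Metric.diam_nonneg (s := U n)) with h0 | h0
      · have h2 : A ∩ U n ⊆ {z} := by
          intro w hw
          have := (hsub hw).2
          rw [← h0, closedBall_zero] at this
          exact this
        refine (measure_mono h2).trans ?_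
        rw [hMeas_apply hh.zero, gm_singleton hh]
        exact zero_le
      · refine (measure_mono hsub).trans (H z hz _ h0 ?_)
        have := (hU' n).2
        linarith
  have h2 : hMeas h A / c ≤ hMeas h A := by
    rw [hMeas_apply hh.zero] at key ⊢
    exact key.trans (pre_le_gaugeMeasure h (half_pos hρ) A)
  rwa [ENNReal.div_le_iff hc0 hct, mul_comm] at h2

/-- Points of high density. -/
theorem high_null (hh : IsGauge h) (hv : RegVar h d) {E A : Set ℂ}
    (hE : MeasurableSet E) {R : ℝ} (hfin : hMeas h (E ∩ closedBall 0 (R + 1)) < ⊤) (hAE : A ⊆ E)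
    (hAR : A ⊆ closedBall 0 R) {C : ℝ} (hC : (2 : ℝ) ^ d < C)
    (H : ∀ z ∈ A, ∃ᶠ r in 𝓝[>] (0 : ℝ), ENNReal.ofReal (C * h r) < hMeas h (E ∩ closedBall z r)) :
    hMeas h A = 0 := by
  obtain ⟨M, hM1, hM2⟩ := exists_between hC
  have h2d : 0 < (2 : ℝ) ^ d := Real.rpow_pos_of_pos two_pos d
  have hM0 : 0 < M := h2d.trans hM1
  have hC0 : 0 < C := hM0.trans hM2
  have hB : MeasurableSet (E ∩ closedBall 0 (R + 1)) := hE.inter measurableSet_closedBall
  obtain ⟨ν, hν⟩ : ∃ ν : Measure ℂ, ν = (hMeas h).restrict (E ∩ closedBall 0 (R + 1)) := ⟨_, rfl⟩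
  have hνa : ∀ S : Set ℂ, ν S = hMeas h (S ∩ (E ∩ closedBall 0 (R + 1))) := fun S => by
    rw [hν, Measure.restrict_apply' hB]
  have : IsFiniteMeasure ν := ⟨by rw [hνa, univ_inter]; exact hfin⟩
  have hAB : A ⊆ E ∩ closedBall 0 (R + 1) := fun z hz =>
    ⟨hAE hz, closedBall_subset_closedBall (by linarith) (hAR hz)⟩
  have hνA : ∀ S ⊆ A, ν S = hMeas h S := fun S hS => by
    rw [hνa, inter_eq_left.2 (hS.trans hAB)]
  have hAfin : hMeas h A ≠ ⊤ := ((measure_mono hAB).trans_lt hfin).ne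
  -- a scale below which `h (2 r) ≤ M h r`
  have h1 : ∀ᶠ r in 𝓝[>] (0 : ℝ), h (2 * r) / h r < M := (hv 2 two_pos).eventually_lt_const hM1
  obtain ⟨r₁, hr₁, H1⟩ := mem_nhdsGT_iff_exists_Ioo_subset.1 h1
  have hr₁' : 0 < r₁ := hr₁
  refine eq_zero_of_le_mul (c := ENNReal.ofReal (M / C)) hAfin ?_ ?_
  · rw [← ENNReal.ofReal_one]
    exact (ENNReal.ofReal_lt_ofReal_iff one_pos).2 ((div_lt_one hC0).2 hM2)
  -- it suffices to have the bound with an error
  refine ENNReal.le_of_forall_pos_le_add fun ε hε _ => ?_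
  obtain ⟨ε', hε', hεε⟩ : ∃ ε' : ℝ≥0∞, 0 < ε' ∧ ENNReal.ofReal (M / C) * ε' ≤ ε := by
    refine ⟨ε, by simpa using hε, ?_⟩
    calc ENNReal.ofReal (M / C) * ε ≤ 1 * (ε : ℝ≥0∞) := by
          refine mul_le_mul_left (α := ℝ≥0∞) ?_ _
          rw [← ENNReal.ofReal_one]
          exact ENNReal.ofReal_le_ofReal ((div_lt_one hC0).2 hM2).le
      _ = ε := one_mul _
  obtain ⟨V, hAV, hVo, hVν⟩ := A.exists_isOpen_lt_add (μ := ν)
    (by rw [hνA A subset_rfl]; exact hAfin) hε'.ne'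
  -- the coverings
  have hcov : ∀ n : ℕ, ∃ (t : Set ℂ) (r : ℂ → ℝ), t.Countable ∧ t ⊆ A ∧
      (∀ z ∈ t, 0 < r z ∧ r z ≤ 1 / ((n : ℝ) + 1) ∧ r z < r₁ ∧ closedBall z (r z) ⊆ V ∧
        ENNReal.ofReal (C * h (r z)) < ν (closedBall z (r z))) ∧
      ν (A \ ⋃ z ∈ t, closedBall z (r z)) = 0 ∧
      t.PairwiseDisjoint fun z => closedBall z (r z) := by
    intro n
    have hV : ∀ z ∈ A, ∃ ρ : ℝ, 0 < ρ ∧ ball z ρ ⊆ V := fun z hz =>
      Metric.isOpen_iff.1 hVo z (hAV hz)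
    choose! ρ hρ hρV using hV
    have hf : ∀ z ∈ A, ∀ δ > 0,
        ({r : ℝ | ENNReal.ofReal (C * h r) < hMeas h (E ∩ closedBall z r)} ∩ Ioo 0 δ).Nonempty := by
      intro z hz δ hδ
      obtain ⟨r, hr1, hr2⟩ := ((H z hz).and_eventually (Ioo_mem_nhdsGT hδ)).exists
      exact ⟨r, hr1, hr2⟩
    have hR : ∀ z ∈ A, 0 < min (min (ρ z) 1) (min (1 / ((n : ℝ) + 1)) r₁) := by
      intro z hz
      exact lt_min (lt_min (hρ z hz) one_pos) (lt_min (by positivity) hr₁')
    obtain ⟨t, r, ht1, ht2, ht3, ht4, ht5⟩ := Besicovitch.exists_disjoint_closedBall_covering_ae ν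
      (fun z => {r : ℝ | ENNReal.ofReal (C * h r) < hMeas h (E ∩ closedBall z r)}) A hf
      (fun z => min (min (ρ z) 1) (min (1 / ((n : ℝ) + 1)) r₁)) hR
    refine ⟨t, r, ht1, ht2, fun z hz => ?_, ht4, ht5⟩
    obtain ⟨h3, h4, h5⟩ := ht3 z hz
    rw [lt_min_iff, lt_min_iff, lt_min_iff] at h5
    refine ⟨h4, h5.2.1.le, h5.2.2, (closedBall_subset_ball h5.1.1).trans (hρV z (ht2 hz)), ?_⟩
    refine lt_of_lt_of_le h3 ?_
    rw [hνa]
    refine measure_mono fun w hw => ⟨hw.2, hw.1, ?_⟩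
    have h6 := hAR (ht2 hz)
    rw [mem_closedBall] at h6 ⊢
    have h7 := mem_closedBall.1 hw.2
    linarith [dist_triangle w z 0, h5.1.2]
  choose t r ht1 ht2 ht3 ht4 ht5 using hcov
  obtain ⟨A', hA'⟩ : ∃ A' : Set ℂ, A' = A ∩ ⋂ n, ⋃ z ∈ t n, closedBall z (r n z) := ⟨_, rfl⟩
  have hA'0 : hMeas h (A \ A') = 0 := by
    rw [← hνA _ sdiff_subset]
    have h3 : A \ A' ⊆ ⋃ n, A \ ⋃ z ∈ t n, closedBall z (r n z) := by
      intro z hz
      by_contra hcon
      refine hz.2 ?_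
      rw [hA']
      refine ⟨hz.1, mem_iInter.2 fun n => ?_⟩
      by_contra hc2
      exact hcon (mem_iUnion.2 ⟨n, hz.1, hc2⟩)
    exact measure_mono_null h3 (measure_iUnion_null ht4)
  have hAA' : hMeas h A ≤ hMeas h A' := by
    calc hMeas h A ≤ hMeas h (A' ∪ A \ A') := measure_mono fun z hz => by
          by_cases hz' : z ∈ A'
          · exact Or.inl hz'
          · exact Or.inr ⟨hz, hz'⟩
      _ ≤ hMeas h A' + hMeas h (A \ A') := measure_union_le _ _
      _ = hMeas h A' := by rw [hA'0, add_zero]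
  refine hAA'.trans ?_
  have : ∀ n, Countable (t n) := fun n => (ht1 n).to_subtype
  have hlim : Tendsto (fun n : ℕ => ENNReal.ofReal (2 * (1 / ((n : ℝ) + 1)))) atTop (𝓝 0) := by
    have h5 : Tendsto (fun n : ℕ => 2 * (1 / ((n : ℝ) + 1))) atTop (𝓝 (2 * 0)) :=
      tendsto_one_div_add_atTop_nhds_zero_nat.const_mul _
    rw [mul_zero] at h5
    simpa using ENNReal.tendsto_ofReal h5
  have hdiam : ∀ n, ∀ z ∈ t n, diam (closedBall z (r n z)) ≤ 2 * r n z := fun n z hz =>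
    diam_closedBall (ht3 n z hz).1.le
  have hediam : ∀ n, ∀ z ∈ t n, ediam (closedBall z (r n z)) = ENNReal.ofReal
      (diam (closedBall z (r n z))) := fun n z hz => by
    rw [Metric.diam, ENNReal.ofReal_toReal]
    exact isBounded_closedBall.ediam_ne_top
  have key := Measure.mkMetric_le_liminf_tsum (X := ℂ) A'
    (fun n : ℕ => ENNReal.ofReal (2 * (1 / ((n : ℝ) + 1)))) hlim
    (fun n (z : t n) => closedBall (z : ℂ) (r n z)) (Eventually.of_forall fun n z => by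
      rw [hediam n z z.2]
      refine ENNReal.ofReal_le_ofReal ((hdiam n z z.2).trans ?_)
      have := (ht3 n z z.2).2.1
      linarith)
    (Eventually.of_forall fun n z hz => by
      rw [hA'] at hz
      have h3 := mem_iInter.1 hz.2 n
      obtain ⟨w, hw, hzw⟩ := mem_iUnion₂.1 h3
      exact mem_iUnion.2 ⟨⟨w, hw⟩, hzw⟩)
    (fun x : ℝ≥0∞ => ENNReal.ofReal (h x.toReal))
  refine key.trans (liminf_le_of_frequently_le' (Frequently.of_forall fun n => ?_))
  calc ∑' z : t n, ENNReal.ofReal (h (ediam (closedBall (z : ℂ) (r n z))).toReal)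
      ≤ ∑' z : t n, ENNReal.ofReal (M / C) * ν (closedBall (z : ℂ) (r n z)) := by
        refine ENNReal.tsum_le_tsum fun z => ?_
        obtain ⟨hr0, -, hrr, -, hlt⟩ := ht3 n z z.2
        have h3 : h (diam (closedBall (z : ℂ) (r n z))) ≤ h (2 * r n z) :=
          hh.mono Metric.diam_nonneg (show (0 : ℝ) ≤ 2 * r n z by positivity) (hdiam n z z.2)
        have h4 : h (2 * r n z) / h (r n z) < M := H1 ⟨hr0, hrr⟩
        rw [div_lt_iff₀ (hh.pos _ hr0)] at h4
        have h5 : h (diam (closedBall (z : ℂ) (r n z))) ≤ M / C * (C * h (r n z)) := by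
          refine (h3.trans h4.le).trans (le_of_eq ?_)
          field_simp
        calc ENNReal.ofReal (h (ediam (closedBall (z : ℂ) (r n z))).toReal)
            ≤ ENNReal.ofReal (M / C * (C * h (r n z))) := ENNReal.ofReal_le_ofReal h5
          _ = ENNReal.ofReal (M / C) * ENNReal.ofReal (C * h (r n z)) :=
              ENNReal.ofReal_mul (by positivity)
          _ ≤ _ := mul_le_mul_right hlt.le _
    _ = ENNReal.ofReal (M / C) * ν (⋃ z ∈ t n, closedBall z (r n z)) := by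
        rw [ENNReal.tsum_mul_left, measure_biUnion (ht1 n) (ht5 n) fun z _ =>
          measurableSet_closedBall]
    _ ≤ ENNReal.ofReal (M / C) * (hMeas h A + ε') := by
        refine mul_le_mul_right ?_ _
        refine (measure_mono (iUnion₂_subset fun z hz => (ht3 n z hz).2.2.2.1)).trans ?_
        rw [← hνA A subset_rfl]
        exact hVν.le
    _ = ENNReal.ofReal (M / C) * hMeas h A + ENNReal.ofReal (M / C) * ε' := mul_add _ _ _
    _ ≤ _ := by gcongr

/-- The density theorem: the upper density is between `1` and `2 ^ d` almost everywhere. -/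
theorem density (hh : IsGauge h) (hv : RegVar h d) {E : Set ℂ} (hE : MeasurableSet E)
    (hfin : ∀ R : ℝ, hMeas h (E ∩ closedBall 0 R) < ⊤) :
    ∀ᵐ z ∂(hMeas h).restrict E,
      1 ≤ limsup (fun r : ℝ => hMeas h (E ∩ closedBall z r) / ENNReal.ofReal (h r)) (𝓝[>] 0) ∧
      limsup (fun r : ℝ => hMeas h (E ∩ closedBall z r) / ENNReal.ofReal (h r)) (𝓝[>] 0) ≤
        ENNReal.ofReal (2 ^ d) := by
  have h2d : 0 < (2 : ℝ) ^ d := Real.rpow_pos_of_pos two_pos d
  rw [ae_restrict_iff' hE]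
  obtain ⟨A, hA⟩ : ∃ A : ℕ → Set ℂ, A = fun n : ℕ => {z ∈ E ∩ closedBall 0 (n : ℝ) |
      ∀ r : ℝ, 0 < r → r < 1 / ((n : ℝ) + 1) → hMeas h (E ∩ closedBall z r) ≤
        ENNReal.ofReal (1 - 1 / ((n : ℝ) + 2)) * ENNReal.ofReal (h r)} := ⟨_, rfl⟩
  obtain ⟨B, hB⟩ : ∃ B : ℕ → Set ℂ, B = fun n : ℕ => {z ∈ E ∩ closedBall 0 (n : ℝ) |
      ∃ᶠ r in 𝓝[>] (0 : ℝ), ENNReal.ofReal ((2 ^ d + 1 / ((n : ℝ) + 1)) * h r) <
        hMeas h (E ∩ closedBall z r)} := ⟨_, rfl⟩
  have hA0 : ∀ n, hMeas h (A n) = 0 := by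
    intro n
    have h1 : (1 : ℝ) / ((n : ℝ) + 2) < 1 := by
      rw [div_lt_one (by positivity)]
      have : (0 : ℝ) ≤ n := Nat.cast_nonneg n
      linarith
    have h3 : 0 < (1 : ℝ) / ((n : ℝ) + 2) := by positivity
    refine low_null hh (E := E) (c := ENNReal.ofReal (1 - 1 / ((n : ℝ) + 2)))
      (ρ := 1 / ((n : ℝ) + 1)) ?_ ?_ ?_ ?_ (by positivity) ?_
    · rw [hA]
      exact fun z hz => hz.1.1
    · refine ((measure_mono ?_).trans_lt (hfin n)).ne
      rw [hA]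
      exact fun z hz => hz.1
    · exact (ENNReal.ofReal_pos.2 (by linarith)).ne'
    · rw [← ENNReal.ofReal_one]
      exact (ENNReal.ofReal_lt_ofReal_iff one_pos).2 (by linarith)
    · intro z hz
      rw [hA] at hz
      exact hz.2
  have hB0 : ∀ n, hMeas h (B n) = 0 := by
    intro n
    refine high_null hh hv hE (R := n) (C := 2 ^ d + 1 / ((n : ℝ) + 1)) (hfin _) ?_ ?_ ?_ ?_
    · rw [hB]
      exact fun z hz => hz.1.1
    · rw [hB]
      exact fun z hz => hz.1.2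
    · have : 0 < (1 : ℝ) / ((n : ℝ) + 1) := by positivity
      linarith
    · intro z hz
      rw [hB] at hz
      exact hz.2
  have hnull : hMeas h ((⋃ n, A n) ∪ ⋃ n, B n) = 0 :=
    measure_union_null (measure_iUnion_null hA0) (measure_iUnion_null hB0)
  have hz0 : ∀ᵐ z ∂(hMeas h), z ∉ (⋃ n, A n) ∪ ⋃ n, B n := measure_eq_zero_iff_ae_notMem.1 hnull
  filter_upwards [hz0] with z hz hzE
  rw [mem_union, not_or] at hz
  have hn1 : ∀ᶠ n : ℕ in atTop, z ∈ closedBall (0 : ℂ) (n : ℝ) := by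
    filter_upwards [eventually_ge_atTop ⌈‖z‖⌉₊] with n hn
    rw [mem_closedBall, dist_zero_right]
    exact (Nat.le_ceil _).trans (by exact_mod_cast hn)
  constructor
  · by_contra hcon
    push Not at hcon
    refine hz.1 ?_
    obtain ⟨c, hc1, hc2⟩ := exists_between hcon
    have hev : ∀ᶠ r in 𝓝[>] (0 : ℝ),
        hMeas h (E ∩ closedBall z r) / ENNReal.ofReal (h r) < c := eventually_lt_of_limsup_lt hc1
    rw [eventually_nhdsWithin_iff] at hev
    obtain ⟨ρ, hρ, H⟩ := Metric.eventually_nhds_iff.1 hev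
    have hn2 : ∀ᶠ n : ℕ in atTop, 1 / ((n : ℝ) + 1) < ρ :=
      tendsto_one_div_add_atTop_nhds_zero_nat.eventually_lt_const hρ
    have hn3 : ∀ᶠ n : ℕ in atTop, c < ENNReal.ofReal (1 - 1 / ((n : ℝ) + 2)) := by
      have h5 : Tendsto (fun n : ℕ => 1 - 1 / ((n : ℝ) + 2)) atTop (𝓝 1) := by
        have h6 : Tendsto (fun n : ℕ => 1 / ((n : ℝ) + 2)) atTop (𝓝 0) := by
          simp_rw [one_div]
          exact tendsto_inv_atTop_zero.comp
            (tendsto_atTop_add_const_right _ _ tendsto_natCast_atTop_atTop)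
        simpa using (tendsto_const_nhds (x := (1 : ℝ))).sub h6
      have h7 := ENNReal.tendsto_ofReal h5
      rw [ENNReal.ofReal_one] at h7
      exact h7.eventually_const_lt hc2
    obtain ⟨n, hm1, hm2, hm3⟩ := (hn1.and (hn2.and hn3)).exists
    refine mem_iUnion.2 ⟨n, ?_⟩
    rw [hA]
    refine ⟨⟨hzE, hm1⟩, fun r hr hr' => ?_⟩
    have h8 := H (y := r) (by rw [Real.dist_eq, sub_zero, abs_of_pos hr]; linarith) hr
    have h9 : ENNReal.ofReal (h r) ≠ 0 := (ENNReal.ofReal_pos.2 (hh.pos r hr)).ne'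
    rw [ENNReal.div_lt_iff (Or.inl h9) (Or.inl ENNReal.ofReal_ne_top)] at h8
    exact h8.le.trans (mul_le_mul_left hm3.le _)
  · by_contra hcon
    push Not at hcon
    refine hz.2 ?_
    obtain ⟨c, hc1, hc2⟩ := exists_between hcon
    have hct : c ≠ ⊤ := (hc2.trans_le le_top).ne
    have hfreq : ∃ᶠ r in 𝓝[>] (0 : ℝ),
        c < hMeas h (E ∩ closedBall z r) / ENNReal.ofReal (h r) :=
      frequently_lt_of_lt_limsup (by isBoundedDefault) hc2
    have hc3 : (2 : ℝ) ^ d < c.toReal := by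
      rwa [ENNReal.ofReal_lt_iff_lt_toReal h2d.le hct] at hc1
    have hn2 : ∀ᶠ n : ℕ in atTop, 1 / ((n : ℝ) + 1) < c.toReal - 2 ^ d :=
      tendsto_one_div_add_atTop_nhds_zero_nat.eventually_lt_const (by linarith)
    obtain ⟨n, hm1, hm2⟩ := (hn1.and hn2).exists
    refine mem_iUnion.2 ⟨n, ?_⟩
    rw [hB]
    refine ⟨⟨hzE, hm1⟩, (hfreq.and_eventually self_mem_nhdsWithin).mono fun r hr => ?_⟩
    have hr0 : 0 < r := hr.2
    have h9 : ENNReal.ofReal (h r) ≠ 0 := (ENNReal.ofReal_pos.2 (hh.pos r hr0)).ne'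
    have h8 := hr.1
    rw [ENNReal.lt_div_iff_mul_lt (Or.inl h9) (Or.inl ENNReal.ofReal_ne_top)] at h8
    refine lt_of_le_of_lt ?_ h8
    rw [← ENNReal.ofReal_toReal hct, ← ENNReal.ofReal_mul ENNReal.toReal_nonneg]
    refine ENNReal.ofReal_le_ofReal (mul_le_mul_of_nonneg_right ?_ (hh.pos r hr0).le)
    linarith

end Vale.Agent.P164.H411
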