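import Vale.Agent.P164.H411.HP

/-!
# Discs
-/

namespace Vale.Agent.P164.H411

open Set Metric Filter Topology MeasureTheory ProbabilityTheory
open scoped NNReal ENNReal

theorem infDist_disc {c : ℂ} {R : ℝ} {w : ℂ} : R - ‖w - c‖ ≤ infDist w (ball c R)ᶜ := by
  have hne : (ball c R)ᶜ.Nonempty := by
    refine ⟨c + ((max R 0 : ℝ) : ℂ), ?_⟩
    rw [mem_compl_iff, mem_ball, dist_eq_norm, add_sub_cancel_left, Complex.norm_real,
      Real.norm_of_nonneg (le_max_right _ _), not_lt]
    exact le_max_left _ _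
  rw [le_infDist hne]
  intro y hy
  have h1 : R ≤ dist y c := not_lt.1 hy
  have h2 := dist_triangle y w c
  rw [dist_eq_norm w c, dist_comm y w] at h2
  linarith

theorem int_flip {e : ℝ} (he : -1 < e) {R : ℝ} (hR : 0 < R) :
    ∫⁻ t in Ioo 0 R, ENNReal.ofReal (R - t) ^ e = ENNReal.ofReal (R ^ (e + 1) / (e + 1)) := by
  have h1 : ∫⁻ t in Ioo 0 R, ENNReal.ofReal (R - t) ^ e =
      ∫⁻ t, (Ioo 0 R).indicator (fun t => ENNReal.ofReal t ^ e) (R - t) := by
    rw [← lintegral_indicator measurableSet_Ioo]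
    refine lintegral_congr fun t => ?_
    by_cases ht : t ∈ Ioo 0 R
    · rw [indicator_of_mem ht, indicator_of_mem (show R - t ∈ Ioo 0 R from
        ⟨by linarith [ht.2], by linarith [ht.1]⟩)]
    · rw [indicator_of_notMem ht, indicator_of_notMem fun h => ht
        ⟨by linarith [h.2], by linarith [h.1]⟩]
  rw [h1, lintegral_sub_left_eq_self, lintegral_indicator measurableSet_Ioo, ← int_rpow he hR]
  exact setLIntegral_congr Ioo_ae_eq_Ioc

theorem disc_int {κ : ℝ} (h0 : 0 < κ) (h8 : κ < 8) (c : ℂ) {R : ℝ} (hR : 0 < R) (A : Set ℂ) :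
    ∫⁻ w in shadow (ball c R) A, ENNReal.ofReal (infDist w (ball c R)ᶜ) ^ (κ / 8 - 1) ≤
      ENNReal.ofReal (64 / κ * R ^ (1 + κ / 8)) := by
  have hs : shadow (ball c R) A ⊆ ball c R := fun w hw => hw.1
  set g : ℂ → ℝ≥0∞ := (ball (0 : ℂ) R).indicator
    (fun w => ENNReal.ofReal (R - ‖w‖) ^ (κ / 8 - 1)) with hg
  have h1 : ∫⁻ w in ball c R, ENNReal.ofReal (infDist w (ball c R)ᶜ) ^ (κ / 8 - 1) ≤
      ∫⁻ w, g (w - c) := by
    rw [← lintegral_indicator measurableSet_ball]
    refine lintegral_mono fun w => ?_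
    by_cases hw : w ∈ ball c R
    · have hw' : w - c ∈ ball (0 : ℂ) R := by
        rw [mem_ball_zero_iff, ← dist_eq_norm]
        exact hw
      rw [indicator_of_mem hw, hg, indicator_of_mem hw']
      have e1 : κ / 8 - 1 = -(1 - κ / 8) := by ring
      rw [e1, ENNReal.rpow_neg, ENNReal.rpow_neg]
      exact ENNReal.inv_le_inv.2 (ENNReal.rpow_le_rpow (ENNReal.ofReal_le_ofReal infDist_disc)
        (by linarith))
    · rw [indicator_of_notMem hw]
      exact zero_le
  refine (lintegral_mono_set hs).trans (h1.trans ?_)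
  rw [lintegral_sub_right_eq_self g c, ← Complex.lintegral_comp_polarCoord_symm g]
  have h2 : ∀ p ∈ polarCoord.target, ENNReal.ofReal p.1 • g (Complex.polarCoord.symm p) ≤
      ENNReal.ofReal R * (Ioo 0 R).indicator (fun t => ENNReal.ofReal (R - t) ^ (κ / 8 - 1)) p.1 := by
    intro p hp
    have hp0 : 0 < p.1 := hp.1
    have hn : ‖Complex.polarCoord.symm p‖ = p.1 := by
      rw [Complex.norm_polarCoord_symm, abs_of_pos hp0]
    rw [smul_eq_mul]
    by_cases hpR : p.1 < R
    · rw [hg, indicator_of_mem (by rw [mem_ball_zero_iff, hn]; exact hpR), hn,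
        indicator_of_mem (show p.1 ∈ Ioo 0 R from ⟨hp0, hpR⟩)]
      exact mul_le_mul_left (ENNReal.ofReal_le_ofReal hpR.le) _
    · rw [hg, indicator_of_notMem (by rw [mem_ball_zero_iff, hn]; exact hpR), mul_zero]
      exact zero_le
  refine (setLIntegral_mono' polarCoord.open_target.measurableSet h2).trans ?_
  have hFm : Measurable fun t : ℝ => ENNReal.ofReal R *
      (Ioo 0 R).indicator (fun t => ENNReal.ofReal (R - t) ^ (κ / 8 - 1)) t :=
    (Measurable.indicator (by fun_prop) measurableSet_Ioo).const_mul _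
  have hFm2 : AEMeasurable (fun p : ℝ × ℝ => ENNReal.ofReal R *
      (Ioo 0 R).indicator (fun t => ENNReal.ofReal (R - t) ^ (κ / 8 - 1)) p.1)
      ((volume.prod volume).restrict (Ioi 0 ×ˢ Ioo (-Real.pi) Real.pi)) :=
    (hFm.comp measurable_fst).aemeasurable
  rw [polarCoord_target, Measure.volume_eq_prod, setLIntegral_prod _ hFm2]
  simp only [lintegral_const, Measure.restrict_apply MeasurableSet.univ, univ_inter,
    Real.volume_Ioo]
  rw [lintegral_mul_const _ hFm, lintegral_const_mul _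
    (Measurable.indicator (by fun_prop) measurableSet_Ioo), lintegral_indicator measurableSet_Ioo,
    Measure.restrict_restrict measurableSet_Ioo]
  have h3 : Ioo 0 R ∩ Ioi (0 : ℝ) = Ioo 0 R := inter_eq_left.2 fun t ht => ht.1
  have e1 : κ / 8 - 1 + 1 = κ / 8 := by ring
  rw [h3, int_flip (by linarith) hR, e1, ← ENNReal.ofReal_mul hR.le,
    ← ENNReal.ofReal_mul (by positivity)]
  apply ENNReal.ofReal_le_ofReal
  rw [Real.rpow_add hR, Real.rpow_one]
  have h4 : 0 ≤ R ^ (κ / 8) := Real.rpow_nonneg hR.le _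
  have h5 := Real.pi_le_four
  calc R * (R ^ (κ / 8) / (κ / 8)) * (Real.pi - -Real.pi)
      = R * R ^ (κ / 8) * (16 / κ) * Real.pi := by field_simp; ring
    _ ≤ R * R ^ (κ / 8) * (16 / κ) * 4 := by gcongr
    _ = 64 / κ * (R * R ^ (κ / 8)) := by ring

end Vale.Agent.P164.H411
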