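import Vale.Agent.P164.H411.Sq

/-!
# The mean of the gauge measure in a general domain
-/

namespace Vale.Agent.P164.H411

open Set Metric Filter Topology MeasureTheory ProbabilityTheory
open scoped NNReal ENNReal

variable {φ : ℂ → ℂ}

/-- The integral of the density over the image of a square. -/
theorem sq_int {κ : ℝ} (h0 : 0 < κ) (h8 : κ < 8) (hφ : IsConfMap φ) {i : ℤ × ℤ × ℤ} {z₀ : ℂ}
    (hz₀ : z₀ ∈ wsq i) :
    ENNReal.ofReal (bd φ z₀ ^ (1 + κ / 8) / (2 * 2560 ^ 2)) ≤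
      ∫⁻ w in φ '' wsq i, ENNReal.ofReal (infDist w (φ '' uhp)ᶜ) ^ (κ / 8 - 1) := by
  have hy := wsq_im hz₀
  have hb := bd_pos hφ hy
  have hsub : wsq i ⊆ closedBall z₀ (z₀.im / 100) := by
    intro z hz
    rw [mem_closedBall, dist_comm]
    have := wsq_dist hz₀ hz
    linarith
  have hsubU : wsq i ⊆ uhp := fun z hz => wsq_im hz
  have hD := (dstr hφ hy).1
  rw [lintegral_image_eq_lintegral_abs_det_fderiv_mul volume (wsq_meas i)
    (f' := fun z => (ContinuousLinearMap.toSpanSingleton ℂ (deriv φ z)).restrictScalars ℝ)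
    (fun z hz => (((diffAt hφ (hsubU hz)).hasDerivAt.hasFDerivAt).restrictScalars
        ℝ).hasFDerivWithinAt) (hφ.2.mono hsubU)]
  simp only [P142.abs_det_holo]
  set c : ℝ := (bd φ z₀ / (5 * z₀.im)) ^ 2 * (2 * bd φ z₀) ^ (κ / 8 - 1) with hc
  have hc0 : 0 ≤ c := by
    have := Real.rpow_nonneg (by positivity : 0 ≤ 2 * bd φ z₀) (κ / 8 - 1)
    positivity
  have h1 : ENNReal.ofReal c * ENNReal.ofReal ((z₀.im / 512) ^ 2) ≤
      ∫⁻ z in wsq i, ENNReal.ofReal (‖deriv φ z‖ ^ 2) *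
        ENNReal.ofReal (infDist (φ z) (φ '' uhp)ᶜ) ^ (κ / 8 - 1) := by
    calc ENNReal.ofReal c * ENNReal.ofReal ((z₀.im / 512) ^ 2)
        ≤ ENNReal.ofReal c * volume (wsq i) := mul_le_mul_right (wsq_vol hz₀) _
      _ = ∫⁻ _z in wsq i, ENNReal.ofReal c := (setLIntegral_const _ _).symm
      _ ≤ _ := by
          refine setLIntegral_mono' (wsq_meas i) fun z hz => ?_
          obtain ⟨a1, a2, a3, a4, a5⟩ := hD z (hsub hz)
          have hbz : 0 < infDist (φ z) (φ '' uhp)ᶜ := bd_pos hφ a1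
          rw [ENNReal.ofReal_rpow_of_pos hbz, ← ENNReal.ofReal_mul (by positivity)]
          apply ENNReal.ofReal_le_ofReal
          rw [hc]
          have h2 : 0 ≤ bd φ z₀ / (5 * z₀.im) := by positivity
          refine mul_le_mul (pow_le_pow_left₀ h2 a5 2)
            (Real.rpow_le_rpow_of_nonpos hbz a3 (by linarith)) ?_ (by positivity)
          exact Real.rpow_nonneg (by positivity) _
  refine le_trans ?_ h1
  rw [← ENNReal.ofReal_mul hc0]
  apply ENNReal.ofReal_le_ofReal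
  have h2 : (2 : ℝ) ^ (κ / 8 - 1) ≥ 1 / 2 := by
    calc (2 : ℝ) ^ (κ / 8 - 1) ≥ (2 : ℝ) ^ (-1 : ℝ) :=
          Real.rpow_le_rpow_of_exponent_le one_le_two (by linarith)
      _ = 1 / 2 := by rw [Real.rpow_neg_one]; norm_num
  have h3 : bd φ z₀ ^ (1 + κ / 8) = bd φ z₀ ^ 2 * bd φ z₀ ^ (κ / 8 - 1) := by
    rw [← Real.rpow_natCast, ← Real.rpow_add hb]
    congr 1
    push_cast
    ring
  have h4 : (2 * bd φ z₀) ^ (κ / 8 - 1) = 2 ^ (κ / 8 - 1) * bd φ z₀ ^ (κ / 8 - 1) :=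
    Real.mul_rpow (by norm_num) hb.le
  have h5 : 0 ≤ bd φ z₀ ^ (κ / 8 - 1) := Real.rpow_nonneg hb.le _
  rw [hc, h3, h4]
  have h6 : (bd φ z₀ / (5 * z₀.im)) ^ 2 * (2 ^ (κ / 8 - 1) * bd φ z₀ ^ (κ / 8 - 1)) *
      (z₀.im / 512) ^ 2 = bd φ z₀ ^ 2 * bd φ z₀ ^ (κ / 8 - 1) / 2560 ^ 2 * 2 ^ (κ / 8 - 1) := by
    field_simp
    norm_num
  rw [h6]
  have h7 : 0 ≤ bd φ z₀ ^ 2 * bd φ z₀ ^ (κ / 8 - 1) / 2560 ^ 2 := by positivity
  calc bd φ z₀ ^ 2 * bd φ z₀ ^ (κ / 8 - 1) / (2 * 2560 ^ 2)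
      = bd φ z₀ ^ 2 * bd φ z₀ ^ (κ / 8 - 1) / 2560 ^ 2 * (1 / 2) := by ring
    _ ≤ _ := mul_le_mul_of_nonneg_left h2 h7

theorem domTrace_inter (hφ : IsConfMap φ) (γ : ℝ → ℂ) (S : Set ℝ) (Q : Set ℂ) (hQ : Q ⊆ uhp) :
    domTrace φ γ S ∩ φ '' Q ⊆ φ '' (γ '' S ∩ Q) := by
  rintro _ ⟨⟨z, ⟨hz1, hz2⟩, rfl⟩, z', hz', he⟩
  have h1 := hφ.2 (hQ hz') hz2 he
  subst h1
  exact ⟨z', ⟨hz1, hz'⟩, rfl⟩

/-- The mean bound in every domain. -/
theorem mean_dom {κ : ℝ} (h0 : 0 < κ) (h8 : κ < 8) :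
    ∃ K : ℝ, 0 < K ∧ ∀ {h : ℝ → ℝ} (_ : IsGauge h) {C₀ : ℝ} (_ : 0 < C₀) (_ : OftenLe κ h C₀)
      {Ω : Type*} [MeasurableSpace Ω] {P : Measure Ω} {W : ℝ → Ω → ℝ}
      (_ : IsDrv κ P W) {γ : Ω → ℝ → ℂ} (_ : ∀ᵐ ω ∂P, IsTrace (fun u => W u ω) (γ ω))
      {φ : ℂ → ℂ} (_ : IsConfMap φ) (A : Set ℂ),
      MeanLe P (fun ω => gaugeMeasure h (domTrace φ (γ ω) (Ici 0) ∩ A))
        (ENNReal.ofReal (C₀ * K) * ∫⁻ w in shadow (φ '' uhp) A,
          ENNReal.ofReal (infDist w (φ '' uhp)ᶜ) ^ (κ / 8 - 1)) := by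
  classical
  obtain ⟨C, hC, H⟩ := box_mean h0 h8
  refine ⟨144 * C * (2 * 2560 ^ 2), by positivity, ?_⟩
  intro h hh' C₀ hC₀ hO Ω _ P W hW γ hγ φ hφ A
  -- one square
  have hsq : ∀ i : ℤ × ℤ × ℤ, MeanLe P
      (fun ω => gaugeMeasure h (domTrace φ (γ ω) (Ici 0) ∩ (φ '' wsq i ∩ A)))
      (if (φ '' wsq i ∩ A).Nonempty then ENNReal.ofReal (C₀ * (144 * C * (2 * 2560 ^ 2))) *
        ∫⁻ w in φ '' wsq i, ENNReal.ofReal (infDist w (φ '' uhp)ᶜ) ^ (κ / 8 - 1) else 0) := by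
    intro i
    split_ifs with hne
    · obtain ⟨_, ⟨z₀, hz₀, rfl⟩, ha⟩ := hne
      have hy := wsq_im hz₀
      have hb := bd_pos hφ hy
      have hsub : wsq i ⊆ closedBall z₀ (z₀.im / 100) := by
        intro z hz
        rw [mem_closedBall, dist_comm]
        have := wsq_dist hz₀ hz
        linarith
      have hL : 0 < 12 * bd φ z₀ / z₀.im := by positivity
      refine MeanLe.mono (H hh' hC₀ hO hW hγ (z := z₀) hy (f := φ) hL
        (Q := wsq i) (hsub.trans (closedBall_subset_closedBall (by linarith)))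
        (fun x hx y hy' => (dstr hφ hy).2 x (hsub hx) y (hsub hy')))
        (Eventually.of_forall fun ω => ?_) ?_
      · exact gaugeMeasure_mono h fun x hx =>
          domTrace_inter hφ _ _ _ (fun z hz => wsq_im hz) ⟨hx.1, hx.2.1⟩
      · refine le_trans ?_ (mul_le_mul_right (sq_int h0 h8 hφ hz₀) _)
        rw [← ENNReal.ofReal_mul (by positivity)]
        apply ENNReal.ofReal_le_ofReal
        have hd : dd κ = 1 + κ / 8 := rfl
        have h1 : (12 * bd φ z₀ / z₀.im * z₀.im) ^ dd κ = 12 ^ dd κ * bd φ z₀ ^ dd κ := by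
          rw [div_mul_cancel₀ _ hy.ne', Real.mul_rpow (by norm_num) hb.le]
        have h2 : (12 : ℝ) ^ dd κ ≤ 144 := by
          calc (12 : ℝ) ^ dd κ ≤ (12 : ℝ) ^ (2 : ℝ) :=
                Real.rpow_le_rpow_of_exponent_le (by norm_num) (by rw [hd]; linarith)
            _ = 144 := by norm_num
        have h3 : 0 ≤ bd φ z₀ ^ dd κ := Real.rpow_nonneg hb.le _
        calc C₀ * C * (12 * bd φ z₀ / z₀.im * z₀.im) ^ dd κ
            = C₀ * C * (12 ^ dd κ * bd φ z₀ ^ dd κ) := by rw [h1]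
          _ ≤ C₀ * C * (144 * bd φ z₀ ^ dd κ) := by gcongr
          _ = C₀ * (144 * C * (2 * 2560 ^ 2)) * (bd φ z₀ ^ (1 + κ / 8) / (2 * 2560 ^ 2)) := by
              rw [← hd]
              field_simp
    · rw [not_nonempty_iff_eq_empty] at hne
      refine ⟨fun _ => 0, measurable_const, Eventually.of_forall fun ω => ?_, by simp⟩
      have h2 := gmM_apply hh' ∅
      rw [measure_empty] at h2
      simp only [hne, inter_empty, ← h2, le_refl]
  refine MeanLe.mono (MeanLe.tsum hsq) (Eventually.of_forall fun ω => ?_) ?_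
  · have hcov : domTrace φ (γ ω) (Ici 0) ∩ A ⊆
        ⋃ i, domTrace φ (γ ω) (Ici 0) ∩ (φ '' wsq i ∩ A) := by
      rintro x ⟨hx, hxA⟩
      obtain ⟨z, ⟨hz1, hz2⟩, rfl⟩ := hx
      have h1 : z ∈ ⋃ i, wsq i := by rw [wsq_cover]; exact hz2
      obtain ⟨i, hi⟩ := mem_iUnion.1 h1
      exact mem_iUnion.2 ⟨i, ⟨z, ⟨hz1, hz2⟩, rfl⟩, ⟨z, hi, rfl⟩, hxA⟩
    exact (gaugeMeasure_mono h hcov).trans (gaugeMeasure_iUnion_le hh' _)
  · set f : ℂ → ℝ≥0∞ := fun w => ENNReal.ofReal (infDist w (φ '' uhp)ᶜ) ^ (κ / 8 - 1) with hf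
    set B : ℤ × ℤ × ℤ → Set ℂ := fun i => if (φ '' wsq i ∩ A).Nonempty then φ '' wsq i else ∅
      with hB
    have hmeas : ∀ i, MeasurableSet (φ '' wsq i) := fun i =>
      (wsq_meas i).image_of_continuousOn_injOn
        (hφ.1.continuousOn.mono fun z hz => wsq_im hz) (hφ.2.mono fun z hz => wsq_im hz)
    have hBm : ∀ i, MeasurableSet (B i) := by
      intro i
      simp only [hB]
      split_ifs
      · exact hmeas i
      · exact MeasurableSet.empty
    have hBd : Pairwise (Function.onFun Disjoint B) := by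
      intro i j hij
      have h1 : Disjoint (φ '' wsq i) (φ '' wsq j) := by
        rw [Set.disjoint_left]
        rintro _ ⟨z, hz, rfl⟩ ⟨z', hz', he⟩
        have := hφ.2 (wsq_im hz') (wsq_im hz) he
        subst this
        exact Set.disjoint_left.1 (wsq_disj hij) hz hz'
      simp only [Function.onFun, hB]
      split_ifs
      · exact h1
      · exact disjoint_empty _
      · exact empty_disjoint _
      · exact disjoint_empty _
    have hBs : (⋃ i, B i) ⊆ shadow (φ '' uhp) A := by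
      refine iUnion_subset fun i => ?_
      simp only [hB]
      split_ifs with hne
      · obtain ⟨_, ⟨z₀, hz₀, rfl⟩, ha⟩ := hne
        have hy := wsq_im hz₀
        have hb := bd_pos hφ hy
        rintro _ ⟨z, hz, rfl⟩
        refine ⟨⟨z, wsq_im hz, rfl⟩, φ z₀, ha, ?_⟩
        have hsub : wsq i ⊆ closedBall z₀ (z₀.im / 100) := by
          intro z hz
          rw [mem_closedBall, dist_comm]
          have := wsq_dist hz₀ hz
          linarith
        have h1 := (dstr hφ hy).2 z (hsub hz) z₀ (hsub hz₀)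
        have h2 := ((dstr hφ hy).1 z (hsub hz)).2.2.2.1
        have h3 : dist z z₀ ≤ z₀.im / 128 := by rw [dist_comm]; exact wsq_dist hz₀ hz
        have h4 : 12 * bd φ z₀ / z₀.im * dist z z₀ ≤ 12 * bd φ z₀ / 128 := by
          calc 12 * bd φ z₀ / z₀.im * dist z z₀ ≤ 12 * bd φ z₀ / z₀.im * (z₀.im / 128) := by gcongr
            _ = 12 * bd φ z₀ / 128 := by field_simp
        change 2 * dist (φ z) (φ z₀) ≤ bd φ z
        linarith
      · exact empty_subset _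
    calc (∑' i, if (φ '' wsq i ∩ A).Nonempty then ENNReal.ofReal (C₀ * (144 * C * (2 * 2560 ^ 2))) *
          ∫⁻ w in φ '' wsq i, f w else 0)
        = ∑' i, ENNReal.ofReal (C₀ * (144 * C * (2 * 2560 ^ 2))) * ∫⁻ w in B i, f w := by
          refine tsum_congr fun i => ?_
          simp only [hB]
          split_ifs
          · rfl
          · simp
      _ = ENNReal.ofReal (C₀ * (144 * C * (2 * 2560 ^ 2))) * ∫⁻ w in ⋃ i, B i, f w := by
          rw [ENNReal.tsum_mul_left, lintegral_iUnion hBm hBd]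
      _ ≤ _ := mul_le_mul_right (lintegral_mono_set hBs) _

end Vale.Agent.P164.H411
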