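import Vale.Agent.P164.H411.Defs

/-!
# Auxiliary forms of the laws
-/

namespace Vale.Agent.P164

open MeasureTheory ProbabilityTheory Set
open scoped NNReal ENNReal

/-- `k ≤ C G` on arbitrarily small blocks of scales `[ρ^5, ρ]`. -/
def OftenLe (κ : ℝ) (k : ℝ → ℝ) (C : ℝ) : Prop :=
  ∀ δ : ℝ, 0 < δ → ∃ ρ : ℝ, 0 < ρ ∧ ρ < δ ∧ ∀ r ∈ Icc (ρ ^ 5) ρ, k r ≤ C * exactG κ r

universe u

/-- The finiteness law. -/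
def LawFin (κ : ℝ) (k : ℝ → ℝ) (M : ℝ) : Prop :=
  ∀ (Ω : Type u) [MeasurableSpace Ω] (P : Measure Ω) (γ : Ω → ℝ → ℂ), IsSLE κ P γ →
    (∀ᵐ ω ∂P, (∀ t : ℝ, gaugeMeasure k (γ ω '' Icc 0 t) < ⊤) ∧
      ∀ φ : ℂ → ℂ, IsConfMap φ → ∀ K : Set ℂ, IsCompact K → K ⊆ φ '' uhp →
        gaugeMeasure k (domTrace φ (γ ω) (Ici 0) ∩ K) < ⊤) ∧
    (∀ x R : ℝ, 0 < R →
      MeanLe P (fun ω => gaugeMeasure k (γ ω '' Ici 0 ∩ Metric.closedBall (x : ℂ) R))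
        (ENNReal.ofReal (M * R ^ (1 + κ / 8)))) ∧
    (∀ φ : ℂ → ℂ, IsConfMap φ → ∀ A : Set ℂ,
      MeanLe P (fun ω => gaugeMeasure k (domTrace φ (γ ω) (Ici 0) ∩ A))
        (ENNReal.ofReal M * ∫⁻ w in shadow (φ '' uhp) A,
          ENNReal.ofReal (Metric.infDist w (φ '' uhp)ᶜ) ^ (κ / 8 - 1))) ∧
    ∀ φ : ℂ → ℂ, IsConfMap φ → ∀ (c : ℂ) (R : ℝ), 0 < R → φ '' uhp = Metric.ball c R →
      MeanLe P (fun ω => gaugeMeasure k (domTrace φ (γ ω) (Ici 0)))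
        (ENNReal.ofReal (M * R ^ (1 + κ / 8)))

/-- The positivity law. -/
def LawPos (κ : ℝ) (k : ℝ → ℝ) (m : ℝ) : Prop :=
  ∀ (Ω : Type u) [MeasurableSpace Ω] (P : Measure Ω) (γ : Ω → ℝ → ℂ), IsSLE κ P γ →
    (∀ᵐ ω ∂P, ∀ s t : ℝ, 0 ≤ s → s < t →
      0 < gaugeMeasure k (γ ω '' Icc s t \ γ ω '' Icc 0 s) ∧
      ∀ φ : ℂ → ℂ, IsConfMap φ →
        0 < gaugeMeasure k (domTrace φ (γ ω) (Icc s t) \ domTrace φ (γ ω) (Icc 0 s))) ∧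
    (∀ᵐ ω ∂P, gaugeMeasure k (γ ω '' Ici 0) = ⊤) ∧
    ∀ R : ℝ, 0 < R → ∃ E : Set Ω, MeasurableSet E ∧ ENNReal.ofReal m ≤ P E ∧
      ∀ᵐ ω ∂P, ω ∈ E → ENNReal.ofReal (m * R ^ (1 + κ / 8)) ≤
        gaugeMeasure k (γ ω '' Ici 0 ∩ Metric.closedBall 0 R)

/-- The measure as a parametrisation of the trace. -/
def LawPar (κ : ℝ) (k : ℝ → ℝ) : Prop :=
  ∀ (Ω : Type u) [MeasurableSpace Ω] (P : Measure Ω) (γ : Ω → ℝ → ℂ), IsSLE κ P γ →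
    ∀ᵐ ω ∂P, (∀ t : ℝ, gaugeMeasure k (γ ω '' Icc 0 t) < ⊤) ∧
      gaugeMeasure k (γ ω '' Icc 0 0) = 0 ∧
      ContinuousOn (fun t => gaugeMeasure k (γ ω '' Icc 0 t)) (Ici 0) ∧
      StrictMonoOn (fun t => gaugeMeasure k (γ ω '' Icc 0 t)) (Ici 0) ∧
      Filter.Tendsto (fun t => gaugeMeasure k (γ ω '' Icc 0 t)) Filter.atTop (nhds ⊤)

end Vale.Agent.P164
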