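import Vale.Agent.P164.Bdl.B18

/-!
# Gauge measures: comparison, Lipschitz images, continuity from below
-/

namespace Vale.Agent.P164.H411

open Set Metric Filter Topology MeasureTheory
open scoped NNReal ENNReal

/-- Comparison of gauges: `k ≤ C h` near `0`. -/
theorem gm_le_of_bigO {k h : ℝ → ℝ} (hk : IsGauge k) {C r₀ : ℝ} (hC : 0 < C) (hr₀ : 0 < r₀)
    (ho : ∀ r : ℝ, 0 < r → r < r₀ → k r ≤ C * h r) (E : Set ℂ) :
    gaugeMeasure k E ≤ ENNReal.ofReal C * gaugeMeasure h E := by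
  refine gaugeMeasure_le fun δ hδ => ?_
  have hmin : 0 < min δ (r₀ / 2) := lt_min hδ (half_pos hr₀)
  have key : pre k δ E / ENNReal.ofReal C ≤ pre h (min δ (r₀ / 2)) E := by
    refine le_iInf fun U => le_iInf fun hU => le_iInf fun hU' => ?_
    refine ENNReal.div_le_of_le_mul' ?_
    rw [← ENNReal.tsum_mul_left]
    refine iInf_le_of_le U (iInf_le_of_le hU (iInf_le_of_le
      (fun n => ⟨(hU' n).1, (hU' n).2.trans (min_le_left _ _)⟩) ?_))
    refine ENNReal.tsum_le_tsum fun n => ?_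
    rcases eq_or_lt_of_le (Metric.diam_nonneg (s := U n)) with hz | hz
    · rw [← hz, hk.zero]
      simp only [ENNReal.ofReal_zero, zero_le]
    · rw [← ENNReal.ofReal_mul hC.le]
      refine ENNReal.ofReal_le_ofReal (ho _ hz ?_)
      have := (hU' n).2.trans (min_le_right _ _)
      linarith
  rw [ENNReal.div_le_iff_le_mul (Or.inl (ENNReal.ofReal_pos.2 hC).ne')
    (Or.inl ENNReal.ofReal_ne_top)] at key
  refine key.trans ?_
  rw [mul_comm]
  gcongr
  exact pre_le_gaugeMeasure h hmin E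

/-- Lipschitz images, exact gauge. -/
theorem gm_lip {κ : ℝ} (h0 : 0 < κ) (h8 : κ < 8) {h : ℝ → ℝ} (hh' : IsGauge h)
    {r₀ : ℝ} (hr₀ : 0 < r₀) (hhr : ∀ r, 0 < r → r < r₀ → h r = hh κ r) {L : ℝ} (hL : 0 < L)
    {E : Set ℂ} {f : ℂ → ℂ} (hf : ∀ x ∈ E, ∀ y ∈ E, dist (f x) (f y) ≤ L * dist x y) :
    gaugeMeasure h (f '' E) ≤ ENNReal.ofReal (2 * L ^ dd κ) * gaugeMeasure h E := by
  obtain ⟨r₁, hr₁, H⟩ := E8.hh_scale h0 h8 hL
  have hC : 0 < 2 * L ^ dd κ := by
    have := Real.rpow_pos_of_pos hL (dd κ)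
    positivity
  refine gaugeMeasure_le fun δ hδ => ?_
  set δ' : ℝ := min (min (δ / L) (r₀ / (2 * L))) (min (r₀ / 2) (r₁ / 2)) with hδ'
  have hδ'0 : 0 < δ' := by
    have h1 : 0 < δ / L := div_pos hδ hL
    have h2 : 0 < r₀ / (2 * L) := by positivity
    exact lt_min (lt_min h1 h2) (lt_min (half_pos hr₀) (half_pos hr₁))
  have hd1 : δ' ≤ δ / L := (min_le_left _ _).trans (min_le_left _ _)
  have hd2 : δ' ≤ r₀ / (2 * L) := (min_le_left _ _).trans (min_le_right _ _)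
  have hd3 : δ' ≤ r₀ / 2 := (min_le_right _ _).trans (min_le_left _ _)
  have hd4 : δ' ≤ r₁ / 2 := (min_le_right _ _).trans (min_le_right _ _)
  have key : pre h δ (f '' E) / ENNReal.ofReal (2 * L ^ dd κ) ≤ pre h δ' E := by
    refine le_iInf fun U => le_iInf fun hU => le_iInf fun hU' => ?_
    refine ENNReal.div_le_of_le_mul' ?_
    rw [← ENNReal.tsum_mul_left]
    have hbd : ∀ n, ∀ x ∈ f '' (U n ∩ E), ∀ y ∈ f '' (U n ∩ E),
        dist x y ≤ L * Metric.diam (U n) := by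
      rintro n _ ⟨x, hx, rfl⟩ _ ⟨y, hy, rfl⟩
      refine (hf x hx.2 y hy.2).trans ?_
      exact mul_le_mul_of_nonneg_left (dist_le_diam_of_mem (hU' n).1 hx.1 hy.1) hL.le
    have hdiam : ∀ n, Metric.diam (f '' (U n ∩ E)) ≤ L * Metric.diam (U n) :=
      fun n => Metric.diam_le_of_forall_dist_le (mul_nonneg hL.le Metric.diam_nonneg) (hbd n)
    refine iInf_le_of_le (fun n => f '' (U n ∩ E)) (iInf_le_of_le ?_ (iInf_le_of_le ?_ ?_))
    · rintro _ ⟨x, hx, rfl⟩
      obtain ⟨n, hn⟩ := mem_iUnion.1 (hU hx)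
      exact mem_iUnion.2 ⟨n, x, ⟨hn, hx⟩, rfl⟩
    · intro n
      refine ⟨Metric.isBounded_iff.2 ⟨_, hbd n⟩, (hdiam n).trans ?_⟩
      have h2 := (hU' n).2.trans hd1
      rw [le_div_iff₀ hL] at h2
      linarith
    · refine ENNReal.tsum_le_tsum fun n => ?_
      rw [← ENNReal.ofReal_mul hC.le]
      apply ENNReal.ofReal_le_ofReal
      refine (hh'.mono (mem_Ici.2 Metric.diam_nonneg)
        (mem_Ici.2 (mul_nonneg hL.le Metric.diam_nonneg)) (hdiam n)).trans ?_
      rcases eq_or_lt_of_le (Metric.diam_nonneg (s := U n)) with hz | hz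
      · rw [← hz, mul_zero, hh'.zero, mul_zero]
      · have e1 : Metric.diam (U n) < r₀ := by
          have := (hU' n).2.trans hd3
          linarith
        have e2 : Metric.diam (U n) < r₁ := by
          have := (hU' n).2.trans hd4
          linarith
        have e3 : L * Metric.diam (U n) < r₀ := by
          have h2 := (hU' n).2.trans hd2
          rw [le_div_iff₀ (by positivity)] at h2
          linarith
        rw [hhr _ hz e1, hhr _ (mul_pos hL hz) e3]
        exact H _ hz e2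
  rw [ENNReal.div_le_iff_le_mul (Or.inl (ENNReal.ofReal_pos.2 hC).ne')
    (Or.inl ENNReal.ofReal_ne_top)] at key
  refine key.trans ?_
  rw [mul_comm]
  gcongr
  exact pre_le_gaugeMeasure h hδ'0 E

/-- The rescaled gauge. -/
theorem gauge_comp {k : ℝ → ℝ} (hk : IsGauge k) {L : ℝ} (hL : 0 < L) :
    IsGauge fun r => k (L * r) where
  cont := hk.cont.comp (continuous_const.mul continuous_id).continuousOn
    fun r hr => mul_nonneg hL.le hr
  mono := fun a ha b _ hab => hk.mono (mul_nonneg hL.le ha)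
    (mul_nonneg hL.le (le_trans (show (0 : ℝ) ≤ a from ha) hab)) (mul_le_mul_of_nonneg_left hab hL.le)
  zero := by rw [mul_zero]; exact hk.zero
  pos := fun r hr => hk.pos _ (mul_pos hL hr)

/-- Lipschitz images, all gauges. -/
theorem gm_lip_k {k : ℝ → ℝ} (hk : IsGauge k) {L : ℝ} (hL : 0 < L)
    {E : Set ℂ} {f : ℂ → ℂ} (hf : ∀ x ∈ E, ∀ y ∈ E, dist (f x) (f y) ≤ L * dist x y) :
    gaugeMeasure k (f '' E) ≤ gaugeMeasure (fun r => k (L * r)) E := by
  refine gaugeMeasure_le fun δ hδ => ?_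
  have hδ'0 : 0 < δ / L := div_pos hδ hL
  refine le_trans ?_ (pre_le_gaugeMeasure _ hδ'0 E)
  refine le_iInf fun U => le_iInf fun hU => le_iInf fun hU' => ?_
  have hbd : ∀ n, ∀ x ∈ f '' (U n ∩ E), ∀ y ∈ f '' (U n ∩ E),
      dist x y ≤ L * Metric.diam (U n) := by
    rintro n _ ⟨x, hx, rfl⟩ _ ⟨y, hy, rfl⟩
    refine (hf x hx.2 y hy.2).trans ?_
    exact mul_le_mul_of_nonneg_left (dist_le_diam_of_mem (hU' n).1 hx.1 hy.1) hL.le
  have hdiam : ∀ n, Metric.diam (f '' (U n ∩ E)) ≤ L * Metric.diam (U n) :=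
    fun n => Metric.diam_le_of_forall_dist_le (mul_nonneg hL.le Metric.diam_nonneg) (hbd n)
  refine iInf_le_of_le (fun n => f '' (U n ∩ E)) (iInf_le_of_le ?_ (iInf_le_of_le ?_ ?_))
  · rintro _ ⟨x, hx, rfl⟩
    obtain ⟨n, hn⟩ := mem_iUnion.1 (hU hx)
    exact mem_iUnion.2 ⟨n, x, ⟨hn, hx⟩, rfl⟩
  · intro n
    refine ⟨Metric.isBounded_iff.2 ⟨_, hbd n⟩, (hdiam n).trans ?_⟩
    have h2 := (hU' n).2
    rw [le_div_iff₀ hL] at h2
    linarith
  · refine ENNReal.tsum_le_tsum fun n => ENNReal.ofReal_le_ofReal ?_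
    exact hk.mono (mem_Ici.2 Metric.diam_nonneg)
      (mem_Ici.2 (mul_nonneg hL.le Metric.diam_nonneg)) (hdiam n)

/-- Lipschitz images of sets of finite measure, all gauges. -/
theorem gm_lip_fin {k : ℝ → ℝ} (hk : IsGauge k) {E : Set ℂ} {f : ℂ → ℂ} {K : ℝ≥0}
    (hf : LipschitzOnWith K f E) (hE : gaugeMeasure k E < ⊤) : gaugeMeasure k (f '' E) < ⊤ := by
  obtain ⟨N, hN⟩ := exists_cells hk (K : ℝ)
  refine lt_of_le_of_lt (gaugeMeasure_le (c := (N : ℝ≥0∞) * (2 * (gaugeMeasure k E + 1)))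
    fun δ hδ => ?_) ?_
  · have hc : pre k (δ / 2) E < gaugeMeasure k E + 1 :=
      lt_of_le_of_lt (pre_le_gaugeMeasure k (half_pos hδ) E)
        (ENNReal.lt_add_right hE.ne one_ne_zero)
    obtain ⟨F, hF1, hF2, hF3⟩ := hN δ hδ E f (fun x hx y hy => hf.dist_le_mul x hx y hy)
      K.coe_nonneg _ hc
    refine (pre_le_of_cells hk hδ hF1 (hF2.trans ?_)).trans hF3
    exact iUnion_mono fun j => iUnion₂_mono fun p _ => cellO_subset p
  · refine ENNReal.mul_lt_top (ENNReal.natCast_lt_top N) (ENNReal.mul_lt_top (by simp) ?_)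
    exact ENNReal.add_lt_top.2 ⟨hE, ENNReal.one_lt_top⟩

/-- The gauge measure as a measure. -/
noncomputable def gmM (h : ℝ → ℝ) : Measure ℂ :=
  Measure.mkMetric fun r => ENNReal.ofReal (h r.toReal)

theorem gmM_apply {h : ℝ → ℝ} (hh : IsGauge h) (E : Set ℂ) : gmM h E = gaugeMeasure h E := by
  rw [gmM, Measure.mkMetric_apply]
  apply le_antisymm
  · refine iSup₂_le fun r hr => ?_
    obtain ⟨δ, hδ0, hδ⟩ : ∃ δ : ℝ, 0 < δ ∧ ENNReal.ofReal δ ≤ r := by
      rcases eq_or_ne r ⊤ with rfl | hr'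
      · exact ⟨1, one_pos, le_top⟩
      · exact ⟨r.toReal, ENNReal.toReal_pos hr.ne' hr', ENNReal.ofReal_toReal_le⟩
    refine le_trans ?_ (pre_le_gaugeMeasure h hδ0 E)
    refine le_iInf fun U => le_iInf fun hU => le_iInf fun hU' => ?_
    refine iInf_le_of_le U (iInf_le_of_le hU (iInf_le_of_le (fun n => ?_) ?_))
    · refine le_trans ?_ hδ
      rw [ENNReal.le_ofReal_iff_toReal_le (hU' n).1.ediam_ne_top hδ0.le]
      exact (hU' n).2
    · exact ENNReal.tsum_le_tsum fun n => iSup_le fun _ => le_rfl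
  · refine gaugeMeasure_le fun δ hδ => ?_
    refine le_iSup₂_of_le (ENNReal.ofReal δ) (ENNReal.ofReal_pos.2 hδ) ?_
    refine le_iInf fun U => le_iInf fun hU => le_iInf fun hU' => ?_
    refine iInf_le_of_le U (iInf_le_of_le hU (iInf_le_of_le (fun n => ?_) ?_))
    · have h1 : ediam (U n) ≠ ⊤ := ne_top_of_le_ne_top ENNReal.ofReal_ne_top (hU' n)
      exact ⟨Metric.isBounded_iff_ediam_ne_top.2 h1,
        (ENNReal.le_ofReal_iff_toReal_le h1 hδ.le).1 (hU' n)⟩
    · refine ENNReal.tsum_le_tsum fun n => ?_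
      rcases (U n).eq_empty_or_nonempty with h1 | h1
      · rw [h1, Metric.diam_empty, hh.zero]
        simp only [ENNReal.ofReal_zero, zero_le]
      · exact le_iSup_of_le h1 le_rfl

/-- Continuity from below. -/
theorem gm_iUnion {h : ℝ → ℝ} (hh : IsGauge h) {E : ℕ → Set ℂ} (hE : Monotone E) :
    gaugeMeasure h (⋃ n, E n) = ⨆ n, gaugeMeasure h (E n) := by
  simp only [← gmM_apply hh]
  exact hE.measure_iUnion

end Vale.Agent.P164.H411
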