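import Vale.Agent.P164.H411.Tr

/-!
# The half-plane: balls centred on the boundary
-/

namespace Vale.Agent.P164.H411

open Set Metric Filter Topology MeasureTheory ProbabilityTheory
open scoped NNReal ENNReal

theorem conf_id : IsConfMap (fun z : ℂ => z) := ⟨differentiableOn_id, injOn_id _⟩

theorem image_id_uhp : (fun z : ℂ => z) '' uhp = uhp := image_id' _

theorem infDist_uhp {w : ℂ} (hw : 0 < w.im) : infDist w uhpᶜ = w.im := by
  have hmem : ((w.re : ℝ) : ℂ) ∈ uhpᶜ := by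
    simp [uhp]
  apply le_antisymm
  · refine (infDist_le_dist_of_mem hmem).trans (le_of_eq ?_)
    have e : w - (w.re : ℂ) = w.im * Complex.I := by
      apply Complex.ext <;> simp
    rw [dist_eq_norm, e, norm_mul, Complex.norm_I, mul_one, Complex.norm_real,
      Real.norm_of_nonneg hw.le]
  · rw [le_infDist ⟨_, hmem⟩]
    intro y hy
    have h1 : y.im ≤ 0 := not_lt.1 hy
    have h2 : |(w - y).im| ≤ ‖w - y‖ := Complex.abs_im_le_norm _
    rw [Complex.sub_im] at h2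
    rw [dist_eq_norm]
    have h3 := le_abs_self (w.im - y.im)
    linarith

theorem shadow_hp (x : ℝ) {R : ℝ} :
    shadow uhp (closedBall (x : ℂ) R) ⊆ Complex.measurableEquivRealProd ⁻¹'
      (Icc (x - 2 * R) (x + 2 * R) ×ˢ Ioc 0 (2 * R)) := by
  rintro w ⟨hw, a, ha, hwa⟩
  have hw' : 0 < w.im := hw
  rw [infDist_uhp hw'] at hwa
  rw [mem_closedBall, dist_eq_norm] at ha
  rw [dist_eq_norm] at hwa
  have h1 : |(a - x).im| ≤ ‖a - x‖ := Complex.abs_im_le_norm _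
  have h2 : |(a - x).re| ≤ ‖a - x‖ := Complex.abs_re_le_norm _
  have h3 : |(w - a).im| ≤ ‖w - a‖ := Complex.abs_im_le_norm _
  have h4 : |(w - a).re| ≤ ‖w - a‖ := Complex.abs_re_le_norm _
  rw [Complex.sub_im, Complex.ofReal_im, sub_zero] at h1
  rw [Complex.sub_re, Complex.ofReal_re] at h2
  rw [Complex.sub_im] at h3
  rw [Complex.sub_re] at h4
  have a1 := abs_le.1 h1
  have a2 := abs_le.1 h2
  have a3 := abs_le.1 h3
  have a4 := abs_le.1 h4
  have h5 : w.im ≤ 2 * R := by linarith [a1.2, a3.2]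
  rw [mem_preimage, Complex.measurableEquivRealProd_apply, mem_prod]
  refine ⟨⟨?_, ?_⟩, hw', h5⟩
  · simp only
    linarith [a2.1, a4.1]
  · simp only
    linarith [a2.2, a4.2]

theorem int_rpow {e : ℝ} (he : -1 < e) {c : ℝ} (hc : 0 < c) :
    ∫⁻ t in Ioc 0 c, ENNReal.ofReal t ^ e = ENNReal.ofReal (c ^ (e + 1) / (e + 1)) := by
  have h1 : ∫ t in (0 : ℝ)..c, t ^ e = c ^ (e + 1) / (e + 1) := by
    rw [integral_rpow (Or.inl he), Real.zero_rpow (by linarith), sub_zero]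
  rw [← h1, intervalIntegral.integral_of_le hc.le, ofReal_integral_eq_lintegral_ofReal]
  · refine setLIntegral_congr_fun measurableSet_Ioc fun t ht => ?_
    exact ENNReal.ofReal_rpow_of_pos ht.1
  · exact (intervalIntegral.intervalIntegrable_rpow' he).1
  · refine (ae_restrict_iff' measurableSet_Ioc).2 (Eventually.of_forall fun t ht => ?_)
    exact Real.rpow_nonneg ht.1.le _

theorem hp_int {κ : ℝ} (h0 : 0 < κ) (h8 : κ < 8) (x : ℝ) {R : ℝ} (hR : 0 < R) :
    ∫⁻ w in shadow uhp (closedBall (x : ℂ) R), ENNReal.ofReal (infDist w uhpᶜ) ^ (κ / 8 - 1) ≤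
      ENNReal.ofReal (64 / κ * R ^ (1 + κ / 8)) := by
  set S : Set (ℝ × ℝ) := Icc (x - 2 * R) (x + 2 * R) ×ˢ Ioc 0 (2 * R) with hS
  have hSm : MeasurableSet S := measurableSet_Icc.prod measurableSet_Ioc
  refine (lintegral_mono_set (shadow_hp x)).trans ?_
  have h1 : ∫⁻ w in Complex.measurableEquivRealProd ⁻¹' S,
      ENNReal.ofReal (infDist w uhpᶜ) ^ (κ / 8 - 1) =
      ∫⁻ w in Complex.measurableEquivRealProd ⁻¹' S,
        (fun p : ℝ × ℝ => ENNReal.ofReal p.2 ^ (κ / 8 - 1)) (Complex.measurableEquivRealProd w) := by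
    refine setLIntegral_congr_fun (Complex.measurableEquivRealProd.measurable hSm) fun w hw => ?_
    rw [mem_preimage, Complex.measurableEquivRealProd_apply, hS, mem_prod] at hw
    simp only [Complex.measurableEquivRealProd_apply]
    rw [infDist_uhp hw.2.1]
  have hfm : Measurable fun p : ℝ × ℝ => ENNReal.ofReal p.2 ^ (κ / 8 - 1) := by fun_prop
  have h2 := Complex.volume_preserving_equiv_real_prod.setLIntegral_comp_preimage hSm hfm
  rw [h1]
  refine h2.trans_le ?_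
  rw [hS, Measure.volume_eq_prod, setLIntegral_prod _ hfm.aemeasurable]
  simp only [lintegral_const, Measure.restrict_apply MeasurableSet.univ, univ_inter]
  have e1 : κ / 8 - 1 + 1 = κ / 8 := by ring
  rw [int_rpow (by linarith) (by positivity), e1, Real.volume_Icc,
    ← ENNReal.ofReal_mul (by positivity)]
  apply ENNReal.ofReal_le_ofReal
  rw [Real.mul_rpow (by norm_num) hR.le, Real.rpow_add hR, Real.rpow_one]
  have h4 : (2 : ℝ) ^ (κ / 8) ≤ 2 := by
    calc (2 : ℝ) ^ (κ / 8) ≤ (2 : ℝ) ^ (1 : ℝ) :=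
          Real.rpow_le_rpow_of_exponent_le one_le_two (by linarith)
      _ = 2 := Real.rpow_one _
  have h3 : 0 ≤ R ^ (κ / 8) := Real.rpow_nonneg hR.le _
  calc 2 ^ (κ / 8) * R ^ (κ / 8) / (κ / 8) * (x + 2 * R - (x - 2 * R))
      = 2 ^ (κ / 8) * (R ^ (κ / 8) * R) * (32 / κ) := by field_simp; ring
    _ ≤ 2 * (R ^ (κ / 8) * R) * (32 / κ) := by gcongr
    _ = 64 / κ * (R * R ^ (κ / 8)) := by ring

/-- The mean bound in balls centred on the real line. -/
theorem mean_hp {κ : ℝ} (h0 : 0 < κ) (h8 : κ < 8) :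
    ∃ K : ℝ, 0 < K ∧ ∀ {k : ℝ → ℝ} (_ : IsGauge k) {C₀ : ℝ} (_ : 0 < C₀) (_ : OftenLe κ k C₀)
      {Ω : Type*} [MeasurableSpace Ω] {P : Measure Ω} {W : ℝ → Ω → ℝ}
      (_ : IsDrv κ P W) {γ : Ω → ℝ → ℂ} (_ : ∀ᵐ ω ∂P, IsTrace (fun u => W u ω) (γ ω))
      (x : ℝ) {R : ℝ} (_ : 0 < R),
      MeanLe P (fun ω => gaugeMeasure k (γ ω '' Ici 0 ∩ closedBall (x : ℂ) R))
        (ENNReal.ofReal (C₀ * K * R ^ (1 + κ / 8))) := by
  obtain ⟨K, hK, H⟩ := mean_dom h0 h8
  refine ⟨K * (64 / κ), by positivity, ?_⟩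
  intro k hk C₀ hC₀ hO Ω _ P W hW γ hγ x R hR
  have h1 := H hk hC₀ hO hW hγ conf_id (closedBall (x : ℂ) R)
  rw [image_id_uhp] at h1
  refine MeanLe.mono h1 ?_ ?_
  · filter_upwards [hγ] with ω hω
    have hsub : γ ω '' Ici 0 ∩ closedBall (x : ℂ) R ⊆
        (domTrace (fun z => z) (γ ω) (Ici 0) ∩ closedBall (x : ℂ) R) ∪ {z : ℂ | z.im = 0} := by
      rintro z ⟨⟨t, ht, rfl⟩, hz⟩
      rcases eq_or_lt_of_le (hω.im_nonneg t ht) with h2 | h2
      · exact Or.inr h2.symm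
      · exact Or.inl ⟨⟨γ ω t, ⟨⟨t, ht, rfl⟩, h2⟩, rfl⟩, hz⟩
    refine (gaugeMeasure_mono k hsub).trans ?_
    rw [← gmM_apply hk]
    refine (measure_union_le _ _).trans ?_
    rw [gmM_apply hk, gmM_apply hk, gm_real_line hk (often_lim h0 h8 hC₀ hO), add_zero]
  · refine (mul_le_mul_right (hp_int h0 h8 x hR) _).trans (le_of_eq ?_)
    rw [← ENNReal.ofReal_mul (by positivity)]
    congr 1
    ring

end Vale.Agent.P164.H411
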