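import Vale.Agent.P164.H411.Par

/-!
# The laws
-/

namespace Vale.Agent.P164.H411

open Set Metric Filter Topology MeasureTheory ProbabilityTheory
open scoped NNReal ENNReal

universe u

variable {κ : ℝ} {k : ℝ → ℝ}

/-- The driving process of an SLE trace. -/
theorem sle_drv (h0 : 0 < κ) {Ω : Type*} [MeasurableSpace Ω] {P : Measure Ω} {γ : Ω → ℝ → ℂ}
    (hγ : IsSLE κ P γ) :
    ∃ W : ℝ → Ω → ℝ, IsDrv κ P W ∧ ∀ᵐ ω ∂P, IsTrace (fun u => W u ω) (γ ω) := by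
  obtain ⟨B, hB, htr⟩ := hγ
  obtain ⟨W, hW, hWB⟩ := exists_drv h0.le hB
  refine ⟨W, hW, ?_⟩
  filter_upwards [htr, hWB] with ω h1 h2
  exact h1.congr_drive fun t ht => (h2 t ht).symm

theorem MeanLe.ae_lt {Ω : Type*} [MeasurableSpace Ω] {P : Measure Ω} {f : Ω → ℝ≥0∞} {c : ℝ≥0∞}
    (h : MeanLe P f c) (hc : c ≠ ⊤) : ∀ᵐ ω ∂P, f ω < ⊤ := by
  obtain ⟨X, h1, h2, h3⟩ := h
  filter_upwards [h2, ae_lt_top h1 (ne_top_of_le_ne_top hc h3)] with ω a b
  exact a.trans_lt b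

theorem MeanLe.ae_zero {Ω : Type*} [MeasurableSpace Ω] {P : Measure Ω} {f : Ω → ℝ≥0∞}
    (h : MeanLe P f 0) : ∀ᵐ ω ∂P, f ω = 0 := by
  obtain ⟨X, h1, h2, h3⟩ := h
  have h4 : ∀ᵐ ω ∂P, X ω = 0 := (lintegral_eq_zero_iff h1).1 (le_antisymm h3 zero_le)
  filter_upwards [h2, h4] with ω a b
  rw [b] at a
  exact le_antisymm a zero_le

/-- A ball about the origin contains every bounded piece. -/
theorem trace_ball {γ : ℝ → ℂ} (hc : ContinuousOn γ (Ici 0)) (t : ℝ) :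
    ∃ n : ℕ, γ '' Icc 0 t ⊆ closedBall 0 (n : ℝ) := by
  have h1 : IsCompact (γ '' Icc 0 t) :=
    isCompact_Icc.image_of_continuousOn (hc.mono fun x hx => hx.1)
  obtain ⟨r, hr⟩ := h1.isBounded.subset_closedBall 0
  obtain ⟨n, hn⟩ := exists_nat_ge r
  exact ⟨n, hr.trans (closedBall_subset_closedBall hn)⟩

/-- Local finiteness of the whole trace from the mean bounds. -/
theorem fin_ball {Ω : Type*} [MeasurableSpace Ω] {P : Measure Ω} {γ : Ω → ℝ → ℂ}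
    (h : ∀ n : ℕ, ∀ᵐ ω ∂P, gaugeMeasure k (γ ω '' Ici 0 ∩ closedBall 0 ((n : ℝ) + 1)) < ⊤) :
    ∀ᵐ ω ∂P, ∀ R : ℝ, gaugeMeasure k (γ ω '' Ici 0 ∩ closedBall 0 R) < ⊤ := by
  filter_upwards [ae_all_iff.2 h] with ω hω R
  obtain ⟨n, hn⟩ := exists_nat_ge R
  refine (gaugeMeasure_mono k (inter_subset_inter_right _ ?_)).trans_lt (hω n)
  exact closedBall_subset_closedBall (by linarith)

/-- The finiteness law. -/
theorem law_fin (h0 : 0 < κ) (h8 : κ < 8) :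
    ∃ K : ℝ, 0 < K ∧ ∀ k : ℝ → ℝ, IsGauge k → ∀ C : ℝ, 0 < C → OftenLe κ k C →
      LawFin.{u} κ k (K * C) := by
  obtain ⟨K₁, hK₁, H₁⟩ := mean_dom.{u} h0 h8
  obtain ⟨K₂, hK₂, H₂⟩ := mean_hp.{u} h0 h8
  refine ⟨max (max K₁ K₂) (K₁ * (64 / κ)), lt_max_of_lt_left (lt_max_of_lt_left hK₁),
    fun k hk C hC hO Ω _ P γ hγ => ?_⟩
  obtain ⟨W, hW, htr⟩ := sle_drv h0 hγ
  refine ⟨?_, fun x R hR => ?_, fun φ hφ A => ?_, fun φ hφ c R hR hD => ?_⟩
  · have h1 : ∀ᵐ ω ∂P, ∀ R : ℝ, gaugeMeasure k (γ ω '' Ici 0 ∩ closedBall 0 R) < ⊤ := by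
      refine fin_ball fun n => ?_
      have h2 := H₂ hk hC hO hW htr 0 (R := (n : ℝ) + 1) (by positivity)
      rw [Complex.ofReal_zero] at h2
      exact MeanLe.ae_lt h2 ENNReal.ofReal_ne_top
    filter_upwards [htr, h1] with ω h2 h3
    refine ⟨fun t => ?_, fun φ hφ K hK hKs => gm_fin_img hk hφ h3 hK hKs⟩
    obtain ⟨n, hn⟩ := trace_ball h2.cont t
    have hsub : γ ω '' Icc 0 t ⊆ γ ω '' Ici 0 ∩ closedBall 0 (n : ℝ) := fun z hz =>
      ⟨image_mono (fun s hs => hs.1) hz, hn hz⟩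
    exact (gaugeMeasure_mono k hsub).trans_lt (h3 n)
  · refine MeanLe.mono (H₂ hk hC hO hW htr x hR) (Eventually.of_forall fun ω => le_rfl)
      (ENNReal.ofReal_le_ofReal ?_)
    have h3 : 0 ≤ R ^ (1 + κ / 8) := Real.rpow_nonneg hR.le _
    refine mul_le_mul_of_nonneg_right ?_ h3
    rw [mul_comm]
    exact mul_le_mul_of_nonneg_right ((le_max_right _ _).trans (le_max_left _ _)) hC.le
  · refine MeanLe.mono (H₁ hk hC hO hW htr hφ A) (Eventually.of_forall fun ω => le_rfl) ?_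
    refine mul_le_mul_left (ENNReal.ofReal_le_ofReal ?_) _
    rw [mul_comm]
    exact mul_le_mul_of_nonneg_right ((le_max_left _ _).trans (le_max_left _ _)) hC.le
  · have h1 := H₁ hk hC hO hW htr hφ univ
    rw [hD] at h1
    refine MeanLe.mono h1 (Eventually.of_forall fun ω => by rw [inter_univ])
      ((mul_le_mul_right (disc_int h0 h8 c hR univ) _).trans ?_)
    rw [← ENNReal.ofReal_mul (by positivity)]
    apply ENNReal.ofReal_le_ofReal
    have h3 : 0 ≤ R ^ (1 + κ / 8) := Real.rpow_nonneg hR.le _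
    calc C * K₁ * (64 / κ * R ^ (1 + κ / 8)) = K₁ * (64 / κ) * C * R ^ (1 + κ / 8) := by ring
      _ ≤ max (max K₁ K₂) (K₁ * (64 / κ)) * C * R ^ (1 + κ / 8) := by
          gcongr
          exact le_max_right _ _

/-- The null law. -/
theorem law_null (h0 : 0 < κ) (h8 : κ < 8) (hk : IsGauge k)
    (hO : ∀ ε : ℝ, 0 < ε → OftenLe κ k ε) : LawNull.{u} κ k := by
  obtain ⟨K₂, hK₂, H₂⟩ := mean_hp.{u} h0 h8
  intro Ω _ P γ hγ
  obtain ⟨W, hW, htr⟩ := sle_drv h0 hγ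
  have h1 : ∀ n : ℕ, ∀ᵐ ω ∂P, gaugeMeasure k (γ ω '' Ici 0 ∩ closedBall 0 ((n : ℝ) + 1)) = 0 := by
    intro n
    have h2 : ∀ m : ℕ, MeanLe P (fun ω => gaugeMeasure k (γ ω '' Ici 0 ∩
        closedBall 0 ((n : ℝ) + 1)))
        (ENNReal.ofReal (1 / ((m : ℝ) + 1) * (K₂ * ((n : ℝ) + 1) ^ (1 + κ / 8)))) := by
      intro m
      have h3 := H₂ hk (C₀ := 1 / ((m : ℝ) + 1)) (by positivity) (hO _ (by positivity)) hW htr 0
        (R := (n : ℝ) + 1) (by positivity)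
      rw [Complex.ofReal_zero] at h3
      exact MeanLe.mono h3 (Eventually.of_forall fun ω => le_rfl) (le_of_eq (by rw [mul_assoc]))
    choose X hX1 hX2 hX3 using h2
    refine MeanLe.ae_zero ⟨fun ω => ⨅ m, X m ω, Measurable.iInf hX1, ?_, ?_⟩
    · filter_upwards [ae_all_iff.2 hX2] with ω hω
      exact le_iInf hω
    · have h4 : Tendsto (fun m : ℕ => ENNReal.ofReal (1 / ((m : ℝ) + 1) *
          (K₂ * ((n : ℝ) + 1) ^ (1 + κ / 8)))) atTop (𝓝 0) := by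
        have h5 : Tendsto (fun m : ℕ => 1 / ((m : ℝ) + 1) *
            (K₂ * ((n : ℝ) + 1) ^ (1 + κ / 8))) atTop (𝓝 (0 * (K₂ * ((n : ℝ) + 1) ^ (1 + κ / 8)))) :=
          tendsto_one_div_add_atTop_nhds_zero_nat.mul_const _
        rw [zero_mul] at h5
        simpa using ENNReal.tendsto_ofReal h5
      refine ge_of_tendsto' h4 fun m => ?_
      exact (lintegral_mono fun ω => iInf_le _ m).trans (hX3 m)
  filter_upwards [ae_all_iff.2 h1] with ω hω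
  have h2 : gaugeMeasure k (γ ω '' Ici 0) = 0 := by
    have h3 : γ ω '' Ici 0 ⊆ ⋃ n : ℕ, γ ω '' Ici 0 ∩ closedBall 0 ((n : ℝ) + 1) := by
      intro z hz
      obtain ⟨n, hn⟩ := exists_nat_ge ‖z‖
      refine mem_iUnion.2 ⟨n, hz, ?_⟩
      rw [mem_closedBall, dist_zero_right]
      linarith
    exact le_antisymm ((gaugeMeasure_mono k h3).trans (gm_iUnion_null hk hω).le) zero_le
  refine ⟨h2, fun φ hφ => gm_null_img hk hφ inter_subset_right ?_⟩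
  exact le_antisymm ((gaugeMeasure_mono k inter_subset_left).trans h2.le) zero_le

/-- The exact gauge is positive near `0`. -/
theorem exactG_pos (κ : ℝ) {r : ℝ} (hr : 0 < r) (hr1 : r < Real.exp (-Real.exp 1)) :
    0 < exactG κ r := by
  have h1 : Real.exp 1 < Real.log (1 / r) := by
    rw [one_div, Real.log_inv]
    have h2 := Real.log_lt_log hr hr1
    rw [Real.log_exp] at h2
    linarith
  have h2 : 1 < Real.log (Real.log (1 / r)) := by
    calc (1 : ℝ) = Real.log (Real.exp 1) := (Real.log_exp 1).symm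
      _ < _ := Real.log_lt_log (Real.exp_pos _) h1
  unfold exactG
  have h3 : 0 < Real.log (Real.log (1 / r)) := by linarith
  positivity

/-- The image of the new part. -/
theorem dom_new {φ : ℂ → ℂ} (hφ : IsConfMap φ) (γ : ℝ → ℂ) (s t : ℝ) :
    φ '' (γ '' Icc s t ∩ (uhp \ γ '' Icc 0 s)) ⊆
      domTrace φ γ (Icc s t) \ domTrace φ γ (Icc 0 s) := by
  rintro _ ⟨z, ⟨hz1, hz2, hz3⟩, rfl⟩
  refine ⟨⟨z, ⟨hz1, hz2⟩, rfl⟩, ?_⟩
  rintro ⟨z', ⟨hz1', hz2'⟩, he⟩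
  have := hφ.2 hz2' hz2 he
  subst this
  exact hz3 hz1'

theorem new_sub (γ : ℝ → ℂ) (s t : ℝ) :
    γ '' Icc s t ∩ (uhp \ γ '' Icc 0 s) ⊆ γ '' Icc s t \ γ '' Icc 0 s :=
  fun _ hz => ⟨hz.1, hz.2.2⟩

/-- The positivity law. -/
theorem law_pos (h0 : 0 < κ) (h8 : κ < 8) :
    ∃ m : ℝ, 0 < m ∧ ∀ k : ℝ → ℝ, IsGauge k → ∀ c r₀ : ℝ, 0 < c → c ≤ 1 → 0 < r₀ →
      (∀ r : ℝ, 0 < r → r < r₀ → c * exactG κ r ≤ k r) → LawPos.{u} κ k (m * c) := by
  obtain ⟨g, hg, r₁, hr₁, -, hgr⟩ := exG_exists h0 h8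
  obtain ⟨m, hm, Hm⟩ := lower_ev.{u} h0 h8 hg hr₁ hgr
  refine ⟨m, hm, fun k hk c r₀ hc hc1 hr₀ hlow Ω _ P γ hγ => ?_⟩
  obtain ⟨W, hW, htr⟩ := sle_drv h0 hγ
  have hgk : ∀ r : ℝ, 0 < r → r < min r₀ r₁ → g r ≤ c⁻¹ * k r := by
    intro r hr hr'
    rw [hgr r hr (hr'.trans_le (min_le_right _ _)), ← exactG_eq, ← div_eq_inv_mul,
      le_div_iff₀ hc, mul_comm]
    exact hlow r hr (hr'.trans_le (min_le_left _ _))
  have hle : ∀ E : Set ℂ, gaugeMeasure g E ≤ ENNReal.ofReal c⁻¹ * gaugeMeasure k E := fun E =>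
    gm_le_of_bigO hg (inv_pos.2 hc) (lt_min hr₀ hr₁) hgk E
  refine ⟨?_, ?_, fun R hR => ?_⟩
  · filter_upwards [pos_new h0 h8 hg hr₁ hgr hW htr] with ω hω s t hs hst
    have h1 : 0 < gaugeMeasure k (γ ω '' Icc s t ∩ (uhp \ γ ω '' Icc 0 s)) := by
      rw [pos_iff_ne_zero]
      intro hz
      have h2 := hle (γ ω '' Icc s t ∩ (uhp \ γ ω '' Icc 0 s))
      rw [hz, mul_zero] at h2
      exact absurd h2 (not_le.2 (hω s t hs hst))
    refine ⟨h1.trans_le (gaugeMeasure_mono k (new_sub _ _ _)), fun φ hφ => ?_⟩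
    exact (gm_pos_img hk hφ (fun z hz => hz.2.1) h1).trans_le
      (gaugeMeasure_mono k (dom_new hφ _ _ _))
  · filter_upwards [total_inf h0 h8 hg hr₁ hgr hW htr] with ω hω
    by_contra hne
    have h2 := hle (γ ω '' Ici 0)
    rw [hω] at h2
    exact absurd (top_le_iff.1 h2) (ENNReal.mul_ne_top ENNReal.ofReal_ne_top hne)
  · obtain ⟨H, hH1, hH2, hH3⟩ := Hm hW htr hR
    refine ⟨H, hH1, (ENNReal.ofReal_le_ofReal ?_).trans hH2, ?_⟩
    · nlinarith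
    · filter_upwards [hH3] with ω hω hωH
      have h2 := (hω hωH).trans (hle _)
      have h3 := div_of_mul (inv_pos.2 hc) h2
      refine le_trans (ENNReal.ofReal_le_ofReal (le_of_eq ?_)) h3
      field_simp

/-- The infinity law. -/
theorem law_inf (h0 : 0 < κ) (h8 : κ < 8)
    (ho : ∀ ε : ℝ, 0 < ε → ∃ δ : ℝ, 0 < δ ∧ ∀ r : ℝ, 0 < r → r ≤ δ → exactG κ r ≤ ε * k r) :
    LawInf.{u} κ k := by
  obtain ⟨g, hg, r₁, hr₁, -, hgr⟩ := exG_exists h0 h8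
  have hinf : ∀ E : Set ℂ, 0 < gaugeMeasure g E → gaugeMeasure k E = ⊤ := by
    intro E hE
    by_contra hne
    refine hE.ne' (cor8_null_littleO hg (h₂ := k) (fun ε hε => ?_) (lt_top_iff_ne_top.2 hne))
    obtain ⟨δ, hδ, H⟩ := ho ε hε
    refine ⟨min δ (r₁ / 2), lt_min hδ (half_pos hr₁), fun r hr hr' => ?_⟩
    have h3 : r ≤ r₁ / 2 := hr'.trans (min_le_right _ _)
    rw [hgr r hr (by linarith), ← exactG_eq]
    exact H r hr (hr'.trans (min_le_left _ _))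
  obtain ⟨m, -, Hm⟩ := law_pos.{u} h0 h8
  have hp := Hm g hg 1 r₁ one_pos le_rfl hr₁ fun r hr hr' => by
    rw [one_mul, exactG_eq, hgr r hr hr']
  intro Ω _ P γ hγ
  filter_upwards [(hp Ω P γ hγ).1] with ω hω φ hφ s t hs hst
  exact hinf _ ((hω s t hs hst).2 φ hφ)

/-- The measure as a parametrisation. -/
theorem law_par (h0 : 0 < κ) (hk : IsGauge k) {M m : ℝ} (hf : LawFin.{u} κ k M)
    (hp : LawPos.{u} κ k m) : LawPar.{u} κ k := by
  intro Ω _ P γ hγ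
  obtain ⟨W, hW, htr⟩ := sle_drv h0 hγ
  filter_upwards [htr, (hf Ω P γ hγ).1, (hp Ω P γ hγ).1, (hp Ω P γ hγ).2.1] with ω h1 h2 h3 h4
  refine ⟨h2.1, ?_, par_cont hk h1.cont h2.1,
    par_strict hk h1.cont h2.1 fun s t hs hst => (h3 s t hs hst).1, ?_⟩
  · rw [Icc_self, image_singleton]
    exact gm_singleton hk _
  · rw [← h4]
    exact par_tend hk

/-- The law for good gauges. -/
theorem law_good (h0 : 0 < κ) (hk : IsGauge k) {M m : ℝ} (hM : 0 < M) (hm : 0 < m)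
    (hf : LawFin.{u} κ k M) (hp : LawPos.{u} κ k m) : LawGood.{u} κ k := by
  refine ⟨M, m, hM, hm, fun Ω _ P γ hγ => ?_⟩
  obtain ⟨hf1, hf2, hf3, -⟩ := hf Ω P γ hγ
  obtain ⟨hp1, -, hp3⟩ := hp Ω P γ hγ
  refine ⟨?_, hf2, hf3, hp3⟩
  filter_upwards [hf1, hp1, law_par h0 hk hf hp Ω P γ hγ] with ω h1 h2 h3
  exact ⟨h3, fun φ hφ => ⟨h1.2 φ hφ, fun s t hs hst => (h2 s t hs hst).2 φ hφ⟩⟩

/-- Regular gauges: one good scale gives a good block. -/
theorem often_reg (h0 : 0 < κ) (h8 : κ < 8) (hk : IsGauge k) (hreg : IsRegularGauge κ k) :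
    ∃ A : ℝ, 0 < A ∧ ∀ η : ℝ, 0 < η → (∃ᶠ r in 𝓝[>] (0 : ℝ), k r ≤ η * exactG κ r) →
      OftenLe κ k (A * η) := by
  obtain ⟨C, hC⟩ := hreg
  obtain ⟨C', hC'⟩ : ∃ C' : ℝ, C' = max C 0 := ⟨_, rfl⟩
  have hC0 : 0 ≤ C' := by rw [hC']; exact le_max_right _ _
  have hCC : C ≤ C' := by rw [hC']; exact le_max_left _ _
  refine ⟨2 * C' + 1, by positivity, fun η hη hfreq δ hδ => ?_⟩
  obtain ⟨r₀, hr₀, hR⟩ := hC η hη
  -- a small scale
  obtain ⟨b, hb⟩ : ∃ b : ℝ, b = min (min δ (r₀ / 2)) (Real.exp (-25)) := ⟨_, rfl⟩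
  have hb0 : 0 < b := by
    rw [hb]
    exact lt_min (lt_min hδ (half_pos hr₀)) (Real.exp_pos _)
  have hev : ∀ᶠ r in 𝓝[>] (0 : ℝ), r ∈ Ioo 0 (b ^ 5) := Ioo_mem_nhdsGT (by positivity)
  obtain ⟨r, hr1, hr0, hrb⟩ := (hfreq.and_eventually hev).exists
  obtain ⟨ρ, hρ⟩ : ∃ ρ : ℝ, ρ = r ^ ((1 : ℝ) / 5) := ⟨_, rfl⟩
  have hρ0 : 0 < ρ := by rw [hρ]; positivity
  have hρ5 : ρ ^ 5 = r := by
    rw [hρ, ← Real.rpow_natCast, ← Real.rpow_mul hr0.le]
    norm_num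
  have hρb : ρ < b := by
    by_contra hcon
    push Not at hcon
    have h1 : b ^ 5 ≤ ρ ^ 5 := pow_le_pow_left₀ hb0.le hcon 5
    rw [hρ5] at h1
    linarith
  have hbδ : b ≤ δ := by rw [hb]; exact (min_le_left _ _).trans (min_le_left _ _)
  have hbr : b ≤ r₀ / 2 := by rw [hb]; exact (min_le_left _ _).trans (min_le_right _ _)
  have hbe : b ≤ Real.exp (-25) := by rw [hb]; exact min_le_right _ _
  refine ⟨ρ, hρ0, hρb.trans_le hbδ, fun s hs => ?_⟩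
  rw [hρ5] at hs
  have hs0 : 0 < s := hr0.trans_le hs.1
  have hρ1 : ρ < 1 := (hρb.trans_le hbe).trans_le (Real.exp_le_one_iff.2 (by norm_num))
  have hrρ : r ≤ ρ := hs.1.trans hs.2
  have hm := hR r s hr0 hs.1 (by linarith [hs.2])
  have hsd : 0 < s ^ (1 + κ / 8) := Real.rpow_pos_of_pos hs0 _
  have hrd : 0 < r ^ (1 + κ / 8) := Real.rpow_pos_of_pos hr0 _
  have hqd : 0 ≤ (s / r) ^ (1 + κ / 8) := by positivity
  obtain ⟨p, hp⟩ : ∃ p : ℝ, p = 1 / 2 - κ / 16 := ⟨_, rfl⟩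
  have hp0 : 0 < p := by rw [hp]; linarith
  have hp1 : p ≤ 1 := by rw [hp]; linarith
  -- logarithms
  have hLρ : 25 < -Real.log ρ := by
    have h1 := Real.log_lt_log hρ0 (hρb.trans_le hbe)
    rw [Real.log_exp] at h1
    linarith
  have hLr : -Real.log r = 5 * -Real.log ρ := by
    rw [← hρ5, Real.log_pow]
    push_cast
    ring
  have hLs : -Real.log ρ ≤ -Real.log s := by
    have := Real.log_le_log hs0 hs.2
    linarith
  have hlog : Real.log (-Real.log r) ≤ 2 * Real.log (-Real.log s) := by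
    have h1 : -Real.log r ≤ (-Real.log s) ^ 2 := by
      rw [hLr]
      nlinarith
    have h2 := Real.log_le_log (by linarith) h1
    rwa [Real.log_pow, Nat.cast_ofNat] at h2
  have hlr0 : 0 ≤ Real.log (-Real.log r) := Real.log_nonneg (by linarith)
  have hls0 : 0 ≤ Real.log (-Real.log s) := Real.log_nonneg (by linarith)
  have hpow : Real.log (-Real.log r) ^ p ≤ 2 * Real.log (-Real.log s) ^ p := by
    calc Real.log (-Real.log r) ^ p ≤ (2 * Real.log (-Real.log s)) ^ p :=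
          Real.rpow_le_rpow hlr0 hlog hp0.le
      _ = (2 : ℝ) ^ p * Real.log (-Real.log s) ^ p := Real.mul_rpow (by norm_num) hls0
      _ ≤ 2 * Real.log (-Real.log s) ^ p := by
          apply mul_le_mul_of_nonneg_right _ (Real.rpow_nonneg hls0 _)
          calc (2 : ℝ) ^ p ≤ (2 : ℝ) ^ (1 : ℝ) :=
                Real.rpow_le_rpow_of_exponent_le (by norm_num) hp1
            _ = 2 := Real.rpow_one _
  have hGr0 : 0 ≤ exactG κ r := by
    unfold exactG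
    rw [one_div r, Real.log_inv]
    exact mul_nonneg hrd.le (Real.rpow_nonneg hlr0 _)
  have hG : (s / r) ^ (1 + κ / 8) * exactG κ r ≤ 2 * exactG κ s := by
    unfold exactG
    rw [one_div r, Real.log_inv, one_div s, Real.log_inv, ← hp, Real.div_rpow hs0.le hr0.le]
    calc s ^ (1 + κ / 8) / r ^ (1 + κ / 8) * (r ^ (1 + κ / 8) * Real.log (-Real.log r) ^ p)
        = s ^ (1 + κ / 8) * Real.log (-Real.log r) ^ p := by
          field_simp
      _ ≤ s ^ (1 + κ / 8) * (2 * Real.log (-Real.log s) ^ p) :=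
          mul_le_mul_of_nonneg_left hpow hsd.le
      _ = 2 * (s ^ (1 + κ / 8) * Real.log (-Real.log s) ^ p) := by ring
  have h7 : C * ((s / r) ^ (1 + κ / 8) * k r) ≤ C' * (2 * (η * exactG κ s)) := by
    have h8' : (s / r) ^ (1 + κ / 8) * k r ≤ 2 * (η * exactG κ s) := by
      calc (s / r) ^ (1 + κ / 8) * k r ≤ (s / r) ^ (1 + κ / 8) * (η * exactG κ r) :=
            mul_le_mul_of_nonneg_left hr1 hqd
        _ = η * ((s / r) ^ (1 + κ / 8) * exactG κ r) := by ring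
        _ ≤ η * (2 * exactG κ s) := mul_le_mul_of_nonneg_left hG hη.le
        _ = _ := by ring
    exact (mul_le_mul_of_nonneg_right hCC (mul_nonneg hqd (hk.pos r hr0).le)).trans
      (mul_le_mul_of_nonneg_left h8' hC0)
  calc k s ≤ C * ((s / r) ^ (1 + κ / 8) * k r) + η * exactG κ s := hm
    _ ≤ C' * (2 * (η * exactG κ s)) + η * exactG κ s := by linarith
    _ = (2 * C' + 1) * η * exactG κ s := by ring

end Vale.Agent.P164.H411
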