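import Vale.Agent.P164.H411.New

/-!
# Quantitative lower bounds
-/

namespace Vale.Agent.P164.H411

open Set Metric Filter Topology MeasureTheory ProbabilityTheory Vale.Agent.P164.E8
open scoped NNReal ENNReal

theorem vis_quant_aux {κ : ℝ} (h0 : 0 < κ) (h8 : κ < 8) {h : ℝ → ℝ} (hh' : IsGauge h)
    {r₀ : ℝ} (hr₀ : 0 < r₀) (hhr : ∀ r, 0 < r → r < r₀ → h r = hh κ r) {c₁ C₃ δ₀ : ℝ}
    (hc₁ : 0 < c₁) (hC₃ : 0 < C₃) (hδ₀ : 0 < δ₀) {W : ℝ → ℝ} (hW : Continuous W)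
    {T : ℝ} (hT : 0 < T) {E : Set ℂ} (hEc : IsCompact E)
    (hyc : ∀ V : Set ℂ, IsOpen V → E ⊆ V → ∀ᶠ n : ℕ in atTop,
      ∀ z ∈ ball Complex.I (1 / 2), z ∉ V → yc κ (Real.exp (-n)) W z 0 T = 0)
    (hfreq : ∃ᶠ n : ℕ in atTop, GoodEv8 κ c₁ C₃ δ₀ (Real.exp (-n)) W T) :
    ENNReal.ofReal (c₁ / (8 * C₃)) ≤ gaugeMeasure h E := by
  by_contra hzero
  push Not at hzero
  -- constants
  set η : ℝ := c₁ / (8 * C₃) with hη
  have hηpos : 0 < η := by positivity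
  set δ : ℝ := min δ₀ r₀ / 4 with hδ
  have hδpos : 0 < δ := by
    have := lt_min hδ₀ hr₀
    positivity
  have hδ1 : 2 * δ ≤ δ₀ := by
    have := min_le_left δ₀ r₀
    rw [hδ]; linarith only [hδ₀, this]
  have hδ2 : 2 * δ < r₀ := by
    have := min_le_right δ₀ r₀
    rw [hδ]; linarith only [hr₀, this]
  -- the cover
  have hpre : pre h δ E < ENNReal.ofReal η :=
    lt_of_le_of_lt (pre_le_gaugeMeasure h hδpos E) hzero
  obtain ⟨U, hU1, hU2, hU3⟩ := exists_cover hpre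
  obtain ⟨ε, hεpos, hεsum⟩ := ENNReal.exists_pos_sum_of_countable
    (ENNReal.ofReal_pos.2 hηpos).ne' ℕ
  have hD : ∀ j, ∃ D' : ℝ, Metric.diam (U j) < D' ∧ D' ≤ Metric.diam (U j) + δ ∧
      h D' ≤ h (Metric.diam (U j)) + ε j := fun j =>
    hh'.enlarge Metric.diam_nonneg (by exact_mod_cast hεpos j) hδpos
  choose D' hD1 hD2 hD3 using hD
  set V : ℕ → Set ℂ := fun j => thickening ((D' j - Metric.diam (U j)) / 2) (U j) with hV
  have hVo : ∀ j, IsOpen (V j) := fun j => isOpen_thickening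
  have hVb : ∀ j, Bornology.IsBounded (V j) := fun j => (hU2 j).1.thickening
  have hVd : ∀ j, Metric.diam (V j) ≤ D' j := by
    intro j
    have h1 : 0 ≤ (D' j - Metric.diam (U j)) / 2 := by linarith only [hD1 j]
    refine (Metric.diam_thickening_le (U j) h1).trans ?_
    linarith only []
  have hVd2 : ∀ j, Metric.diam (V j) ≤ 2 * δ := fun j => by
    linarith only [hVd j, hD2 j, (hU2 j).2]
  have hUV : ∀ j, U j ⊆ V j := fun j => self_subset_thickening (by linarith only [hD1 j]) _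
  obtain ⟨J, hJ⟩ := hEc.elim_finite_subcover V hVo
    (hU1.trans (iUnion_mono hUV))
  set VV : Set ℂ := ⋃ j ∈ J, V j with hVV
  have hVVo : IsOpen VV := isOpen_biUnion fun j _ => hVo j
  -- choice of the level
  have hev : ∀ᶠ n : ℕ in atTop, ∀ z ∈ ball Complex.I (1 / 2), z ∉ VV →
      yc κ (Real.exp (-n)) W z 0 T = 0 := hyc VV hVVo hJ
  have hev2 : ∀ᶠ n : ℕ in atTop, ∀ j ∈ J, (V j).Nonempty →
      √(Real.exp (-(n : ℝ))) ≤ Metric.diam (V j) := by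
    rw [Filter.eventually_all_finset]
    intro j hj
    by_cases hne : (V j).Nonempty
    · obtain ⟨x, hx⟩ := hne
      filter_upwards [lowVisPosAux_sqrt_le (diam_pos_of_open (hVo j) (hVb j) hx)] with n hn
      exact fun _ => hn
    · exact Eventually.of_forall fun n hn => absurd hn hne
  obtain ⟨n, ⟨Ub, hUb, hmu1, hmu2, hmu3⟩, hn, hn2⟩ :=
    (hfreq.and_eventually (hev.and hev2)).exists
  set r : ℝ := Real.exp (-(n : ℝ)) with hr
  have hrpos : 0 < r := Real.exp_pos _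
  classical
  set B : Set ℂ := ball Complex.I (1 / 2) with hB
  have hBcl : B ⊆ closedBall Complex.I (1 / 2) := ball_subset_closedBall
  set J' : Finset ℕ := J.filter (fun j => ¬ (V j ∩ B ⊆ Ub)) with hJ'
  have key := mu_le_of_cover (κ := κ) (r := r) (W := W) (T := T) h0 h8 hrpos hW hT.le
    (B := B) (A := Ub) measurableSet_ball
    (fun z hz => by
      have := im_gt_of_mem_ball_I (hBcl hz)
      linarith only [this]) measure_ball_lt_top.ne hUb J' V (fun j _ => (hVo j).measurableSet)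
    (fun z hzB hzA hzV => by
      refine hn z hzB ?_
      intro hzVV
      obtain ⟨j, hj, hjz⟩ := mem_iUnion₂.1 hzVV
      by_cases hsub : V j ∩ B ⊆ Ub
      · exact hzA (hsub ⟨hjz, hzB⟩)
      · exact hzV j (Finset.mem_filter.2 ⟨hj, hsub⟩) hjz)
  have hterm : ∀ j ∈ J', mu κ r W (V j ∩ B) 0 T ≤ C₃ * (h (Metric.diam (U j)) + ε j) := by
    intro j hj
    obtain ⟨hjJ, hjU⟩ := Finset.mem_filter.1 hj
    obtain ⟨x, hx, -⟩ := Set.not_subset.1 hjU
    rcases hmu3 (V j) (hVo j).measurableSet (hVb j) (hn2 j hjJ ⟨x, hx.1⟩)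
      ((hVd2 j).trans hδ1) with h1 | h1
    · exact absurd h1 hjU
    · refine h1.trans (mul_le_mul_of_nonneg_left ?_ hC₃.le)
      have hpos := diam_pos_of_open (hVo j) (hVb j) hx.1
      rw [← hhr _ hpos (lt_of_le_of_lt (hVd2 j) hδ2)]
      refine le_trans ?_ (hD3 j)
      exact hh'.mono (mem_Ici.2 hpos.le) (mem_Ici.2 (hpos.le.trans (hVd j))) (hVd j)
  have hs1 : ∑ j ∈ J', h (Metric.diam (U j)) ≤ η := by
    have h1 : ENNReal.ofReal (∑ j ∈ J', h (Metric.diam (U j))) ≤ ENNReal.ofReal η := by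
      rw [ENNReal.ofReal_sum_of_nonneg fun j _ => hh'.nonneg Metric.diam_nonneg]
      exact (ENNReal.sum_le_tsum J').trans hU3.le
    exact (ENNReal.ofReal_le_ofReal_iff hηpos.le).1 h1
  have hs2 : ∑ j ∈ J', (ε j : ℝ) ≤ η := by
    have h1 : ENNReal.ofReal (∑ j ∈ J', (ε j : ℝ)) ≤ ENNReal.ofReal η := by
      rw [ENNReal.ofReal_sum_of_nonneg fun j _ => (ε j).coe_nonneg]
      simp_rw [ENNReal.ofReal_coe_nnreal]
      exact (ENNReal.sum_le_tsum J').trans hεsum.le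
    exact (ENNReal.ofReal_le_ofReal_iff hηpos.le).1 h1
  have hsum : ∑ j ∈ J', mu κ r W (V j ∩ B) 0 T ≤ C₃ * (2 * η) := by
    refine (Finset.sum_le_sum hterm).trans ?_
    rw [← Finset.mul_sum, Finset.sum_add_distrib]
    refine mul_le_mul_of_nonneg_left ?_ hC₃.le
    linarith only [hs1, hs2]
  have hCη : C₃ * (2 * η) = c₁ / 4 := by
    rw [hη]
    field_simp
    ring
  linarith only [hc₁, hmu1, hmu2, key, hsum, hCη]


theorem vis_quant {κ : ℝ} (h0 : 0 < κ) (h8 : κ < 8) {h : ℝ → ℝ} (hh' : IsGauge h)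
    {r₀ : ℝ} (hr₀ : 0 < r₀) (hhr : ∀ r, 0 < r → r < r₀ → h r = hh κ r) {c₁ C₃ δ₀ : ℝ}
    (hc₁ : 0 < c₁) (hC₃ : 0 < C₃) (hδ₀ : 0 < δ₀) {W : ℝ → ℝ} (hW : Continuous W)
    {T : ℝ} (hT : 0 < T)
    (hfreq : ∃ᶠ n : ℕ in atTop, GoodEv8 κ c₁ C₃ δ₀ (Real.exp (-n)) W T) :
    ENNReal.ofReal (c₁ / (8 * C₃)) ≤ gaugeMeasure h (Vis W T ∩ closedBall Complex.I (1 / 2)) :=
  vis_quant_aux h0 h8 hh' hr₀ hhr hc₁ hC₃ hδ₀ hW hT (vis_closed hW T)
    (fun _ hV hc => vis_yc_zero hW hT.le hV hc) hfreq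

/-- The good events, for the path restarted at time `s` and rescaled by `r`. -/
theorem ev_exists {κ : ℝ} (h0 : 0 < κ) (h8 : κ < 8) {h : ℝ → ℝ} (hh' : IsGauge h)
    {r₀ : ℝ} (hr₀ : 0 < r₀) (hhr : ∀ r, 0 < r → r < r₀ → h r = hh κ r) :
    ∃ η c₂ : ℝ, 0 < η ∧ 0 < c₂ ∧
      ∀ {Ω : Type*} [MeasurableSpace Ω] {P : Measure Ω} {W : ℝ → Ω → ℝ} (_ : IsDrv κ P W)
      {s r : ℝ} (_ : 0 ≤ s) (_ : 0 < r),
      ∃ H : Set Ω, MeasurableSet[past (scaleP r (shiftP s W)) TT8] H ∧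
        ENNReal.ofReal c₂ ≤ P H ∧ ∀ ω ∈ H, ENNReal.ofReal η ≤
          gaugeMeasure h (Vis (scaleW r (shiftW s (fun u => W u ω))) TT8 ∩
            closedBall Complex.I (1 / 2)) := by
  obtain ⟨c₁, C₃, δ₀, c₂, ε₀, hc₁, hC₃, hδ₀, hc₂, hε₀, hgood⟩ := good_event h0 h8
  refine ⟨c₁ / (8 * C₃), c₂, by positivity, hc₂, ?_⟩
  intro Ω _ P W hW s r hs hr
  have hprob := hW.prob
  have hWk : IsDrv κ P (scaleP r (shiftP s W)) := (hW.shift hs).scale hr
  have hT : (0 : ℝ) < TT8 := by unfold TT8; norm_num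
  obtain ⟨N₀, hN₀⟩ : ∃ N₀ : ℕ, ∀ n : ℕ, N₀ ≤ n → Real.exp (-n) ≤ ε₀ := by
    have h1 : Tendsto (fun n : ℕ => Real.exp (-(n : ℝ))) atTop (𝓝 0) :=
      Real.tendsto_exp_neg_atTop_nhds_zero.comp tendsto_natCast_atTop_atTop
    exact eventually_atTop.1 (h1.eventually (ge_mem_nhds hε₀))
  have hex : ∀ n : ℕ, ∃ G : Set Ω,
      MeasurableSet[past (scaleP r (shiftP s W)) TT8] G ∧
      (N₀ ≤ n → ENNReal.ofReal c₂ ≤ P G) ∧
      ∀ ω ∈ G, GoodEv8 κ c₁ C₃ δ₀ (Real.exp (-n))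
        (scaleW r (shiftW s (fun u => W u ω))) TT8 := by
    intro n
    by_cases hn : N₀ ≤ n
    · obtain ⟨G, hG1, hG2, hG3⟩ := hgood hWk (Real.exp_pos (-(n : ℝ))) (hN₀ n hn)
      exact ⟨G, hG1, fun _ => hG2, hG3⟩
    · exact ⟨∅, @MeasurableSet.empty Ω (past (scaleP r (shiftP s W)) TT8),
        fun h => absurd h hn, fun ω hω => absurd hω (notMem_empty ω)⟩
  choose G hG1 hG2 hG3 using hex
  refine ⟨{ω | ∃ᶠ n : ℕ in atTop, ω ∈ G n}, LowSeg_meas_freq _ 0 fun n _ => hG1 n,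
    LowSeg_freq_ge P (fun n => hWk.past_le _ (hG1 n)) N₀ hG2, fun ω hω => ?_⟩
  have hcont : Continuous (fun u => W u ω) := hW.cont ω
  have hsc : Continuous (scaleW r (shiftW s (fun u => W u ω))) := by
    have hsh : Continuous (shiftW s (fun u => W u ω)) :=
      (hcont.comp (continuous_const.add continuous_id)).sub continuous_const
    exact continuous_const.mul (hsh.comp (continuous_const.mul continuous_id))
  exact vis_quant h0 h8 hh' hr₀ hhr hc₁ hC₃ hδ₀ hsc hT (Frequently.mono hω fun n hn => hG3 n ω hn)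

theorem div_of_mul {a c : ℝ} (hc : 0 < c) {G : ℝ≥0∞}
    (h : ENNReal.ofReal a ≤ ENNReal.ofReal c * G) : ENNReal.ofReal (a / c) ≤ G := by
  rw [ENNReal.ofReal_div_of_pos hc]
  exact ENNReal.div_le_of_le_mul' h

/-- The scaled visited set. -/
theorem vis_scaled {κ : ℝ} (h0 : 0 < κ) (h8 : κ < 8) {h : ℝ → ℝ} (hh' : IsGauge h)
    {r₀ : ℝ} (hr₀ : 0 < r₀) (hhr : ∀ r, 0 < r → r < r₀ → h r = hh κ r) {η r : ℝ} (hr : 0 < r)
    {E : Set ℂ} (hpos : ENNReal.ofReal η ≤ gaugeMeasure h E) :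
    ENNReal.ofReal (η / (2 * r⁻¹ ^ dd κ)) ≤ gaugeMeasure h ((fun z : ℂ => (r : ℂ) * z) '' E) := by
  have hrc : (r : ℂ) ≠ 0 := by exact_mod_cast hr.ne'
  have hri : 0 < r⁻¹ := inv_pos.2 hr
  have hrd := Real.rpow_pos_of_pos hri (dd κ)
  refine div_of_mul (by positivity) (hpos.trans ?_)
  have h1 := gm_lip h0 h8 hh' hr₀ hhr hri (E := (fun z : ℂ => (r : ℂ) * z) '' E)
    (f := fun z => ((r⁻¹ : ℝ) : ℂ) * z) (fun x _ y _ => by
      rw [dist_eq_norm, dist_eq_norm, ← mul_sub, norm_mul, Complex.norm_real, Real.norm_eq_abs,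
        abs_of_pos hri])
  have h2 : (fun z : ℂ => ((r⁻¹ : ℝ) : ℂ) * z) '' ((fun z : ℂ => (r : ℂ) * z) '' E) = E := by
    rw [image_image]
    convert image_id E using 1
    refine image_congr fun z _ => ?_
    rw [id, ← mul_assoc, Complex.ofReal_inv, inv_mul_cancel₀ hrc, one_mul]
  rwa [h2] at h1

/-- Lower bound for the measure of a segment from the restarted, rescaled path. -/
theorem pull_quant {κ : ℝ} (h0 : 0 < κ) (h8 : κ < 8) {h : ℝ → ℝ} (hh' : IsGauge h)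
    {r₀ : ℝ} (hr₀ : 0 < r₀) (hhr : ∀ r, 0 < r → r < r₀ → h r = hh κ r) {η : ℝ}
    {W : ℝ → ℝ} (hW : Continuous W)
    {γ : ℝ → ℂ} (hγ : IsTrace W γ) {s r T : ℝ} (hs : 0 ≤ s) (hT : 0 ≤ T) (hr : 0 < r)
    (hsr : s ≤ r ^ 2)
    (hpos : ENNReal.ofReal η ≤
      gaugeMeasure h (Vis (scaleW r (shiftW s W)) T ∩ closedBall Complex.I (1 / 2))) :
    ENNReal.ofReal (η / (2 * r⁻¹ ^ dd κ) / (2 * Real.exp 8 ^ dd κ)) ≤
      gaugeMeasure h (γ '' Icc s (s + r ^ 2 * T)) := by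
  have hWs : Continuous (shiftW s W) := by
    unfold shiftW
    exact (hW.comp (continuous_const.add continuous_id)).sub continuous_const
  set F₀ : Set ℂ := Vis (scaleW r (shiftW s W)) T ∩ closedBall Complex.I (1 / 2) with hF₀
  set F : Set ℂ := (fun z : ℂ => (r : ℂ) * z) '' F₀ with hF
  have hFim : ∀ z ∈ F, r / 2 ≤ z.im := by
    rintro _ ⟨z, hz, rfl⟩
    have h1 : |(z - Complex.I).im| ≤ ‖z - Complex.I‖ := Complex.abs_im_le_norm _
    have h2 := hz.2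
    rw [mem_closedBall, dist_eq_norm] at h2
    rw [Complex.sub_im, Complex.I_im] at h1
    have h3 := (abs_le.1 (h1.trans h2)).1
    simp only [Complex.im_ofReal_mul]
    nlinarith
  have h1 := vis_scaled h0 h8 hh' hr₀ hhr hr hpos
  set Pb : Set ℂ := {z | z ∈ loewnerDomain W s ∧ Zf W z s ∈ F} with hPb
  have hWc : ContinuousOn W (Icc 0 s) := hW.continuousOn
  have hsub : F ⊆ (fun z => Zf W z s) '' Pb := by
    intro w hw
    have him : 0 < w.im := lt_of_lt_of_le (by positivity) (hFim w hw)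
    have e : Zf W (invflow W s w) s = w := flow_invflow hs hWc him
    refine ⟨invflow W s w, ⟨invflow_mem hs hWc him, ?_⟩, e⟩
    rw [e]
    exact hw
  have hlip : ∀ x ∈ Pb, ∀ y ∈ Pb, dist (Zf W x s) (Zf W y s) ≤ Real.exp 8 * dist x y := by
    intro x hx y hy
    obtain ⟨g, hg⟩ := hx.1
    obtain ⟨g', hg'⟩ := hy.1
    have ex := Zf_eq_of_sol hs hg
    have ey := Zf_eq_of_sol hs hg'
    have hix := hFim _ hx.2
    have hiy := hFim _ hy.2
    rw [ex, Complex.sub_im, Complex.ofReal_im, sub_zero] at hix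
    rw [ey, Complex.sub_im, Complex.ofReal_im, sub_zero] at hiy
    rw [ex, ey, dist_sub_right, mul_comm]
    refine (hg.dist_le hg' (by positivity : 0 < r / 2) hix hiy ⟨hs, le_rfl⟩).trans ?_
    refine mul_le_mul_of_nonneg_left (Real.exp_le_exp.2 ?_) dist_nonneg
    rw [div_pow, div_div_eq_mul_div, div_mul_eq_mul_div, div_le_iff₀ (by positivity)]
    nlinarith
  have h2 := gm_lip h0 h8 hh' hr₀ hhr (Real.exp_pos 8) hlip
  have hed := Real.rpow_pos_of_pos (Real.exp_pos 8) (dd κ)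
  refine (div_of_mul (by positivity) (h1.trans ((gaugeMeasure_mono h hsub).trans h2))).trans
    (gaugeMeasure_mono h ?_)
  rintro z ⟨hz1, w, hw, hwz⟩
  have h4 : (r : ℂ) * w ∈ Vis (shiftW s W) (r ^ 2 * T) := vis_scale hWs hr hw.1
  have hu : 0 ≤ r ^ 2 * T := by positivity
  have h5 : Zf W z s ∈ Vis (shiftW s W) (r ^ 2 * T) := by
    rw [← hwz]
    exact h4
  exact vis_trace hW hγ hs hu hz1 h5

/-- Lower bound near `r i`. -/
theorem pull_zero {κ : ℝ} (h0 : 0 < κ) (h8 : κ < 8) {h : ℝ → ℝ} (hh' : IsGauge h)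
    {r₀ : ℝ} (hr₀ : 0 < r₀) (hhr : ∀ r, 0 < r → r < r₀ → h r = hh κ r) {η : ℝ}
    {W : ℝ → ℝ} (hW : Continuous W) (hW0 : W 0 = 0)
    {γ : ℝ → ℂ} (hγ : IsTrace W γ) {r T : ℝ} (hT : 0 ≤ T) (hr : 0 < r)
    (hpos : ENNReal.ofReal η ≤
      gaugeMeasure h (Vis (scaleW r (shiftW 0 W)) T ∩ closedBall Complex.I (1 / 2))) :
    ENNReal.ofReal (η / (2 * r⁻¹ ^ dd κ)) ≤
      gaugeMeasure h (γ '' Ici 0 ∩ closedBall 0 (3 / 2 * r)) := by
  have hWs : Continuous (shiftW 0 W) := by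
    unfold shiftW
    exact (hW.comp (continuous_const.add continuous_id)).sub continuous_const
  refine (vis_scaled h0 h8 hh' hr₀ hhr hr hpos).trans (gaugeMeasure_mono h ?_)
  rintro _ ⟨z, hz, rfl⟩
  have h4 : (r : ℂ) * z ∈ Vis (shiftW 0 W) (r ^ 2 * T) := vis_scale hWs hr hz.1
  have hu : 0 ≤ r ^ 2 * T := by positivity
  have him : 0 < ((r : ℂ) * z).im := h4.1
  have h5 : Zf W ((r : ℂ) * z) 0 ∈ Vis (shiftW 0 W) (r ^ 2 * T) := by
    rw [Zf_zero him, hW0, Complex.ofReal_zero, sub_zero]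
    exact h4
  have h6 := vis_trace hW hγ le_rfl hu (dom_zero.2 him) h5
  refine ⟨image_mono (fun t ht => ht.1) h6, ?_⟩
  have h7 := hz.2
  rw [mem_closedBall, dist_eq_norm] at h7
  rw [mem_closedBall, dist_zero_right]
  simp only [norm_mul, Complex.norm_real, Real.norm_of_nonneg hr.le]
  have h8' : ‖z‖ ≤ 3 / 2 := by
    calc ‖z‖ = ‖(z - Complex.I) + Complex.I‖ := by rw [sub_add_cancel]
      _ ≤ ‖z - Complex.I‖ + ‖Complex.I‖ := norm_add_le _ _
      _ ≤ 1 / 2 + 1 := by rw [Complex.norm_I]; linarith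
      _ = 3 / 2 := by norm_num
  nlinarith

end Vale.Agent.P164.H411
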