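import Vale.Agent.P164.H411.GM
import Vale.Agent.P164.H411.Forms

/-!
# The mean of the gauge measure of the whole trace in a disc
-/

namespace Vale.Agent.P164.H411

open Set Metric Filter Topology MeasureTheory ProbabilityTheory
open scoped NNReal ENNReal

theorem MeanLe.mono {Ω : Type*} [MeasurableSpace Ω] {P : Measure Ω} {f g : Ω → ℝ≥0∞} {c d : ℝ≥0∞}
    (h : MeanLe P f c) (hg : ∀ᵐ ω ∂P, g ω ≤ f ω) (hcd : c ≤ d) : MeanLe P g d := by
  obtain ⟨X, h1, h2, h3⟩ := h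
  refine ⟨X, h1, ?_, h3.trans hcd⟩
  filter_upwards [h2, hg] with ω a b
  exact b.trans a

theorem MeanLe.const_mul {Ω : Type*} [MeasurableSpace Ω] {P : Measure Ω} {f : Ω → ℝ≥0∞}
    {c : ℝ≥0∞} (h : MeanLe P f c) (a : ℝ≥0∞) : MeanLe P (fun ω => a * f ω) (a * c) := by
  obtain ⟨X, h1, h2, h3⟩ := h
  refine ⟨fun ω => a * X ω, h1.const_mul a, ?_, ?_⟩
  · filter_upwards [h2] with ω h
    exact mul_le_mul_right h a
  · rw [lintegral_const_mul a h1]
    exact mul_le_mul_right h3 a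

theorem MeanLe.tsum {Ω : Type*} [MeasurableSpace Ω] {P : Measure Ω} {ι : Type*} [Countable ι]
    {f : ι → Ω → ℝ≥0∞} {c : ι → ℝ≥0∞} (h : ∀ i, MeanLe P (f i) (c i)) :
    MeanLe P (fun ω => ∑' i, f i ω) (∑' i, c i) := by
  choose X h1 h2 h3 using h
  refine ⟨fun ω => ∑' i, X i ω, Measurable.tsum h1, ?_, ?_⟩
  · filter_upwards [ae_all_iff.2 h2] with ω h
    exact ENNReal.tsum_le_tsum h
  · rw [lintegral_tsum fun i => (h1 i).aemeasurable]
    exact ENNReal.tsum_le_tsum h3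

/-- Fatou. -/
theorem MeanLe.fatou {Ω : Type*} [MeasurableSpace Ω] {P : Measure Ω}
    {f : ℕ → Ω → ℝ≥0∞} {g : Ω → ℝ≥0∞} {c : ℝ≥0∞} (h : ∀ n, MeanLe P (f n) c)
    (hg : ∀ᵐ ω ∂P, g ω ≤ liminf (fun n => f n ω) atTop) : MeanLe P g c := by
  choose X h1 h2 h3 using h
  refine ⟨fun ω => liminf (fun n => X n ω) atTop, Measurable.liminf h1, ?_, ?_⟩
  · filter_upwards [ae_all_iff.2 h2, hg] with ω h hg
    exact hg.trans (liminf_le_liminf (Eventually.of_forall h))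
  · refine (lintegral_liminf_le h1).trans ?_
    refine (liminf_le_liminf (Eventually.of_forall h3)).trans ?_
    rw [liminf_const]

/-- The majorant behind Markov's inequality `upper_markov`. -/
theorem mean_count {Ω : Type*} [MeasurableSpace Ω] {P : Measure Ω} {X f : Ω → ℝ≥0∞}
    (hX : Measurable X) {F : Set ℂ} (hF : F.Finite) {bad : Ω → ℂ → Prop} {p c : ℝ≥0∞}
    (hp : ∀ z ∈ F, P {ω | bad ω z} ≤ p)
    (hf : ∀ᵐ ω ∂P, f ω ≤ X ω + ({z ∈ F | bad ω z}.encard : ℝ≥0∞) * c) :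
    MeanLe P f (∫⁻ ω, X ω ∂P + F.ncard * p * c) := by
  classical
  have hBm : ∀ z, Measurable ((toMeasurable P {ω | bad ω z}).indicator (1 : Ω → ℝ≥0∞)) := fun z =>
    measurable_one.indicator (measurableSet_toMeasurable _ _)
  have hS : Measurable fun ω => ∑ z ∈ hF.toFinset,
      (toMeasurable P {ω | bad ω z}).indicator (1 : Ω → ℝ≥0∞) ω :=
    Finset.measurable_sum _ fun z _ => hBm z
  have hYm : Measurable fun ω => X ω + (∑ z ∈ hF.toFinset,
      (toMeasurable P {ω | bad ω z}).indicator (1 : Ω → ℝ≥0∞) ω) * c := hX.add (hS.mul_const c)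
  refine ⟨_, hYm, ?_, ?_⟩
  · filter_upwards [hf] with ω hω
    have h2 : ({z ∈ F | bad ω z}.encard : ℝ≥0∞) ≤ ∑ z ∈ hF.toFinset,
        (toMeasurable P {ω | bad ω z}).indicator (1 : Ω → ℝ≥0∞) ω := by
      have hA : {z ∈ F | bad ω z}.Finite := hF.subset (sep_subset _ _)
      rw [hA.encard_eq_coe_toFinset_card, ENat.toENNReal_coe]
      have h3 : hA.toFinset = hF.toFinset.filter (fun z => bad ω z) := by
        ext z
        simp only [Finite.mem_toFinset, mem_ofPred_eq, Finset.mem_filter]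
      rw [h3, Finset.card_filter, Nat.cast_sum]
      refine Finset.sum_le_sum fun z _ => ?_
      split_ifs with hb
      · have h4 : ω ∈ toMeasurable P {ω | bad ω z} := subset_toMeasurable _ _ hb
        simp only [Nat.cast_one, indicator_of_mem h4, Pi.one_apply, Std.le_refl]
      · simp
    exact hω.trans (by gcongr)
  · rw [lintegral_add_left hX, lintegral_mul_const _ hS, lintegral_finsetSum _ fun z _ => hBm z]
    gcongr
    refine (Finset.sum_le_card_nsmul _ _ p fun z hz => ?_).trans (le_of_eq ?_)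
    · rw [lintegral_indicator_one (measurableSet_toMeasurable _ _), measure_toMeasurable]
      exact hp z (by simpa using hz)
    · rw [nsmul_eq_mul, Set.ncard_eq_toFinset_card F hF]

open Vale.Agent.P164.E8

/-- One level of the covering. -/
theorem level_mean {κ : ℝ} (h0 : 0 < κ) (h4 : κ < 8)
    {Ω : Type*} [MeasurableSpace Ω] {P : Measure Ω} {W : ℝ → Ω → ℝ} (hW : IsDrv κ P W)
    {γ : Ω → ℝ → ℂ} (hγ : ∀ᵐ ω ∂P, IsTrace (fun u => W u ω) (γ ω)) {a T : ℝ} (hT : 0 < T)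
    {h : ℝ → ℝ} {C' b u₀ ε Ch q H δ : ℝ} {K : ℕ} (hC' : 0 < C') (hε : 0 < ε) (hCh : 0 < Ch)
    (hv : u₀ - b * K ≤ 0) (hq : 0 ≤ q)
    {bad : Ω → ℂ → Prop}
    (hcov : ∀ ω, IsTrace (fun u => W u ω) (γ ω) →
      pre h δ (γ ω '' Icc 0 T ∩ closedBall (ctr a) (3 / 5)) ≤
        ENNReal.ofReal (C' * Ch * mu κ ε (fun u => W u ω) (ball (ctr a) (3 / 4)) 0 T) +
        ({z ∈ lattA a (Real.exp (u₀ - b * K - 1) / 20) | bad ω z}.encard : ℝ≥0∞) *
          ENNReal.ofReal (h (Real.exp (u₀ - b * K))))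
    (hbad : ∀ z ∈ lattA a (Real.exp (u₀ - b * K - 1) / 20), P {ω | bad ω z} ≤
      ENNReal.ofReal (Real.exp (xx κ * (u₀ - b * K)) * q))
    (hH : h (Real.exp (u₀ - b * K)) ≤ H * Real.exp (dd κ * (u₀ - b * K))) (hH0 : 0 ≤ H)
    : MeanLe P (fun ω => pre h δ (γ ω '' Icc 0 T ∩ closedBall (ctr a) (3 / 5)))
      (ENNReal.ofReal (100 * (C' * Ch) + 40000 * Real.exp 2 * (H * q))) := by
  have hP : IsProbabilityMeasure P := hW.prob
  set v : ℝ := u₀ - b * K with hvdef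
  set e : ℝ := Real.exp (v - 1) / 20 with he
  have he0 : 0 < e := by positivity
  have he1 : e ≤ 1 := by
    have : Real.exp (v - 1) ≤ 1 := Real.exp_le_one_iff.2 (by linarith only [hv])
    rw [he]
    linarith only [this]
  have hX : Measurable fun ω => ENNReal.ofReal (C' * Ch * mu κ ε (fun u => W u ω)
      (ball (ctr a) (3 / 4)) 0 T) :=
    ((ge_meas hW κ ε hT.le _).const_mul _).ennreal_ofReal
  have hcov' : ∀ᵐ ω ∂P, pre h δ (γ ω '' Icc 0 T ∩ closedBall (ctr a) (3 / 5)) ≤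
        ENNReal.ofReal (C' * Ch * mu κ ε (fun u => W u ω) (ball (ctr a) (3 / 4)) 0 T) +
        ({z ∈ lattA a e | bad ω z}.encard : ℝ≥0∞) * ENNReal.ofReal (h (Real.exp v)) := by
    filter_upwards [hγ] with ω h1
    exact hcov ω h1
  have h1 := mean_count hX (lattA_finite a he0) hbad hcov'
  refine MeanLe.mono h1 (Eventually.of_forall fun ω => le_rfl) ?_
  rw [ENNReal.ofReal_add (by (clear * - hC' hCh; positivity)) (by (clear * - hH0 hq; positivity))]
  refine add_le_add ?_ ?_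
  · have h2 : ∀ ω, ENNReal.ofReal (C' * Ch * mu κ ε (fun u => W u ω)
        (ball (ctr a) (3 / 4)) 0 T) = ENNReal.ofReal (C' * Ch) *
          ENNReal.ofReal (mu κ ε (fun u => W u ω) (ball (ctr a) (3 / 4)) 0 T) := fun ω =>
      ENNReal.ofReal_mul (by positivity)
    rw [lintegral_congr h2, lintegral_const_mul _ (ge_meas hW κ ε hT.le _).ennreal_ofReal]
    rw [mul_comm (100 : ℝ), ENNReal.ofReal_mul (p := C' * Ch) (by positivity)]
    exact mul_le_mul_right (exp_mu h0 h4 hW hε hT) _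
  · have h3 : ((lattA a e).ncard : ℝ≥0∞) ≤ ENNReal.ofReal (40000 * Real.exp 2 * Real.exp (-2 * v)) := by
      rw [← ENNReal.ofReal_natCast]
      apply ENNReal.ofReal_le_ofReal
      refine (lattA_card a he0 he1).trans (le_of_eq ?_)
      rw [he, div_pow, ← Real.exp_nat_mul, mul_assoc, ← Real.exp_add, div_div_eq_mul_div,
        div_eq_mul_inv, ← Real.exp_neg]
      have : -((2 : ℕ) * (v - 1)) = 2 + -2 * v := by push_cast; ring
      rw [this]
      norm_num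
    calc ((lattA a e).ncard : ℝ≥0∞) * ENNReal.ofReal (Real.exp (xx κ * v) * q) *
          ENNReal.ofReal (h (Real.exp v))
        ≤ ENNReal.ofReal (40000 * Real.exp 2 * Real.exp (-2 * v)) *
          ENNReal.ofReal (Real.exp (xx κ * v) * q) *
          ENNReal.ofReal (H * Real.exp (dd κ * v)) := by
          (clear * - h3 hH; gcongr)
      _ = ENNReal.ofReal (40000 * Real.exp 2 * (H * q)) := by
          rw [← ENNReal.ofReal_mul (by positivity), ← ENNReal.ofReal_mul (by (clear * - hq; positivity))]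
          congr 1
          have h5 : Real.exp (-2 * v) * Real.exp (xx κ * v) * Real.exp (dd κ * v) = 1 := by
            rw [← Real.exp_add, ← Real.exp_add, Real.exp_eq_one_iff]
            unfold xx dd
            ring
          calc 40000 * Real.exp 2 * Real.exp (-2 * v) * (Real.exp (xx κ * v) * q) *
                (H * Real.exp (dd κ * v)) = 40000 * Real.exp 2 * (H * q) *
                (Real.exp (-2 * v) * Real.exp (xx κ * v) * Real.exp (dd κ * v)) := by ring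
            _ = _ := by rw [h5, mul_one]

/-- The exact gauge in the notation of the closure. -/
theorem exactG_eq (κ r : ℝ) : exactG κ r = hh κ r := (cor8_hh κ r).symm

/-- Blocks of scales for a rescaled gauge. -/
theorem often_blk {κ : ℝ} (h0 : 0 < κ) (h8 : κ < 8) {k : ℝ → ℝ} {C₀ : ℝ} (hC₀ : 0 < C₀)
    (hk : OftenLe κ k C₀) {y : ℝ} (hy : 0 < y) {b C' : ℝ} (hb : 1 ≤ b) (hC' : 1 ≤ C') :
    ∃ᶠ n : ℕ in atTop, ∀ r, 0 < r → r ≤ C' * Real.exp (-(b * 2 ^ n)) →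
      Real.exp (-(b * 2 ^ n) - b * 2 ^ n) ≤ r → k (y * r) ≤ C₀ * (2 * y ^ dd κ) * hh κ r := by
  rw [frequently_atTop]
  intro N
  obtain ⟨r₁, hr₁, Hs⟩ := hh_scale h0 h8 hy
  obtain ⟨S, hS⟩ : ∃ S : ℝ, S = Real.log C' + |Real.log y| := ⟨_, rfl⟩
  have hlC : 0 ≤ Real.log C' := Real.log_nonneg hC'
  have hS0 : 0 ≤ S := by rw [hS]; positivity
  obtain ⟨L₀, hL₀⟩ : ∃ L₀ : ℝ, L₀ = 6 * S + b * 2 ^ N + |Real.log r₁| + 1 := ⟨_, rfl⟩
  have hbN : b ≤ b * 2 ^ N := le_mul_of_one_le_right (by linarith) (one_le_pow₀ one_le_two)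
  obtain ⟨ρ, hρ0, hρ1, hρ⟩ := hk (Real.exp (-L₀)) (Real.exp_pos _)
  obtain ⟨L, hL⟩ : ∃ L : ℝ, L = -Real.log ρ := ⟨_, rfl⟩
  have hLL : L₀ < L := by
    have h1 := Real.log_lt_log hρ0 hρ1
    rw [Real.log_exp] at h1
    linarith
  have habs : 0 ≤ |Real.log r₁| := abs_nonneg _
  have hex : ∃ n : ℕ, L + S ≤ b * 2 ^ n := by
    have h1 : Tendsto (fun n : ℕ => b * (2 : ℝ) ^ n) atTop atTop :=
      (tendsto_pow_atTop_atTop_of_one_lt (by norm_num : (1 : ℝ) < 2)).const_mul_atTop (by linarith)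
    exact (h1.eventually_ge_atTop _).exists
  classical
  obtain ⟨n, hn, hmin⟩ : ∃ n : ℕ, L + S ≤ b * 2 ^ n ∧ ∀ m < n, ¬ L + S ≤ b * 2 ^ m :=
    ⟨Nat.find hex, Nat.find_spec hex, fun m hm => Nat.find_min hex hm⟩
  have hnN : N ≤ n := by
    by_contra hcon
    push Not at hcon
    have h1 : (2 : ℝ) ^ n ≤ 2 ^ N := pow_le_pow_right₀ one_le_two hcon.le
    have h2 : b * 2 ^ n ≤ b * 2 ^ N := mul_le_mul_of_nonneg_left h1 (by linarith)
    linarith
  have hn1 : 1 ≤ n := by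
    by_contra hcon
    have h1 : n = 0 := by omega
    rw [h1, pow_zero, mul_one] at hn
    linarith
  obtain ⟨m, rfl⟩ : ∃ m, n = m + 1 := ⟨n - 1, by omega⟩
  have hm := hmin m (by omega)
  push Not at hm
  have hup : b * 2 ^ (m + 1) < 2 * (L + S) := by
    rw [pow_succ]
    linarith
  refine ⟨m + 1, hnN, fun r hr hr1 hr2 => ?_⟩
  have hlog1 : Real.log r ≤ Real.log C' - b * 2 ^ (m + 1) := by
    have h1 := Real.log_le_log hr hr1
    rw [Real.log_mul (by linarith) (Real.exp_pos _).ne', Real.log_exp] at h1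
    linarith
  have hlog2 : -(b * 2 ^ (m + 1)) - b * 2 ^ (m + 1) ≤ Real.log r :=
    (Real.le_log_iff_exp_le hr).2 hr2
  have hly1 : Real.log y ≤ |Real.log y| := le_abs_self _
  have hly2 : -|Real.log y| ≤ Real.log y := neg_abs_le _
  have hlr : -|Real.log r₁| ≤ Real.log r₁ := neg_abs_le _
  have hyr : 0 < y * r := mul_pos hy hr
  have hlyr : Real.log (y * r) = Real.log y + Real.log r := Real.log_mul hy.ne' hr.ne'
  have hrr : r < r₁ := by
    rw [← Real.log_lt_log_iff hr hr₁]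
    linarith
  have hmem : y * r ∈ Icc (ρ ^ 5) ρ := by
    constructor
    · rw [← Real.log_le_log_iff (by positivity) hyr, hlyr, Real.log_pow]
      push_cast
      linarith
    · rw [← Real.log_le_log_iff hyr hρ0, hlyr]
      linarith
  calc k (y * r) ≤ C₀ * exactG κ (y * r) := hρ _ hmem
    _ = C₀ * hh κ (y * r) := by rw [exactG_eq]
    _ ≤ C₀ * (2 * y ^ dd κ * hh κ r) := mul_le_mul_of_nonneg_left (Hs r hr hrr) hC₀.le
    _ = C₀ * (2 * y ^ dd κ) * hh κ r := by ring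

/-- The mean of the gauge measure of the trace in `closedBall (a+i) (3/5)` for all gauges which are
bounded by `C₀` times the exact gauge on infinitely many blocks of scales. -/
theorem upper_mean {κ : ℝ} (h0 : 0 < κ) (h4 : κ < 8) :
    ∃ b C' C : ℝ, 1 ≤ b ∧ 1 ≤ C' ∧ 0 < C ∧ ∀ {h : ℝ → ℝ} (_ : IsGauge h) {C₀ : ℝ} (_ : 0 < C₀)
      (_ : ∃ᶠ n : ℕ in atTop, ∀ r, 0 < r → r ≤ C' * Real.exp (-(b * 2 ^ n)) →
        Real.exp (-(b * 2 ^ n) - b * 2 ^ n) ≤ r → h r ≤ C₀ * hh κ r)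
      {Ω : Type*} [MeasurableSpace Ω] {P : Measure Ω} {W : ℝ → Ω → ℝ}
      (_ : IsDrv κ P W) {γ : Ω → ℝ → ℂ} (_ : ∀ᵐ ω ∂P, IsTrace (fun u => W u ω) (γ ω))
      {a T : ℝ} (_ : 0 < T),
      MeanLe P (fun ω => gaugeMeasure h (γ ω '' Icc 0 T ∩ closedBall (ctr a) (3 / 5)))
        (ENNReal.ofReal (C₀ * C)) := by
  obtain ⟨b, C, R₀, hb, hC, -, Hbad⟩ := bad_cell h0 h4
  obtain ⟨C', hC', Hcov⟩ := cover h0 h4 hb hC
  obtain ⟨c₃, hc₃, hpar⟩ := param_tendsto (b := b) h0 h4 hC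
  obtain ⟨Ch, hCh, hhu⟩ := hh_upper h0 h4 hb hC' hc₃
  -- the eventual conditions
  have e1 : ∀ᶠ n : ℕ in atTop, C * Real.exp (-(b * 2 ^ n)) < 1 / 4 :=
    (upper_scale hb C).eventually (gt_mem_nhds (by norm_num))
  have e2 : ∀ᶠ n : ℕ in atTop, C' * Real.exp (-(b * 2 ^ n)) < 1 / 100 :=
    (upper_scale hb C').eventually (gt_mem_nhds (by norm_num))
  have e4 : ∀ᶠ n : ℕ in atTop, max R₀ 1 ≤ √(c₃ * n) :=
    ((Real.tendsto_sqrt_atTop.comp
      (tendsto_natCast_atTop_atTop.const_mul_atTop hc₃))).eventually_ge_atTop _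
  have e5 : ∀ᶠ n : ℕ in atTop, 40000 * Real.exp 2 * (Ch * (((n : ℝ) + 1) *
      (C * thp κ n ^ (-be κ) * (1 - Real.exp (-C * √(c₃ * n) ^ 2) / C) ^ (2 ^ n) +
        C * thp κ n ^ pa κ * (b * 2 ^ n + b * 2 ^ n + 1)))) < 1 := by
    have h1 := (hpar.const_mul Ch).const_mul (40000 * Real.exp 2)
    rw [mul_zero, mul_zero] at h1
    exact h1.eventually (gt_mem_nhds one_pos)
  obtain ⟨n₀, hn₀⟩ := eventually_atTop.1
    (hhu.and (e1.and (e2.and (e4.and e5))))
  refine ⟨b, C', 100 * (C' * Ch) + 1, hb, hC', by positivity, ?_⟩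
  intro h hh' C₀ hC₀ hfreq Ω _ P W hW γ hγ a T hT
  have hP : IsProbabilityMeasure P := hW.prob
  -- the bound at every level
  have key : ∀ n, n₀ ≤ n → (∀ r, 0 < r → r ≤ C' * Real.exp (-(b * 2 ^ n)) →
        Real.exp (-(b * 2 ^ n) - b * 2 ^ n) ≤ r → h r ≤ C₀ * hh κ r) →
      MeanLe P (fun ω => pre h (C' * Real.exp (-(b * 2 ^ n)))
      (γ ω '' Icc 0 T ∩ closedBall (ctr a) (3 / 5)))
      (ENNReal.ofReal (C₀ * (100 * (C' * Ch) + 1))) := by
    intro n hn hkn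
    have hall := hn₀ n hn
    obtain ⟨K, hKn⟩ : ∃ K : ℕ, 2 ^ n = K := ⟨_, rfl⟩
    obtain ⟨B, hB⟩ : ∃ B : ℝ, b * 2 ^ n = B := ⟨_, rfl⟩
    obtain ⟨θ, hθ⟩ : ∃ θ : ℝ, thp κ n = θ := ⟨_, rfl⟩
    obtain ⟨R, hR⟩ : ∃ R : ℝ, √(c₃ * n) = R := ⟨_, rfl⟩
    have hθ0 : 0 < θ := by rw [← hθ]; exact thp_pos κ n
    have hθ1 : θ ≤ 1 := by rw [← hθ]; exact thp_le_one h0 h4 n
    have hK : b * (K : ℝ) = B := by rw [← hKn, ← hB]; push_cast; ring
    have hK1 : 1 ≤ K := by rw [← hKn]; exact Nat.one_le_two_pow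
    have hB0 : 0 < B := by rw [← hB]; positivity
    rw [hB, hR, hθ, hKn] at hall
    rw [hB]
    rw [hB] at hkn
    obtain ⟨⟨g1, g2⟩, a1, a2, a4, a5⟩ := hall
    have hR0 : R₀ ≤ R := (le_max_left _ _).trans a4
    have hR1 : 1 ≤ R := (le_max_right _ _).trans a4
    have hCR : 0 ≤ 1 - Real.exp (-C * R ^ 2) / C := by
      have h1 : Real.exp (-C * R ^ 2) ≤ 1 := Real.exp_le_one_iff.2 (by nlinarith only [hC])
      have h2 : Real.exp (-C * R ^ 2) / C ≤ 1 := by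
        rw [div_le_one (by linarith only [hC])]
        linarith only [hC, h1]
      linarith only [h2]
    have hε : 0 < Real.exp (-B - b * K) / (C * R) := by (clear * - hC hR1; positivity)
    have hvle : Real.exp (-B - b * K) ≤ C' * Real.exp (-B) := by
      have h1 : Real.exp (-B - b * K) ≤ Real.exp (-B) :=
        Real.exp_le_exp.2 (by rw [hK]; linarith only [hB0])
      have h2 : Real.exp (-B) ≤ C' * Real.exp (-B) :=
        le_mul_of_one_le_left (Real.exp_pos _).le hC'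
      exact h1.trans h2
    have hq : 0 ≤ C * θ ^ (-be κ) * (1 - Real.exp (-C * R ^ 2) / C) ^ K +
        C * θ ^ pa κ * (b * K - -B + 1) := by
      rw [hK]
      have p1 := pow_nonneg hCR K
      have p2 : 0 ≤ B - -B + 1 := by linarith only [hB0]
      have p3 : 0 ≤ θ ^ (-be κ) := (Real.rpow_pos_of_pos hθ0 _).le
      have p4 : 0 ≤ θ ^ pa κ := (Real.rpow_pos_of_pos hθ0 _).le
      (clear * - hC hθ0 hCR p2; positivity)
    have hl := level_mean (a := a) h0 h4 hW hγ hT (h := h) (C' := C') (b := b) (u₀ := -B)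
      (ε := Real.exp (-B - b * K) / (C * R)) (Ch := C₀ * Ch)
      (q := C * θ ^ (-be κ) * (1 - Real.exp (-C * R ^ 2) / C) ^ K + C * θ ^ pa κ * (b * K - -B + 1))
      (H := C₀ * (Ch * ((n : ℝ) + 1))) (δ := C' * Real.exp (-B)) (K := K)
      (bad := fun ω z => (∃ t ∈ Icc 0 T, z ∈ loewnerDomain (fun v => W v ω) t ∧
          Uf (fun v => W v ω) z t < -B - b * K - 1) ∧
        ∀ k < K, mu κ (Real.exp (-B - b * K) / (C * R))
          (fun v => W v ω) (ball z (C * Real.exp (-B - b * k))) 0 T <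
            R ^ xx κ * Real.exp (dd κ * (-B - b * k)) / C)
      (by linarith only [hC']) hε (by positivity) (by rw [hK]; linarith only [hB0]) hq ?_ ?_ ?_
      (by (clear * - hCh hC₀; positivity))
    · refine MeanLe.mono hl (Eventually.of_forall fun ω => le_rfl) (ENNReal.ofReal_le_ofReal ?_)
      have h9 : 40000 * Real.exp 2 * (C₀ * (Ch * ((n : ℝ) + 1)) *
          (C * θ ^ (-be κ) * (1 - Real.exp (-C * R ^ 2) / C) ^ K +
            C * θ ^ pa κ * (b * K - -B + 1))) ≤ C₀ * 1 := by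
        refine le_trans (le_of_eq ?_) (mul_le_mul_of_nonneg_left a5.le hC₀.le)
        rw [hK]
        ring
      linarith
    · intro ω hω
      refine Hcov hh' (hW.cont ω) hω hT a2.le hR1 hε (by positivity) ?_
      intro r hr hr1 hr2
      rw [hK] at hr2
      refine (hkn r hr hr1 hr2).trans ?_
      refine (mul_le_mul_of_nonneg_left (g1 r hr hr1 hr2) hC₀.le).trans (le_of_eq ?_)
      ring
    · intro z hz
      have him := lattA_im hz
      have hbad := Hbad hW (z := z) (T := T) (u₀ := -B) (R := R)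
        (ε := Real.exp (-B - b * K) / (C * R)) (θ := θ)
        (K := K) hT (by linarith only [him]) (by linarith only [him]) a1 hR0 hK1 hε le_rfl hθ0 hθ1
      refine le_trans (measure_mono ?_) hbad
      intro ω hb'
      refine ⟨hb'.1, mem_iInter₂.2 fun k hk => ?_⟩
      exact hb'.2 k (Finset.mem_range.1 hk)
    · rw [hK] at hvle ⊢
      refine (hkn _ (Real.exp_pos _) hvle le_rfl).trans ?_
      refine (mul_le_mul_of_nonneg_left g2 hC₀.le).trans (le_of_eq ?_)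
      ring
  -- the limit over the levels
  obtain ⟨ψ, hψ, hψk⟩ := extraction_of_frequently_atTop hfreq
  refine MeanLe.fatou (fun n : ℕ => key (ψ (n + n₀)) ((by omega : n₀ ≤ n + n₀).trans (hψ.id_le _))
    (hψk _)) (Eventually.of_forall fun ω => ?_)
  refine gaugeMeasure_le fun δ hδ => ?_
  refine le_liminf_of_le (by isBoundedDefault) ?_
  have h1 : Tendsto (fun n : ℕ => C' * Real.exp (-(b * 2 ^ (ψ (n + n₀))))) atTop (𝓝 0) :=
    (upper_scale hb C').comp (hψ.tendsto_atTop.comp (tendsto_add_atTop_nat n₀))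
  filter_upwards [h1.eventually (gt_mem_nhds hδ)] with n hn
  exact pre_anti h hn.le _

/-- The mean of the gauge measure of a Lipschitz image of the whole trace in a subset of the ball of
radius `3/5 Im z` about `z`. -/
theorem box_mean {κ : ℝ} (h0 : 0 < κ) (h8 : κ < 8) :
    ∃ C : ℝ, 0 < C ∧ ∀ {k : ℝ → ℝ} (_ : IsGauge k) {C₀ : ℝ} (_ : 0 < C₀) (_ : OftenLe κ k C₀)
      {Ω : Type*} [MeasurableSpace Ω] {P : Measure Ω} {W : ℝ → Ω → ℝ}
      (_ : IsDrv κ P W) {γ : Ω → ℝ → ℂ} (_ : ∀ᵐ ω ∂P, IsTrace (fun u => W u ω) (γ ω))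
      {z : ℂ} (_ : 0 < z.im) {f : ℂ → ℂ} {L : ℝ} (_ : 0 < L) {Q : Set ℂ}
      (_ : Q ⊆ closedBall z (3 / 5 * z.im))
      (_ : ∀ x ∈ Q, ∀ y ∈ Q, dist (f x) (f y) ≤ L * dist x y),
      MeanLe P (fun ω => gaugeMeasure k (f '' (γ ω '' Ici 0 ∩ Q)))
        (ENNReal.ofReal (C₀ * C * (L * z.im) ^ dd κ)) := by
  obtain ⟨b, C', C, hb, hC', hC, H⟩ := upper_mean h0 h8
  refine ⟨2 * C, by positivity, ?_⟩
  intro k hk C₀ hC₀ hkO Ω _ P W hW γ hγ z hz f L hL Q hQ hf
  set y : ℝ := z.im with hydef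
  set a : ℝ := z.re / z.im with hadef
  have hy : 0 < y := hz
  have hzc : ((y : ℝ) : ℂ) * ctr a = z := by
    have h1 : ((z.im : ℝ) : ℂ) ≠ 0 := by exact_mod_cast hz.ne'
    rw [hydef, hadef, ctr, mul_add, Complex.ofReal_div, mul_div_cancel₀ _ h1, Complex.re_add_im]
  have hγ' : ∀ᵐ ω ∂P, IsTrace (fun u => scaleP y W u ω)
      ((fun ω t => (y : ℂ)⁻¹ * γ ω (y ^ 2 * t)) ω) := by
    filter_upwards [hγ] with ω h1
    exact h1.scale hy
  have hy2 : 0 < y ^ 2 := by positivity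
  have hyc : (y : ℂ) ≠ 0 := by exact_mod_cast hy.ne'
  have hyn : ‖(y : ℂ)‖ = y := by rw [Complex.norm_real, Real.norm_of_nonneg hy.le]
  have hLy : 0 < L * y := mul_pos hL hy
  have hLd : 0 < (L * y) ^ dd κ := Real.rpow_pos_of_pos hLy _
  have h1 : ∀ n : ℕ, MeanLe P (fun ω => gaugeMeasure k (f '' (γ ω '' Icc 0 ((n : ℝ) + 1) ∩ Q)))
      (ENNReal.ofReal (C₀ * (2 * C) * (L * y) ^ dd κ)) := by
    intro n
    have hT : (0 : ℝ) < n + 1 := by positivity
    refine MeanLe.mono (H (gauge_comp hk hLy) (C₀ := C₀ * (2 * (L * y) ^ dd κ)) (by positivity)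
      (often_blk h0 h8 hC₀ hkO hLy hb hC') (hW.scale hy) hγ' (a := a) (div_pos hT hy2))
      (Eventually.of_forall fun ω => ?_) (ENNReal.ofReal_le_ofReal (le_of_eq (by ring)))
    have hsub : f '' (γ ω '' Icc 0 ((n : ℝ) + 1) ∩ Q) ⊆
        (fun w => f ((y : ℂ) * w)) '' (((fun t => (y : ℂ)⁻¹ * γ ω (y ^ 2 * t)) ''
          Icc 0 (((n : ℝ) + 1) / y ^ 2) ∩ closedBall (ctr a) (3 / 5)) ∩ {w | (y : ℂ) * w ∈ Q}) := by
      rintro _ ⟨_, ⟨⟨t, ht, rfl⟩, htQ⟩, rfl⟩
      refine ⟨(y : ℂ)⁻¹ * γ ω t, ⟨⟨⟨t / y ^ 2, ⟨div_nonneg ht.1 hy2.le,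
        div_le_div_of_nonneg_right ht.2 hy2.le⟩, ?_⟩, ?_⟩, ?_⟩, ?_⟩
      · simp only
        rw [mul_div_cancel₀ _ hy2.ne']
      · have hb := hQ htQ
        rw [← hzc, mem_closedBall, dist_eq_norm] at hb
        rw [mem_closedBall, dist_eq_norm]
        have e : γ ω t - (y : ℂ) * ctr a = (y : ℂ) * ((y : ℂ)⁻¹ * γ ω t - ctr a) := by
          rw [mul_sub, mul_inv_cancel_left₀ hyc]
        rw [e, norm_mul, hyn] at hb
        nlinarith only [hb, hy]
      · change (y : ℂ) * ((y : ℂ)⁻¹ * γ ω t) ∈ Q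
        rw [mul_inv_cancel_left₀ hyc]
        exact htQ
      · simp only
        rw [mul_inv_cancel_left₀ hyc]
    refine (gaugeMeasure_mono k hsub).trans ((gm_lip_k hk hLy ?_).trans
      (gaugeMeasure_mono _ inter_subset_left))
    intro x hx x' hx'
    refine (hf _ hx.2 _ hx'.2).trans (le_of_eq ?_)
    rw [dist_eq_norm, dist_eq_norm, ← mul_sub, norm_mul, hyn]
    ring
  refine MeanLe.fatou h1 (Eventually.of_forall fun ω => ?_)
  have hmono : Monotone fun n : ℕ => f '' (γ ω '' Icc 0 ((n : ℝ) + 1) ∩ Q) := by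
    intro m n hmn
    refine image_mono (inter_subset_inter_left _ (image_mono (Icc_subset_Icc_right ?_)))
    have : (m : ℝ) ≤ n := by exact_mod_cast hmn
    linarith
  have hU : f '' (γ ω '' Ici 0 ∩ Q) = ⋃ n : ℕ, f '' (γ ω '' Icc 0 ((n : ℝ) + 1) ∩ Q) := by
    rw [← image_iUnion, ← iUnion_inter, ← image_iUnion]
    congr 3
    ext t
    rw [mem_Ici, mem_iUnion]
    constructor
    · intro ht
      obtain ⟨n, hn⟩ := exists_nat_ge t
      exact ⟨n, ht, by linarith⟩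
    · rintro ⟨n, hn⟩
      exact hn.1
  rw [hU, gm_iUnion hk hmono]
  have hm2 : Monotone fun n : ℕ => gaugeMeasure k (f '' (γ ω '' Icc 0 ((n : ℝ) + 1) ∩ Q)) :=
    fun m n hmn => gaugeMeasure_mono k (hmono hmn)
  exact (tendsto_atTop_iSup hm2).liminf_eq.ge

end Vale.Agent.P164.H411
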