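import Vale.Agent.P164.H411.Disc

/-!
# The new part of the trace has positive measure; the measure as a parametrisation
-/

namespace Vale.Agent.P164.H411

open Set Metric Filter Topology MeasureTheory ProbabilityTheory Vale.Agent.P164.E8
open scoped NNReal ENNReal

/-- Combination: positivity for a segment from positivity for the visited set of a rescaled
restarted path. `F = (r : ℂ) • (Vis ∩ closedBall)` has positive measure (Lipschitz), is contained
in the compact set `closedBall (r I) (r/2)` and in `Vis (shiftW s W) (r²T)` (`vis_scale`), then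
`pre_pos`, `vis_trace`, monotonicity. -/
theorem seg_pos_new {h : ℝ → ℝ} (hh' : IsGauge h) {W : ℝ → ℝ} (hW : Continuous W)
    {γ : ℝ → ℂ} (hγ : IsTrace W γ) {s u r T : ℝ} (hs : 0 ≤ s) (hT : 0 ≤ T) (hr : 0 < r)
    (hru : r ^ 2 * T ≤ u)
    (hpos : 0 < gaugeMeasure h (Vis (scaleW r (shiftW s W)) T ∩ closedBall Complex.I (1 / 2))) :
    0 < gaugeMeasure h (γ '' Icc s (s + u) ∩ loewnerDomain W s) := by
  have hWs : Continuous (shiftW s W) := by
    unfold shiftW
    exact (hW.comp (continuous_const.add continuous_id)).sub continuous_const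
  set F₀ : Set ℂ := Vis (scaleW r (shiftW s W)) T ∩ closedBall Complex.I (1 / 2) with hF₀
  set K : Set ℂ := (fun z : ℂ => (r : ℂ) * z) '' closedBall Complex.I (1 / 2) with hK
  set F : Set ℂ := (fun z : ℂ => (r : ℂ) * z) '' F₀ with hF
  have hKc : IsCompact K := (isCompact_closedBall _ _).image (continuous_const.mul continuous_id)
  have hKim : ∀ z ∈ K, 0 < z.im := by
    rintro _ ⟨z, hz, rfl⟩
    have h1 := im_gt_of_mem_ball_I hz
    rw [Complex.im_ofReal_mul]
    positivity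
  have hFK : F ⊆ K := image_mono inter_subset_right
  have hrc : (r : ℂ) ≠ 0 := by exact_mod_cast hr.ne'
  have hFpos : 0 < gaugeMeasure h F := by
    rw [pos_iff_ne_zero]
    intro h0
    have hlip : LipschitzOnWith (Real.toNNReal r⁻¹) (fun z : ℂ => ((r⁻¹ : ℝ) : ℂ) * z) F := by
      refine LipschitzOnWith.of_dist_le_mul fun x _ y _ => ?_
      rw [dist_eq_norm, dist_eq_norm, ← mul_sub, norm_mul, Complex.norm_real, Real.norm_eq_abs,
        abs_of_pos (inv_pos.2 hr), Real.coe_toNNReal _ (inv_pos.2 hr).le]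
    have h1 := (setProp_zero hh').lip hlip h0
    have h2 : (fun z : ℂ => ((r⁻¹ : ℝ) : ℂ) * z) '' F = F₀ := by
      rw [hF, image_image]
      convert image_id F₀ using 1
      refine image_congr fun z _ => ?_
      rw [id, ← mul_assoc, Complex.ofReal_inv, inv_mul_cancel₀ hrc, one_mul]
    rw [h2] at h1
    exact hpos.ne' h1
  have h3 := pre_pos hh' hW hs hKc hKim hFK hFpos
  refine h3.trans_le (gaugeMeasure_mono h ?_)
  rintro z ⟨hz1, w, hw, hwz⟩
  have h4 : (r : ℂ) * w ∈ Vis (shiftW s W) (r ^ 2 * T) := vis_scale hWs hr hw.1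
  have hu : 0 ≤ r ^ 2 * T := by (clear * - hr hT; positivity)
  have h5 : Zf W z s ∈ Vis (shiftW s W) (r ^ 2 * T) := by
    rw [← hwz]
    exact h4
  have h6 := vis_trace hW hγ hs hu hz1 h5
  exact ⟨image_mono (Icc_subset_Icc_right (by linarith only [hru])) h6, hz1⟩

/-- Positivity of all segments. For rational `s ≥ 0` and all `u > 0`: `good_frequently`,
`vis_pos`, `seg_pos_of_vis` with `r = 2^{-k}`, `4^{-k} TT8 ≤ u`; for general `s < t` take a rational
`s' ∈ (s,t)` and use monotonicity. -/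
theorem pos_new {κ : ℝ} (h0 : 0 < κ) (h8 : κ < 8) {h : ℝ → ℝ} (hh' : IsGauge h)
    {r₀ : ℝ} (hr₀ : 0 < r₀) (hhr : ∀ r, 0 < r → r < r₀ → h r = hh κ r)
    {Ω : Type*} [MeasurableSpace Ω] {P : Measure Ω} {W : ℝ → Ω → ℝ} (hW : IsDrv κ P W)
    {γ : Ω → ℝ → ℂ} (hγ : ∀ᵐ ω ∂P, IsTrace (fun u => W u ω) (γ ω)) :
    ∀ᵐ ω ∂P, ∀ s t : ℝ, 0 ≤ s → s < t →
      0 < gaugeMeasure h (γ ω '' Icc s t ∩ (uhp \ γ ω '' Icc 0 s)) := by
  obtain ⟨c₁, C₃, δ₀, hc₁, hC₃, hδ₀, hgf⟩ := good_frequently h0 h8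
  have hTT : 0 < TT8 := by
    have h4 : (0 : ℝ) < 4 * 10 ^ 7 := by norm_num
    exact h4
  have hall : ∀ᵐ ω ∂P, ∀ q : ℚ, 0 ≤ (q : ℝ) → ∃ᶠ k : ℕ in atTop, ∃ᶠ n : ℕ in atTop,
      GoodEv8 κ c₁ C₃ δ₀ (Real.exp (-n))
        (scaleW ((1 / 2) ^ k) (shiftW (q : ℝ) (fun u => W u ω))) TT8 := by
    rw [ae_all_iff]
    intro q
    by_cases hq : 0 ≤ (q : ℝ)
    · filter_upwards [hgf hW hq] with ω hω _
      exact hω
    · exact Eventually.of_forall fun ω hq' => absurd hq' hq
  filter_upwards [hall, hγ] with ω hω hγω s t hs hst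
  obtain ⟨q, hsq, hqt⟩ := exists_rat_btwn hst
  have hq0 : (0 : ℝ) ≤ q := hs.trans hsq.le
  have hu : 0 < t - (q : ℝ) := by linarith only [hqt]
  have hcont : Continuous (fun u => W u ω) := hW.cont ω
  -- eventually `4^{-k} TT8 ≤ t - q`
  have htend : Tendsto (fun k : ℕ => (((1 / 2 : ℝ) ^ k) ^ 2) * TT8) atTop (𝓝 0) := by
    have h1 : Tendsto (fun k : ℕ => (1 / 2 : ℝ) ^ k) atTop (𝓝 0) :=
      tendsto_pow_atTop_nhds_zero_of_lt_one (by norm_num) (by norm_num)
    have h2 := (h1.pow 2).mul_const TT8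
    simpa only [one_div, inv_pow, ne_eq, OfNat.ofNat_ne_zero, not_false_eq_true, zero_pow, zero_mul] using h2
  have hev : ∀ᶠ k : ℕ in atTop, (((1 / 2 : ℝ) ^ k) ^ 2) * TT8 ≤ t - q :=
    htend.eventually_le_const hu
  obtain ⟨k, hk, hku⟩ := ((hω q hq0).and_eventually hev).exists
  have hr : (0 : ℝ) < (1 / 2) ^ k := by positivity
  have hsc : Continuous (scaleW ((1 / 2) ^ k) (shiftW (q : ℝ) (fun u => W u ω))) := by
    have hsh : Continuous (shiftW (q : ℝ) (fun u => W u ω)) :=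
      (hcont.comp (continuous_const.add continuous_id)).sub continuous_const
    exact continuous_const.mul (hsh.comp (continuous_const.mul continuous_id))
  have hpos := vis_pos h0 h8 hh' hr₀ hhr hc₁ hC₃ hδ₀ hsc hTT hk
  have hseg := seg_pos_new hh' hcont hγω hq0 hTT.le hr hku hpos
  refine hseg.trans_le (gaugeMeasure_mono h (inter_subset_inter (image_mono ?_) ?_))
  · rw [show (q : ℝ) + (t - q) = t by ring]
    exact Icc_subset_Icc_left hsq.le
  · refine (loewnerDomain_anti _ hsq.le).trans ?_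
    rw [hγω.domain_eq s hs]
    exact fun z hz => hz.1

end Vale.Agent.P164.H411
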