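import Vale.Agent.P164.H411.Total

/-!
# The gauge measure as a parametrisation of the trace
-/

namespace Vale.Agent.P164.H411

open Set Metric Filter Topology MeasureTheory ProbabilityTheory
open scoped NNReal ENNReal

theorem gm_singleton {k : ℝ → ℝ} (hk : IsGauge k) (x : ℂ) : gaugeMeasure k {x} = 0 := by
  have h1 := gaugeMeasure_insert_le hk ∅ x
  rw [gm_empty hk] at h1
  simpa using h1

variable {γ : ℝ → ℂ}

/-- Short pieces around a time have small measure. -/
theorem gm_short {k : ℝ → ℝ} (hk : IsGauge k) (hc : ContinuousOn γ (Ici 0))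
    (hfin : ∀ T, gaugeMeasure k (γ '' Icc 0 T) < ⊤) {t : ℝ} (ht : 0 ≤ t) {ε : ℝ≥0∞} (hε : 0 < ε) :
    ∃ δ : ℝ, 0 < δ ∧ gaugeMeasure k (γ '' (Icc (t - δ) (t + δ) ∩ Ici 0)) < ε := by
  set V : ℕ → Set ℂ := fun n => γ '' (Icc (t - 1 / ((n : ℝ) + 1)) (t + 1 / ((n : ℝ) + 1)) ∩ Ici 0)
    with hV
  have hcomp : ∀ n, IsCompact (V n) := fun n =>
    (isCompact_Icc.inter_right isClosed_Ici).image_of_continuousOn (hc.mono inter_subset_right)
  have hanti : Antitone V := by
    intro m n hmn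
    refine image_mono (inter_subset_inter_left _ (Icc_subset_Icc ?_ ?_))
    · have : 1 / ((n : ℝ) + 1) ≤ 1 / ((m : ℝ) + 1) := by
        have : (m : ℝ) ≤ n := by exact_mod_cast hmn
        gcongr
      linarith
    · have : 1 / ((n : ℝ) + 1) ≤ 1 / ((m : ℝ) + 1) := by
        have : (m : ℝ) ≤ n := by exact_mod_cast hmn
        gcongr
      linarith
  have hlim0 : Tendsto (fun n : ℕ => 1 / ((n : ℝ) + 1)) atTop (𝓝 0) :=
    tendsto_one_div_add_atTop_nhds_zero_nat
  have hinter : ⋂ n, V n ⊆ {γ t} := by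
    intro x hx
    rw [mem_iInter] at hx
    choose s hs1 hs2 using hx
    have h1 : Tendsto s atTop (𝓝 t) := by
      refine tendsto_of_tendsto_of_tendsto_of_le_of_le (g := fun n : ℕ => t - 1 / ((n : ℝ) + 1))
        (h := fun n : ℕ => t + 1 / ((n : ℝ) + 1)) ?_ ?_ (fun n => (hs1 n).1.1) (fun n => (hs1 n).1.2)
      · simpa using tendsto_const_nhds.sub hlim0
      · simpa using tendsto_const_nhds.add hlim0
    have h2 : Tendsto s atTop (𝓝[Ici 0] t) :=
      tendsto_nhdsWithin_iff.2 ⟨h1, Eventually.of_forall fun n => (hs1 n).2⟩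
    have h3 : Tendsto (fun n => γ (s n)) atTop (𝓝 (γ t)) := (hc t ht).tendsto.comp h2
    have h4 : (fun n => γ (s n)) = fun _ => x := funext hs2
    rw [h4] at h3
    exact tendsto_nhds_unique tendsto_const_nhds h3
  have hfin1 : gmM k (V 0) ≠ ⊤ := by
    rw [gmM_apply hk]
    refine ((gaugeMeasure_mono k (image_mono ?_)).trans_lt (hfin (t + 1))).ne
    rintro s ⟨⟨-, h2⟩, h3⟩
    refine ⟨h3, h2.trans ?_⟩
    norm_num
  have htend : Tendsto (fun n => gmM k (V n)) atTop (𝓝 (gmM k (⋂ n, V n))) :=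
    tendsto_measure_iInter_atTop (fun n => (hcomp n).isClosed.measurableSet.nullMeasurableSet)
      hanti ⟨0, hfin1⟩
  have hz : gmM k (⋂ n, V n) = 0 := by
    refine le_antisymm ((measure_mono hinter).trans ?_) zero_le
    rw [gmM_apply hk, gm_singleton hk]
  rw [hz] at htend
  obtain ⟨n, hn⟩ := (htend.eventually_lt_const hε).exists
  refine ⟨1 / ((n : ℝ) + 1), by positivity, ?_⟩
  rwa [gmM_apply hk] at hn

/-- The measure of `γ[0,t]` is continuous in `t`. -/
theorem par_cont {k : ℝ → ℝ} (hk : IsGauge k) (hc : ContinuousOn γ (Ici 0))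
    (hfin : ∀ T, gaugeMeasure k (γ '' Icc 0 T) < ⊤) :
    ContinuousOn (fun t => gaugeMeasure k (γ '' Icc 0 t)) (Ici 0) := by
  intro t ht
  rw [ContinuousWithinAt, ENNReal.tendsto_nhds (hfin t).ne]
  intro ε hε
  obtain ⟨δ, hδ, h1⟩ := gm_short hk hc hfin ht hε
  have h2 : ∀ᶠ u in 𝓝[Ici 0] t, u ∈ Icc (t - δ) (t + δ) :=
    mem_nhdsWithin_of_mem_nhds (Icc_mem_nhds (by linarith) (by linarith))
  filter_upwards [h2, self_mem_nhdsWithin] with u hu hu0
  have hadd : ∀ a b : ℝ, a ∈ Icc (t - δ) (t + δ) → b ∈ Icc (t - δ) (t + δ) → 0 ≤ a →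
      gaugeMeasure k (γ '' Icc 0 b) ≤ gaugeMeasure k (γ '' Icc 0 a) + ε := by
    intro a b ha hb ha0
    have h3 : γ '' Icc 0 b ⊆ γ '' Icc 0 a ∪ γ '' (Icc (t - δ) (t + δ) ∩ Ici 0) := by
      rw [← image_union]
      refine image_mono fun s hs => ?_
      rcases le_or_gt s a with h4 | h4
      · exact Or.inl ⟨hs.1, h4⟩
      · exact Or.inr ⟨⟨ha.1.trans h4.le, hs.2.trans hb.2⟩, hs.1⟩
    rw [← gmM_apply hk, ← gmM_apply hk (γ '' Icc 0 a)]
    refine ((measure_mono h3).trans (measure_union_le _ _)).trans ?_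
    gcongr
    rw [gmM_apply hk]
    exact h1.le
  have htI : t ∈ Icc (t - δ) (t + δ) := ⟨by linarith, by linarith⟩
  constructor
  · rw [tsub_le_iff_right]
    exact hadd u t hu htI hu0
  · exact hadd t u htI hu ht

/-- The measure of `γ[0,t]` is strictly increasing in `t`. -/
theorem par_strict {k : ℝ → ℝ} (hk : IsGauge k) (hc : ContinuousOn γ (Ici 0))
    (hfin : ∀ T, gaugeMeasure k (γ '' Icc 0 T) < ⊤)
    (hpos : ∀ s t : ℝ, 0 ≤ s → s < t → 0 < gaugeMeasure k (γ '' Icc s t \ γ '' Icc 0 s)) :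
    StrictMonoOn (fun t => gaugeMeasure k (γ '' Icc 0 t)) (Ici 0) := by
  intro s hs t _ hst
  have hs0 : (0 : ℝ) ≤ s := hs
  have hA : MeasurableSet (γ '' Icc 0 s) :=
    (isCompact_Icc.image_of_continuousOn (hc.mono fun x hx => hx.1)).isClosed.measurableSet
  have h1 := measure_inter_add_sdiff (μ := gmM k) (γ '' Icc 0 t) hA
  have h2 : γ '' Icc 0 t ∩ γ '' Icc 0 s = γ '' Icc 0 s :=
    inter_eq_right.2 (image_mono (Icc_subset_Icc_right hst.le))
  have h3 : γ '' Icc s t \ γ '' Icc 0 s ⊆ γ '' Icc 0 t \ γ '' Icc 0 s :=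
    sdiff_subset_sdiff_left (image_mono (Icc_subset_Icc_left hs0))
  rw [h2, gmM_apply hk, gmM_apply hk, gmM_apply hk] at h1
  have h4 := (hpos s t hs0 hst).trans_le (gaugeMeasure_mono k h3)
  change gaugeMeasure k (γ '' Icc 0 s) < gaugeMeasure k (γ '' Icc 0 t)
  rw [← h1]
  exact ENNReal.lt_add_right (hfin s).ne h4.ne'

/-- The measure of `γ[0,t]` tends to that of the whole trace. -/
theorem par_tend {k : ℝ → ℝ} (hk : IsGauge k) :
    Tendsto (fun t => gaugeMeasure k (γ '' Icc 0 t)) atTop (𝓝 (gaugeMeasure k (γ '' Ici 0))) := by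
  have hmono : Monotone fun t : ℝ => gaugeMeasure k (γ '' Icc 0 t) := fun a b hab =>
    gaugeMeasure_mono k (image_mono (Icc_subset_Icc_right hab))
  have h1 : gaugeMeasure k (γ '' Ici 0) = ⨆ t : ℝ, gaugeMeasure k (γ '' Icc 0 t) := by
    apply le_antisymm
    · have hU : γ '' Ici 0 = ⋃ n : ℕ, γ '' Icc 0 (n : ℝ) := by
        rw [← image_iUnion]
        congr 1
        ext t
        rw [mem_Ici, mem_iUnion]
        constructor
        · intro ht
          obtain ⟨n, hn⟩ := exists_nat_ge t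
          exact ⟨n, ht, hn⟩
        · rintro ⟨n, hn⟩
          exact hn.1
      rw [hU, gm_iUnion hk fun m n hmn => image_mono (Icc_subset_Icc_right (by exact_mod_cast hmn))]
      exact iSup_le fun n => le_iSup (fun t : ℝ => gaugeMeasure k (γ '' Icc 0 t)) (n : ℝ)
    · exact iSup_le fun t => gaugeMeasure_mono k (image_mono fun s hs => hs.1)
  rw [h1]
  exact tendsto_atTop_iSup hmono

end Vale.Agent.P164.H411
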