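import Vale.Agent.P164.H411.Mean
import Vale.Agent.P164.H411.Conf

/-!
# Whitney squares of the half-plane
-/

namespace Vale.Agent.P164.H411

open Set Metric Filter Topology MeasureTheory
open scoped NNReal ENNReal

/-- The side of the squares of generation `j`. -/
noncomputable def sd (j : ℤ) : ℝ := (2 : ℝ) ^ j / 256

theorem sd_pos (j : ℤ) : 0 < sd j := by unfold sd; positivity

/-- The square with index `(j,k,m)`. -/
def wsq (i : ℤ × ℤ × ℤ) : Set ℂ :=
  {z | z.im ∈ Ico ((2 : ℝ) ^ i.1) ((2 : ℝ) ^ (i.1 + 1)) ∧ ⌊z.re / sd i.1⌋ = i.2.1 ∧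
    ⌊z.im / sd i.1⌋ = i.2.2}

theorem wsq_im {i : ℤ × ℤ × ℤ} {z : ℂ} (hz : z ∈ wsq i) : 0 < z.im :=
  lt_of_lt_of_le (by positivity) hz.1.1

theorem wsq_cover : ⋃ i, wsq i = uhp := by
  ext z
  rw [mem_iUnion]
  constructor
  · rintro ⟨i, hi⟩
    exact wsq_im hi
  · intro hz
    obtain ⟨j, hj⟩ := exists_mem_Ico_zpow (x := z.im) (y := 2) hz one_lt_two
    exact ⟨(j, ⌊z.re / sd j⌋, ⌊z.im / sd j⌋), hj, rfl, rfl⟩

theorem wsq_disj : Pairwise (Function.onFun Disjoint wsq) := by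
  rintro ⟨j, k, m⟩ ⟨j', k', m'⟩ hne
  rw [Function.onFun, Set.disjoint_left]
  rintro z ⟨⟨h1, h2⟩, h3, h4⟩ ⟨⟨h1', h2'⟩, h3', h4'⟩
  have e1 : j < j' + 1 := (zpow_lt_zpow_iff_right₀ one_lt_two).1 (h1.trans_lt h2')
  have e2 : j' < j + 1 := (zpow_lt_zpow_iff_right₀ one_lt_two).1 (h1'.trans_lt h2)
  have e3 : j = j' := by omega
  subst e3
  simp only at h3 h4 h3' h4'
  exact hne (by rw [← h3, ← h4, ← h3', ← h4'])

theorem wsq_meas (i : ℤ × ℤ × ℤ) : MeasurableSet (wsq i) := by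
  have h1 : Measurable fun z : ℂ => ⌊z.re / sd i.1⌋ :=
    Int.measurable_floor.comp (Complex.measurable_re.div_const _)
  have h2 : Measurable fun z : ℂ => ⌊z.im / sd i.1⌋ :=
    Int.measurable_floor.comp (Complex.measurable_im.div_const _)
  exact (Complex.measurable_im measurableSet_Ico).inter
    ((h1 (measurableSet_singleton _)).inter (h2 (measurableSet_singleton _)))

theorem floor_dist {a b s : ℝ} (hs : 0 < s) {k : ℤ} (ha : ⌊a / s⌋ = k) (hb : ⌊b / s⌋ = k) :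
    |a - b| ≤ s := by
  have h1 := Int.floor_le (a / s)
  have h2 := Int.lt_floor_add_one (a / s)
  have h3 := Int.floor_le (b / s)
  have h4 := Int.lt_floor_add_one (b / s)
  rw [ha] at h1 h2
  rw [hb] at h3 h4
  rw [le_div_iff₀ hs] at h1 h3
  rw [div_lt_iff₀ hs] at h2 h4
  rw [abs_le]
  constructor <;> linarith

theorem wsq_dist {i : ℤ × ℤ × ℤ} {z z' : ℂ} (hz : z ∈ wsq i) (hz' : z' ∈ wsq i) :
    dist z z' ≤ z.im / 128 := by
  have h1 := floor_dist (sd_pos i.1) hz.2.1 hz'.2.1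
  have h2 := floor_dist (sd_pos i.1) hz.2.2 hz'.2.2
  rw [dist_eq_norm]
  have h3 : ‖z - z'‖ ≤ |(z - z').re| + |(z - z').im| := Complex.norm_le_abs_re_add_abs_im _
  rw [Complex.sub_re, Complex.sub_im] at h3
  have h4 : sd i.1 ≤ z.im / 256 := by
    unfold sd
    have := hz.1.1
    linarith
  linarith

theorem wsq_vol {i : ℤ × ℤ × ℤ} {z : ℂ} (hz : z ∈ wsq i) :
    ENNReal.ofReal ((z.im / 512) ^ 2) ≤ volume (wsq i) := by
  obtain ⟨j, k, m⟩ := i
  have hs := sd_pos j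
  have hj : (2 : ℝ) ^ (j + 1) = 2 * 2 ^ j := by rw [zpow_add₀ two_ne_zero, zpow_one, mul_comm]
  have hsd : (2 : ℝ) ^ j = 256 * sd j := by unfold sd; ring
  obtain ⟨⟨h1, h2⟩, h3, h4⟩ := hz
  simp only at h1 h2 h3 h4
  rw [hj, hsd] at h2
  rw [hsd] at h1
  have hm1 : (256 : ℤ) ≤ m := by
    rw [← h4, Int.le_floor, le_div_iff₀ hs]
    push_cast
    linarith
  have hm2 : m ≤ 511 := by
    have : m < 512 := by
      rw [← h4, Int.floor_lt, div_lt_iff₀ hs]
      push_cast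
      linarith
    omega
  have hm1' : (256 : ℝ) ≤ m := by exact_mod_cast hm1
  have hm2' : (m : ℝ) ≤ 511 := by exact_mod_cast hm2
  set S : Set ℂ := Complex.measurableEquivRealProd ⁻¹'
    (Ico (k * sd j) ((k + 1) * sd j) ×ˢ Ico (m * sd j) ((m + 1) * sd j)) with hS
  have hsub : S ⊆ wsq (j, k, m) := by
    rintro w hw
    rw [hS, mem_preimage, Complex.measurableEquivRealProd_apply, mem_prod] at hw
    obtain ⟨⟨a1, a2⟩, b1, b2⟩ := hw
    simp only at a1 a2 b1 b2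
    refine ⟨⟨?_, ?_⟩, ?_, ?_⟩
    · rw [hsd]
      nlinarith
    · rw [hj, hsd]
      nlinarith
    · rw [Int.floor_eq_iff]
      exact ⟨(le_div_iff₀ hs).2 a1, (div_lt_iff₀ hs).2 a2⟩
    · rw [Int.floor_eq_iff]
      exact ⟨(le_div_iff₀ hs).2 b1, (div_lt_iff₀ hs).2 b2⟩
  have hvol : volume S = ENNReal.ofReal (sd j) * ENNReal.ofReal (sd j) := by
    rw [hS, Complex.volume_preserving_equiv_real_prod.measure_preimage
      (measurableSet_Ico.prod measurableSet_Ico).nullMeasurableSet, Measure.volume_eq_prod,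
      Measure.prod_prod, Real.volume_Ico, Real.volume_Ico]
    congr 2 <;> ring
  refine le_trans ?_ (measure_mono hsub)
  rw [hvol, ← ENNReal.ofReal_mul hs.le]
  apply ENNReal.ofReal_le_ofReal
  have h5 : z.im / 512 ≤ sd j := by linarith
  have h6 : 0 ≤ z.im / 512 := by linarith
  nlinarith

end Vale.Agent.P164.H411
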