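import Vale.Agent.P164.H411.Lower

/-!
# The total measure is infinite
-/

namespace Vale.Agent.P164.H411

open Set Metric Filter Topology MeasureTheory ProbabilityTheory Vale.Agent.P164.E8
open scoped NNReal ENNReal

variable {κ : ℝ}

theorem germ_le_fut {Ω : Type*} {W : ℝ → Ω → ℝ} {s ε : ℝ} : germ W s ε ≤ fut W s := by
  refine iSup_le fun u => ?_
  exact le_iSup_of_le (⟨s + u, by
    have := u.2.1
    exact mem_Ici.2 (by linarith)⟩ : Ici s) le_rfl

/-- Independent restarts: infinitely many events occur. -/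
theorem inf_often {Ω : Type*} [mΩ : MeasurableSpace Ω] {P : Measure Ω} {W : ℝ → Ω → ℝ}
    (hW : IsDrv κ P W) {s : ℕ → ℝ} (hs0 : ∀ j, 0 ≤ s j) (hs : Monotone s) {G : ℕ → Set Ω}
    (hGf : ∀ j, MeasurableSet[fut W (s j)] (G j))
    (hGp : ∀ j, MeasurableSet[past W (s (j + 1))] (G j)) {c : ℝ} (hc : 0 < c)
    (hP : ∀ j, ENNReal.ofReal c ≤ P (G j)) : ∀ᵐ ω ∂P, ∃ᶠ j in atTop, ω ∈ G j := by
  have hprob := hW.prob
  have hGm : ∀ j, MeasurableSet (G j) := fun j => hW.past_le _ (hGp j)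
  have hPc : ∀ j, P (G j)ᶜ ≤ 1 - ENNReal.ofReal c := by
    intro j
    rw [prob_compl_eq_one_sub (hGm j)]
    exact tsub_le_tsub_left (hP j) 1
  have hpast : ∀ j n, MeasurableSet[past W (s (j + n))] (⋂ i ∈ Finset.range n, (G (j + i))ᶜ) := by
    intro j n
    refine Finset.measurableSet_biInter _ fun i hi => ?_
    have hi' : i < n := Finset.mem_range.1 hi
    exact (past_mono (hs (by omega : j + i + 1 ≤ j + n)) _ (hGp (j + i))).compl
  have key : ∀ j n, P (⋂ i ∈ Finset.range n, (G (j + i))ᶜ) ≤ (1 - ENNReal.ofReal c) ^ n := by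
    intro j n
    induction n with
    | zero => simp only [Finset.range_zero, Finset.notMem_empty, iInter_of_empty, iInter_univ,
        measure_univ, pow_zero, le_refl]
    | succ n ih =>
      have h1 : (⋂ i ∈ Finset.range (n + 1), (G (j + i))ᶜ) =
          (⋂ i ∈ Finset.range n, (G (j + i))ᶜ) ∩ (G (j + n))ᶜ := by
        ext ω
        simp only [mem_iInter, Finset.mem_range, mem_inter_iff]
        constructor
        · intro h
          exact ⟨fun i hi => h i (by omega), h n (by omega)⟩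
        · rintro ⟨h2, h3⟩ i hi
          rcases Nat.lt_succ_iff_lt_or_eq.1 hi with h4 | h4
          · exact h2 i h4
          · rw [h4]; exact h3
      have h2 := (Indep_iff (past W (s (j + n))) (fut W (s (j + n))) P).1
        (hW.indep (s (j + n)) (hs0 _)) _ _ (hpast j n) (hGf (j + n)).compl
      rw [h1, h2, pow_succ]
      exact mul_le_mul' ih (hPc _)
  have hlt : 1 - ENNReal.ofReal c < 1 :=
    ENNReal.sub_lt_self ENNReal.one_ne_top one_ne_zero (ENNReal.ofReal_pos.2 hc).ne'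
  have hzero : ∀ j, P (⋂ i, (G (j + i))ᶜ) = 0 := by
    intro j
    refine le_antisymm (ge_of_tendsto' (ENNReal.tendsto_pow_atTop_nhds_zero_of_lt_one hlt)
      fun n => (measure_mono ?_).trans (key j n)) zero_le
    intro ω hω
    rw [mem_iInter₂]
    exact fun i _ => mem_iInter.1 hω i
  have h1 : ∀ᵐ ω ∂P, ∀ j, ω ∉ ⋂ i, (G (j + i))ᶜ :=
    ae_all_iff.2 fun j => measure_eq_zero_iff_ae_notMem.1 (hzero j)
  filter_upwards [h1] with ω hω
  rw [frequently_atTop]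
  intro j
  have h2 := hω j
  rw [mem_iInter] at h2
  push Not at h2
  obtain ⟨i, hi⟩ := h2
  exact ⟨j + i, by omega, not_notMem.1 hi⟩

/-- The total measure of the trace is infinite (exact gauge). -/
theorem total_inf (h0 : 0 < κ) (h8 : κ < 8) {h : ℝ → ℝ} (hh' : IsGauge h)
    {r₀ : ℝ} (hr₀ : 0 < r₀) (hhr : ∀ r, 0 < r → r < r₀ → h r = hh κ r)
    {Ω : Type*} [MeasurableSpace Ω] {P : Measure Ω} {W : ℝ → Ω → ℝ} (hW : IsDrv κ P W)
    {γ : Ω → ℝ → ℂ} (hγ : ∀ᵐ ω ∂P, IsTrace (fun u => W u ω) (γ ω)) :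
    ∀ᵐ ω ∂P, gaugeMeasure h (γ ω '' Ici 0) = ⊤ := by
  obtain ⟨η, c₂, hη, hc₂, hev⟩ := ev_exists h0 h8 hh' hr₀ hhr
  have hTT : 0 < TT8 := by unfold TT8; norm_num
  obtain ⟨A, hA⟩ : ∃ A : ℝ, A = TT8 + 1 := ⟨_, rfl⟩
  have hA1 : 1 < A := by linarith
  have hA0 : 0 < A := by linarith
  set s : ℕ → ℝ := fun j => A ^ j - 1 with hs
  set r : ℕ → ℝ := fun j => √(A ^ j) with hr
  have hr2 : ∀ j, r j ^ 2 = A ^ j := fun j => Real.sq_sqrt (by positivity)
  have hr0 : ∀ j, 0 < r j := fun j => Real.sqrt_pos.2 (by positivity)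
  have hs0 : ∀ j, 0 ≤ s j := fun j => sub_nonneg.2 (one_le_pow₀ hA1.le)
  have hsm : Monotone s := fun i j hij => sub_le_sub_right (pow_le_pow_right₀ hA1.le hij) 1
  have hss : ∀ j, s (j + 1) = s j + r j ^ 2 * TT8 := by
    intro j
    rw [hr2]
    simp only [hs]
    have : TT8 = A - 1 := by linarith
    rw [this, pow_succ]
    ring
  choose G hG1 hG2 hG3 using fun j => hev hW (hs0 j) (hr0 j)
  have hG1' : ∀ j, MeasurableSet[germ W (s j) (r j ^ 2 * TT8)] (G j) := fun j =>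
    past_scale_shift_le (hs0 j) (hr0 j) hTT.le _ (hG1 j)
  have hfreq := inf_often hW hs0 hsm (G := G) (fun j => germ_le_fut _ (hG1' j))
    (fun j => by
      rw [hss j]
      exact germ_le_past (hs0 j) (by have := hr0 j; positivity) _ (hG1' j)) hc₂ hG2
  have htend : Tendsto (fun j : ℕ => η / (2 * (r j)⁻¹ ^ dd κ) / (2 * Real.exp 8 ^ dd κ)) atTop
      atTop := by
    have hd : 0 < dd κ := by unfold dd; linarith
    have h1 : Tendsto r atTop atTop :=
      Real.tendsto_sqrt_atTop.comp (tendsto_pow_atTop_atTop_of_one_lt hA1)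
    have h2 : Tendsto (fun j => r j ^ dd κ) atTop atTop := (tendsto_rpow_atTop hd).comp h1
    have h3 : Tendsto (fun j => (η / 2 / (2 * Real.exp 8 ^ dd κ)) * r j ^ dd κ) atTop atTop :=
      h2.const_mul_atTop (by
        have := Real.rpow_pos_of_pos (Real.exp_pos 8) (dd κ)
        positivity)
    refine h3.congr fun j => ?_
    rw [Real.inv_rpow (hr0 j).le]
    have h4 := Real.rpow_pos_of_pos (hr0 j) (dd κ)
    have h5 := Real.rpow_pos_of_pos (Real.exp_pos 8) (dd κ)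
    field_simp
  filter_upwards [hfreq, hγ] with ω hω hγω
  refine ENNReal.eq_top_of_forall_nnreal_le fun M => ?_
  obtain ⟨j, hj1, hj2⟩ := (hω.and_eventually (htend.eventually_ge_atTop (M : ℝ))).exists
  have h1 := pull_quant h0 h8 hh' hr₀ hhr (hW.cont ω) hγω (hs0 j) hTT.le (hr0 j)
    (by rw [hr2]; simp only [hs]; linarith) (hG3 j ω hj1)
  have h2 : (M : ℝ≥0∞) ≤ ENNReal.ofReal
      (η / (2 * (r j)⁻¹ ^ dd κ) / (2 * Real.exp 8 ^ dd κ)) := by
    rw [← ENNReal.ofReal_coe_nnreal]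
    exact ENNReal.ofReal_le_ofReal hj2
  exact (h2.trans h1).trans (gaugeMeasure_mono h (image_mono fun t ht => (hs0 j).trans ht.1))

/-- Lower bound of the mean near the starting point. -/
theorem lower_ev (h0 : 0 < κ) (h8 : κ < 8) {h : ℝ → ℝ} (hh' : IsGauge h)
    {r₀ : ℝ} (hr₀ : 0 < r₀) (hhr : ∀ r, 0 < r → r < r₀ → h r = hh κ r) :
    ∃ m : ℝ, 0 < m ∧ ∀ {Ω : Type*} [MeasurableSpace Ω] {P : Measure Ω} {W : ℝ → Ω → ℝ}
      (_ : IsDrv κ P W) {γ : Ω → ℝ → ℂ} (_ : ∀ᵐ ω ∂P, IsTrace (fun u => W u ω) (γ ω))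
      {R : ℝ} (_ : 0 < R),
      ∃ H : Set Ω, MeasurableSet H ∧ ENNReal.ofReal m ≤ P H ∧ ∀ᵐ ω ∂P, ω ∈ H →
        ENNReal.ofReal (m * R ^ (1 + κ / 8)) ≤ gaugeMeasure h (γ ω '' Ici 0 ∩ closedBall 0 R) := by
  obtain ⟨η, c₂, hη, hc₂, hev⟩ := ev_exists h0 h8 hh' hr₀ hhr
  have hTT : 0 < TT8 := by unfold TT8; norm_num
  refine ⟨min c₂ (η / 8), lt_min hc₂ (by positivity), ?_⟩
  intro Ω _ P W hW γ hγ R hR
  have hr : 0 < 2 / 3 * R := by positivity
  obtain ⟨H, hH1, hH2, hH3⟩ := hev hW (s := 0) le_rfl hr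
  have hWk : IsDrv κ P (scaleP (2 / 3 * R) (shiftP 0 W)) := (hW.shift le_rfl).scale hr
  refine ⟨H, hWk.past_le _ hH1, (ENNReal.ofReal_le_ofReal (min_le_left _ _)).trans hH2, ?_⟩
  filter_upwards [hγ] with ω hγω hω
  have h1 := pull_zero h0 h8 hh' hr₀ hhr (hW.cont ω) (hW.zero ω) hγω hTT.le hr (hH3 ω hω)
  have e : 3 / 2 * (2 / 3 * R) = R := by ring
  rw [e] at h1
  refine le_trans (ENNReal.ofReal_le_ofReal ?_) h1
  have hd : dd κ = 1 + κ / 8 := rfl
  have hRd : 0 < R ^ dd κ := Real.rpow_pos_of_pos hR _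
  rw [Real.inv_rpow hr.le, ← hd, Real.mul_rpow (by norm_num) hR.le]
  have h3 : (4 / 9 : ℝ) ≤ (2 / 3 : ℝ) ^ dd κ := by
    calc (4 / 9 : ℝ) = (2 / 3 : ℝ) ^ (2 : ℝ) := by norm_num
      _ ≤ (2 / 3 : ℝ) ^ dd κ :=
          Real.rpow_le_rpow_of_exponent_ge (by norm_num) (by norm_num) (by rw [hd]; linarith)
  calc min c₂ (η / 8) * R ^ dd κ ≤ η / 8 * R ^ dd κ := by gcongr; exact min_le_right _ _
    _ ≤ η / 2 * ((4 / 9) * R ^ dd κ) := by nlinarith
    _ ≤ η / 2 * ((2 / 3) ^ dd κ * R ^ dd κ) := by gcongr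
    _ = η / (2 * ((2 / 3) ^ dd κ * R ^ dd κ)⁻¹) := by
        field_simp

end Vale.Agent.P164.H411
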