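import Vale.Agent.P164.H411.DomMean

/-!
# Transfer of the gauge measure under conformal maps, simultaneously for all maps
-/

namespace Vale.Agent.P164.H411

open Set Metric Filter Topology MeasureTheory ProbabilityTheory
open scoped NNReal ENNReal

variable {φ : ℂ → ℂ}

theorem gm_empty {h : ℝ → ℝ} (hh : IsGauge h) : gaugeMeasure h ∅ = 0 := by
  have h2 := gmM_apply hh ∅
  rw [measure_empty] at h2
  exact h2.symm

theorem gm_iUnion_null {h : ℝ → ℝ} (hh : IsGauge h) {ι : Type*} [Countable ι] {E : ι → Set ℂ}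
    (hE : ∀ i, gaugeMeasure h (E i) = 0) : gaugeMeasure h (⋃ i, E i) = 0 := by
  refine le_antisymm ((gaugeMeasure_iUnion_le hh E).trans ?_) zero_le
  simp only [hE, tsum_zero, le_refl]

theorem gm_biUnion_lt {h : ℝ → ℝ} (hh : IsGauge h) {ι : Type*} (s : Finset ι) {E : ι → Set ℂ}
    (hE : ∀ i ∈ s, gaugeMeasure h (E i) < ⊤) : gaugeMeasure h (⋃ i ∈ s, E i) < ⊤ := by
  have h1 : (⋃ i ∈ s, E i) = ⋃ i : s, E i := by
    ext x
    simp
  rw [h1]
  refine (gaugeMeasure_iUnion_le hh _).trans_lt ?_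
  rw [tsum_fintype]
  exact ENNReal.sum_lt_top.2 fun i _ => hE i i.2

/-- Real segments are null for gauges which are small compared with `r` at arbitrarily small
scales. -/
theorem gm_real_seg {k : ℝ → ℝ} (hk : IsGauge k)
    (hlim : ∀ ε : ℝ, 0 < ε → ∀ δ : ℝ, 0 < δ → ∃ r : ℝ, 0 < r ∧ r ≤ δ ∧ k r ≤ ε * r) {A : ℝ}
    (hA : 0 ≤ A) : gaugeMeasure k {z : ℂ | z.im = 0 ∧ |z.re| ≤ A} = 0 := by
  refine le_antisymm (gaugeMeasure_le fun δ hδ => ?_) zero_le
  refine ENNReal.le_of_forall_pos_le_add fun ε hε _ => ?_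
  rw [zero_add]
  have hε1 : (0 : ℝ) < (ε : ℝ) / (2 * A + 2) := by
    have : (0 : ℝ) < ε := by exact_mod_cast hε
    positivity
  obtain ⟨r, hr0, hr1, hr2⟩ := hlim _ hε1 (min δ 1) (lt_min hδ one_pos)
  have hrδ : r ≤ δ := hr1.trans (min_le_left _ _)
  have hr11 : r ≤ 1 := hr1.trans (min_le_right _ _)
  obtain ⟨N, hN⟩ : ∃ N : ℕ, N = ⌈2 * A / r⌉₊ := ⟨_, rfl⟩
  have hN1 : 2 * A / r ≤ N := hN ▸ Nat.le_ceil _
  have hN2 : (N : ℝ) < 2 * A / r + 1 := hN ▸ Nat.ceil_lt_add_one (by positivity)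
  set V : Fin (N + 1) → Set ℂ := fun i =>
    {z : ℂ | z.im = 0 ∧ |z.re - (-A + r * i)| ≤ r / 2} with hV
  have hdiam : ∀ i, Bornology.IsBounded (V i) ∧ Metric.diam (V i) ≤ r := by
    intro i
    have hd : ∀ x ∈ V i, ∀ y ∈ V i, dist x y ≤ r := by
      intro x hx y hy
      have e : x - y = ((x.re - y.re : ℝ) : ℂ) := by
        apply Complex.ext
        · simp
        · simp [hx.1, hy.1]
      rw [dist_eq_norm, e, Complex.norm_real, Real.norm_eq_abs]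
      have h1 := abs_le.1 hx.2
      have h2 := abs_le.1 hy.2
      rw [abs_le]
      constructor <;> linarith
    exact ⟨Metric.isBounded_iff.2 ⟨r, fun x hx y hy => hd x hx y hy⟩,
      Metric.diam_le_of_forall_dist_le hr0.le hd⟩
  have h1 := pre_le_tsum hk.zero hδ.le (E := {z : ℂ | z.im = 0 ∧ |z.re| ≤ A}) V ?_
    (fun i => ⟨(hdiam i).1, (hdiam i).2.trans hrδ⟩)
  · refine h1.trans ?_
    rw [tsum_fintype]
    calc ∑ i, ENNReal.ofReal (k (Metric.diam (V i)))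
        ≤ ∑ _i : Fin (N + 1), ENNReal.ofReal ((ε : ℝ) / (2 * A + 2) * r) := by
          refine Finset.sum_le_sum fun i _ => ENNReal.ofReal_le_ofReal ?_
          exact (hk.mono (mem_Ici.2 Metric.diam_nonneg) (mem_Ici.2 hr0.le) (hdiam i).2).trans hr2
      _ = ENNReal.ofReal (((N : ℝ) + 1) * ((ε : ℝ) / (2 * A + 2) * r)) := by
          rw [Finset.sum_const, Finset.card_univ, Fintype.card_fin, nsmul_eq_mul,
            ENNReal.ofReal_mul (p := (N : ℝ) + 1) (by positivity), ← ENNReal.ofReal_natCast]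
          push_cast
          rfl
      _ ≤ ENNReal.ofReal (ε : ℝ) := by
          apply ENNReal.ofReal_le_ofReal
          have h3 : ((N : ℝ) + 1) * r ≤ 2 * A + 2 := by
            have h4 : (N : ℝ) * r ≤ 2 * A + r := by
              have := mul_le_mul_of_nonneg_right hN2.le hr0.le
              rw [add_mul, div_mul_cancel₀ _ hr0.ne', one_mul] at this
              exact this
            linarith
          calc ((N : ℝ) + 1) * ((ε : ℝ) / (2 * A + 2) * r)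
              = (ε : ℝ) / (2 * A + 2) * (((N : ℝ) + 1) * r) := by ring
            _ ≤ (ε : ℝ) / (2 * A + 2) * (2 * A + 2) := mul_le_mul_of_nonneg_left h3 hε1.le
            _ = ε := by field_simp
      _ = (ε : ℝ≥0∞) := ENNReal.ofReal_coe_nnreal
  · rintro z ⟨hz1, hz2⟩
    have h2 := abs_le.1 hz2
    obtain ⟨m, hm⟩ : ∃ m : ℕ, m = ⌊(z.re + A) / r + 1 / 2⌋₊ := ⟨_, rfl⟩
    have hnn : 0 ≤ (z.re + A) / r + 1 / 2 := by
      have : 0 ≤ (z.re + A) / r := div_nonneg (by linarith [h2.1]) hr0.le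
      linarith
    have hm1 : (m : ℝ) ≤ (z.re + A) / r + 1 / 2 := hm ▸ Nat.floor_le hnn
    have hm2 : (z.re + A) / r + 1 / 2 < m + 1 := hm ▸ Nat.lt_floor_add_one _
    have hmN : m < N + 1 := by
      have h4 : (z.re + A) / r ≤ 2 * A / r := by
        apply div_le_div_of_nonneg_right _ hr0.le
        linarith [h2.2]
      have h5 : (m : ℝ) < N + 1 := by linarith
      exact_mod_cast h5
    refine mem_iUnion.2 ⟨⟨m, hmN⟩, hz1, ?_⟩
    have e : z.re - (-A + r * ((⟨m, hmN⟩ : Fin (N + 1)) : ℕ)) = r * ((z.re + A) / r - m) := by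
      simp only
      field_simp
      ring
    rw [e, abs_mul, abs_of_pos hr0]
    have h6 : |(z.re + A) / r - m| ≤ 1 / 2 := by
      rw [abs_le]
      constructor <;> linarith
    nlinarith

/-- Subsets of the real line. -/
theorem gm_real_line {k : ℝ → ℝ} (hk : IsGauge k)
    (hlim : ∀ ε : ℝ, 0 < ε → ∀ δ : ℝ, 0 < δ → ∃ r : ℝ, 0 < r ∧ r ≤ δ ∧ k r ≤ ε * r) :
    gaugeMeasure k {z : ℂ | z.im = 0} = 0 := by
  have h1 : {z : ℂ | z.im = 0} = ⋃ n : ℕ, {z : ℂ | z.im = 0 ∧ |z.re| ≤ n} := by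
    ext z
    simp only [mem_ofPred_eq, mem_iUnion, exists_and_left]
    exact ⟨fun h => ⟨h, exists_nat_ge _⟩, fun h => h.1⟩
  rw [h1]
  exact gm_iUnion_null hk fun n => gm_real_seg hk hlim (Nat.cast_nonneg n)

/-- Gauges which are often below the exact gauge are small compared with `r` at small scales. -/
theorem often_lim {κ : ℝ} (h0 : 0 < κ) (h8 : κ < 8) {k : ℝ → ℝ} {C₀ : ℝ} (hC₀ : 0 < C₀)
    (hO : OftenLe κ k C₀) :
    ∀ ε : ℝ, 0 < ε → ∀ δ : ℝ, 0 < δ → ∃ r : ℝ, 0 < r ∧ r ≤ δ ∧ k r ≤ ε * r := by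
  intro ε hε δ hδ
  obtain ⟨δ₁, hδ₁, H⟩ := E8.FiniteSum_lim h0 h8 (h := hh κ) one_pos (fun _ _ _ => rfl) (ε / C₀)
    (by positivity)
  obtain ⟨ρ, hρ0, hρ1, hρ⟩ := hO (min (min δ δ₁) 1) (lt_min (lt_min hδ hδ₁) one_pos)
  have h1 : ρ < δ := hρ1.trans_le ((min_le_left _ _).trans (min_le_left _ _))
  have h2 : ρ < δ₁ := hρ1.trans_le ((min_le_left _ _).trans (min_le_right _ _))
  have h3 : ρ < 1 := hρ1.trans_le (min_le_right _ _)
  refine ⟨ρ, hρ0, h1.le, ?_⟩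
  have h4 := hρ ρ ⟨by
    calc ρ ^ 5 ≤ ρ ^ 1 := pow_le_pow_of_le_one hρ0.le h3.le (by norm_num)
      _ = ρ := pow_one _, le_rfl⟩
  have h5 := H ρ hρ0 h2.le
  rw [exactG_eq] at h4
  calc k ρ ≤ C₀ * hh κ ρ := h4
    _ ≤ C₀ * (ε / C₀ * ρ) := mul_le_mul_of_nonneg_left h5 hC₀.le
    _ = ε * ρ := by field_simp

/-- The part in the open half-plane carries all the measure. -/
theorem gm_pos_uhp {h : ℝ → ℝ} (hh : IsGauge h)
    (hlim : ∀ ε : ℝ, 0 < ε → ∀ δ : ℝ, 0 < δ → ∃ r : ℝ, 0 < r ∧ r ≤ δ ∧ h r ≤ ε * r)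
    {E : Set ℂ} (hE : ∀ z ∈ E, 0 ≤ z.im) (hpos : 0 < gaugeMeasure h E) :
    0 < gaugeMeasure h (E ∩ uhp) := by
  rw [pos_iff_ne_zero]
  intro h0
  have h1 : E ⊆ ⋃ b : Bool, cond b (E ∩ uhp) {z : ℂ | z.im = 0} := by
    intro z hz
    rcases eq_or_lt_of_le (hE z hz) with h2 | h2
    · exact mem_iUnion.2 ⟨false, h2.symm⟩
    · exact mem_iUnion.2 ⟨true, hz, h2⟩
  have h2 : gaugeMeasure h E ≤ 0 := by
    refine (gaugeMeasure_mono h h1).trans (le_of_eq ?_)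
    refine gm_iUnion_null hh fun b => ?_
    cases b
    · exact gm_real_line hh hlim
    · exact h0
  exact absurd h2 (not_le.2 hpos)

theorem wsq_sub {i : ℤ × ℤ × ℤ} {z₀ : ℂ} (hz₀ : z₀ ∈ wsq i) :
    wsq i ⊆ closedBall z₀ (z₀.im / 100) := by
  intro z hz
  rw [mem_closedBall, dist_comm]
  have := wsq_dist hz₀ hz
  have := wsq_im hz₀
  linarith

/-- The inverse is Lipschitz on the image of a square. -/
theorem cinv_lip (hφ : IsConfMap φ) (i : ℤ × ℤ × ℤ) :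
    ∃ L : ℝ≥0, LipschitzOnWith L (cinv φ) (φ '' wsq i) := by
  rcases (wsq i).eq_empty_or_nonempty with he | ⟨z₀, hz₀⟩
  · exact ⟨0, by rw [he, image_empty]; exact lipschitzOnWith_empty _ _⟩
  have hy := wsq_im hz₀
  have hb := bd_pos hφ hy
  have hsub : closedBall (φ z₀) (bd φ z₀ / 2) ⊆ φ '' uhp := by
    intro w hw
    by_contra hcon
    have h1 : infDist (φ z₀) (φ '' uhp)ᶜ ≤ dist (φ z₀) w := infDist_le_dist_of_mem hcon
    rw [mem_closedBall, dist_comm] at hw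
    change bd φ z₀ ≤ _ at h1
    linarith
  have himg : φ '' wsq i ⊆ closedBall (φ z₀) (bd φ z₀ / 2) := by
    rintro _ ⟨z, hz, rfl⟩
    have h1 := (dstr hφ hy).2 z (wsq_sub hz₀ hz) z₀ (wsq_sub hz₀ hz₀)
    have h3 : dist z z₀ ≤ z₀.im / 128 := by rw [dist_comm]; exact wsq_dist hz₀ hz
    have h4 : 12 * bd φ z₀ / z₀.im * dist z z₀ ≤ 12 * bd φ z₀ / 128 := by
      calc 12 * bd φ z₀ / z₀.im * dist z z₀ ≤ 12 * bd φ z₀ / z₀.im * (z₀.im / 128) := by gcongr
        _ = 12 * bd φ z₀ / 128 := by field_simp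
    rw [mem_closedBall]
    linarith
  have hd : ContinuousOn (deriv (cinv φ)) (closedBall (φ z₀) (bd φ z₀ / 2)) :=
    ((diffOn_cinv hφ).deriv (isOpen_dom hφ)).continuousOn.mono hsub
  obtain ⟨C, hC⟩ := (isCompact_closedBall _ _).exists_bound_of_continuousOn hd
  refine ⟨C.toNNReal, LipschitzOnWith.mono ?_ himg⟩
  refine Convex.lipschitzOnWith_of_nnnorm_deriv_le (𝕜 := ℂ) (fun x hx => ?_) (fun x hx => ?_)
    (convex_closedBall _ _)
  · exact (diffOn_cinv hφ).differentiableAt ((isOpen_dom hφ).mem_nhds (hsub hx))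
  · rw [← NNReal.coe_le_coe, coe_nnnorm]
    exact (hC x hx).trans (Real.le_coe_toNNReal C)

theorem phi_lip (hφ : IsConfMap φ) {z₀ : ℂ} (hy : 0 < z₀.im) :
    ∃ L : ℝ≥0, LipschitzOnWith L φ (closedBall z₀ (z₀.im / 100)) := by
  have hb := bd_pos hφ hy
  refine ⟨(12 * bd φ z₀ / z₀.im).toNNReal, LipschitzOnWith.of_dist_le_mul fun x hx y hy' => ?_⟩
  rw [Real.coe_toNNReal _ (by positivity)]
  exact (dstr hφ hy).2 x hx y hy'

/-- Positivity is preserved. -/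
theorem gm_pos_img {h : ℝ → ℝ} (hh : IsGauge h) (hφ : IsConfMap φ) {E : Set ℂ} (hE : E ⊆ uhp)
    (hpos : 0 < gaugeMeasure h E) : 0 < gaugeMeasure h (φ '' E) := by
  rw [pos_iff_ne_zero]
  intro h0
  have h1 : E ⊆ ⋃ i, E ∩ wsq i := by
    rw [← inter_iUnion, wsq_cover]
    exact fun z hz => ⟨hz, hE hz⟩
  have h2 : gaugeMeasure h E ≤ 0 := by
    refine (gaugeMeasure_mono h h1).trans (le_of_eq (gm_iUnion_null hh fun i => ?_))
    obtain ⟨L, hL⟩ := cinv_lip hφ i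
    have h3 : gaugeMeasure h (φ '' (E ∩ wsq i)) = 0 :=
      le_antisymm ((gaugeMeasure_mono h (image_mono inter_subset_left)).trans h0.le) zero_le
    have h4 := gaugeMeasure_image_eq_zero hh (hL.mono (image_mono inter_subset_right)) h3
    have h5 : cinv φ '' (φ '' (E ∩ wsq i)) = E ∩ wsq i := by
      rw [image_image]
      ext z
      constructor
      · rintro ⟨x, hx, rfl⟩
        change cinv φ (φ x) ∈ E ∩ wsq i
        rw [cinv_left hφ (hE hx.1)]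
        exact hx
      · intro hz
        exact ⟨z, hz, cinv_left hφ (hE hz.1)⟩
    rwa [h5] at h4
  exact absurd h2 (not_le.2 hpos)

/-- Null sets are preserved. -/
theorem gm_null_img {h : ℝ → ℝ} (hh : IsGauge h) (hφ : IsConfMap φ) {E : Set ℂ} (hE : E ⊆ uhp)
    (h0 : gaugeMeasure h E = 0) : gaugeMeasure h (φ '' E) = 0 := by
  have h1 : φ '' E ⊆ ⋃ i, φ '' (E ∩ wsq i) := by
    rw [← image_iUnion, ← inter_iUnion, wsq_cover]
    exact image_mono fun z hz => ⟨hz, hE hz⟩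
  refine le_antisymm ((gaugeMeasure_mono h h1).trans (le_of_eq (gm_iUnion_null hh fun i => ?_)))
    zero_le
  rcases (E ∩ wsq i).eq_empty_or_nonempty with he | ⟨z₀, -, hz₀⟩
  · rw [he, image_empty]
    exact gm_empty hh
  · obtain ⟨L, hL⟩ := phi_lip hφ (wsq_im hz₀)
    refine gaugeMeasure_image_eq_zero hh (hL.mono (inter_subset_right.trans (wsq_sub hz₀))) ?_
    exact le_antisymm ((gaugeMeasure_mono h inter_subset_left).trans h0.le) zero_le

/-- Local finiteness is preserved. -/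
theorem gm_fin_img {k : ℝ → ℝ} (hk : IsGauge k) (hφ : IsConfMap φ)
    {E : Set ℂ} (hfin : ∀ R : ℝ, gaugeMeasure k (E ∩ closedBall 0 R) < ⊤)
    {K : Set ℂ} (hK : IsCompact K) (hKs : K ⊆ φ '' uhp) :
    gaugeMeasure k (φ '' (E ∩ uhp) ∩ K) < ⊤ := by
  have hcK : IsCompact (cinv φ '' K) := hK.image_of_continuousOn
    ((diffOn_cinv hφ).continuousOn.mono hKs)
  have hcs : cinv φ '' K ⊆ uhp := by
    rintro _ ⟨w, hw, rfl⟩
    exact cinv_mem (hKs hw)
  obtain ⟨t, ht1, ht2⟩ := hcK.elim_nhds_subcover (fun z => ball z (z.im / 100)) (fun z hz => by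
    have : 0 < z.im := hcs hz
    exact ball_mem_nhds z (by positivity))
  have hsub : φ '' (E ∩ uhp) ∩ K ⊆ ⋃ z ∈ t, φ '' (E ∩ closedBall z (z.im / 100)) := by
    rintro _ ⟨⟨x, ⟨hx1, hx2⟩, rfl⟩, hxK⟩
    have h1 : x ∈ cinv φ '' K := ⟨φ x, hxK, cinv_left hφ hx2⟩
    obtain ⟨z, hz, hxz⟩ := mem_iUnion₂.1 (ht2 h1)
    exact mem_iUnion₂.2 ⟨z, hz, x, ⟨hx1, ball_subset_closedBall hxz⟩, rfl⟩
  refine (gaugeMeasure_mono k hsub).trans_lt (gm_biUnion_lt hk t fun z hz => ?_)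
  have hy : 0 < z.im := hcs (ht1 z hz)
  obtain ⟨L, hL⟩ := phi_lip hφ hy
  refine gm_lip_fin hk (hL.mono inter_subset_right) ?_
  refine (gaugeMeasure_mono k (inter_subset_inter_right _ ?_)).trans_lt
    (hfin (‖z‖ + z.im / 100))
  intro x hx
  rw [mem_closedBall, dist_eq_norm] at hx
  rw [mem_closedBall, dist_zero_right]
  calc ‖x‖ = ‖z + (x - z)‖ := by congr 1; ring
    _ ≤ ‖z‖ + ‖x - z‖ := norm_add_le _ _
    _ ≤ _ := by linarith

end Vale.Agent.P164.H411
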